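import Crest.Agent.X212.An.Job
import Crest.Agent.X212.M.Jcv
import Crest.Agent.X212.Bki64.Lim
import Crest.Agent.X212.Eqv71.Cyl

/-!
# X212 / RF-ISO (helper85), part 1: limits and isomorphisms
-/

set_option autoImplicit false
set_option linter.unusedSectionVars false
open Set Filter Topology Function MeasureTheory
open scoped ContDiff Manifold

noncomputable section
namespace Crest.Agent.X212.Pat85

open An Nd18 Cmp73 Pj41 Bki64 Eqv71

section gen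
variable {E : Type} [NormedAddCommGroup E] [NormedSpace ℝ E] [FiniteDimensional ℝ E]
  [MeasurableSpace E] [BorelSpace E]
  {HM : Type} [TopologicalSpace HM] {I : ModelWithCorners ℝ E HM} [I.Boundaryless]
  {M : Type} [TopologicalSpace M] [ChartedSpace HM M] [IsManifold I ∞ M]
  [MeasurableSpace M] {ι : Type} [Fintype ι] {lam : Type} [Fintype lam] {r : ℕ} {α : Type}
  {B : Base M ι lam} {G : Geo I M ι lam} {l : Filter α} {O : Set M}
  {e : α → ι → Π x : M, TangentSpace I x} {c : α → Cfg M ι lam r} {c₀ c₁ : Cfg M ι lam r}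
  {u : ∀ i, M → CL (c i).m.V c₀.m.V} {ζ : α → Circle} {g : M → CL c₀.m.V c₁.m.V} {ξ : Circle}

theorem ulim_refl (hB : B.OK I) (hG : G.OK B) (a : Ad0 c₀ B G) :
    ULim I B l O (fun _ => G.F.e) (fun _ => c₀) c₀ (fun _ => c₀.m.p) fun _ => 1 := by
  have k := ceq_refl hB hG a isOpen_univ
  have p := (par0_iff ((IsConn.on a.conn univ).proj' hB)).2 k.W
  refine ⟨fun x _ => ⟨univ, isOpen_univ, trivial, .of_forall fun _ => k.m⟩, fun b => ?_, ?_, ?_⟩
  · have := fun x => congrArg (· ∘L trn (c₀.m.p x)) (p x trivial b)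
    simp only [Pre.D_def] at this
    simp only [this, ContinuousLinearMap.zero_comp]
    exact Cv.const 0
  · have := fun x => (k.Φ x trivial).symm
    simp only [id] at this
    simp only [this]
    exact Cv.fixed' a.sm
  · simpa using tendsto_const_nhds

/-- a limit may be replaced by an isomorphic one -/
theorem ulim_post (hO : IsOpen O) (hB : B.OK I) (h : ULim I B l O e c c₀ u ζ)
    (he : ∀ a, Loc66.VCv l O (fun i => e i a) (G.F.e a)) (hc : ∀ᶠ i in l, (c i).m.OK I B)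
    (a₀ : Ad0 c₀ B G) (a₁ : Ad0 c₁ B G)
    (k : CEq G.F c₀ c₁ O id (fun x b a => B.P b a x) B.l g ξ) :
    ULim I B l O e c c₁ (fun i x => g x ∘L u i x) fun i => ξ * ζ i := by
  have gi := Iso0.of_mEq hO k.m (OK.on a₀.ok _) (OK.on a₁.ok _)
  have p := (par0_iff ((IsConn.on a₁.conn O).proj' hB)).2 k.W
  have cg : Cv I l O (fun _ => g) g := Cv.fixed hO gi.su
  have ct : Cv I l O (fun _ x => trn (g x)) fun x => trn (g x) := Cv.fixed hO fun x hx => by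
    simpa only [ad_trn] using (gi.su x hx).ad
  have ui : ∀ x ∈ O, ∃ N, IsOpen N ∧ x ∈ N ∧ N ⊆ O ∧ ∀ᶠ i in l,
      (c i).m.OK I B ∧ Iso0 I (c i).m c₀.m N (u i) := fun x hx =>
    let ⟨N, h1, h2, h3⟩ := h.m x hx
    ⟨N ∩ O, h1.inter hO, ⟨h2, hx⟩, inter_subset_right, (hc.and h3).mono fun _ j => ⟨j.1,
      (Iso0.of_mEq h1 j.2 (OK.on j.1 _) (OK.on a₀.ok _)).mono inter_subset_left⟩⟩
  refine ⟨fun x hx => ?_, fun a => ?_, ?_, ?_⟩
  · obtain ⟨N, h1, h2, h3, h4⟩ := ui x hx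
    exact ⟨N, h1, h2, h4.mono fun i j => (j.2.trans (gi.mono h3)).mEq (OK.on j.1 _) (OK.on a₁.ok _)⟩
  · rcases l.eq_or_neBot with rfl | _
    · exact ⟨fun _ _ _ => ⟨0, by simp⟩, fun _ _ => tendsto_bot⟩
    refine (((((cg.dv hO (he a).mb (he a).pt).sub (cg.D hO G.F.toPre a)).clm_comp ct).add
      (cg.clm_comp ((h.A a).clm_comp ct))).congr (fun x hx => ?_) fun x _ => ?_)
    · obtain ⟨N, h1, h2, h3, h4⟩ := ui x hx
      refine (h4.prod_mk (h1.mem_nhds h2)).mono fun ⟨i, y⟩ ⟨j, hy⟩ => ?_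
      have e1 : c₁.W a y ∘L g y = g y ∘L c₀.W a y - G.F.D a g y := by
        rw [← sub_eq_zero, ← p y (h3 hy) a]; abel
      have e2 : u i y ∘L trn (u i y) ∘L trn (g y) = trn (g y) := by
        rw [← ContinuousLinearMap.comp_assoc, ← ad_trn, ← ad_trn, (j.2.iso y hy).tgt,
          (gi.iso y (h3 hy)).symm.left]
      simp only
      rw [dv_cc (gi.su y (h3 hy)) (j.2.su y hy), ← ContinuousLinearMap.comp_assoc (c₁.W a y), e1,
        ← ad_trn (g y ∘L _), ad_comp, ad_trn, ad_trn]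
      simp only [ContinuousLinearMap.comp_sub, ContinuousLinearMap.sub_comp,
        ContinuousLinearMap.comp_add, ContinuousLinearMap.add_comp, ContinuousLinearMap.comp_assoc, e2]
      abel
    · simp [Pre.D_def]
  · refine ((cg.app h.Φ).clm (csB c₁.m.J ξ)).congr' hO (.of_forall fun i x hx => ?_) fun x hx =>
      k.Φ x hx
    rw [csB_apply, map_cs (gi.J x hx).symm, cs_mul a₁.ok.Jsq, Circle.coe_mul]
    rfl
  · simpa only [k.z, Circle.coe_mul, mul_pow, mul_smul] using h.z.const_smul ((ξ : ℂ) ^ 2)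

theorem clim_post {N : α → ℕ} {N₀ N₁ : ℕ} {J₀ : En (Fin N₀)} {J₁ : En (Fin N₁)}
    {u : ∀ i, CL (Eu (Fin (N i))) (Eu (Fin N₀))} {ψ : ∀ i, L2c (Fin (N i))} {ψ₀ : L2c (Fin N₀)}
    {g : CL (Eu (Fin N₀)) (Eu (Fin N₁))} (h : CLim l J₀ u ψ ψ₀) (hJ : g ∘L J₀ = J₁ ∘L g)
    (hs : J₁ * J₁ = -1) (η : Circle) :
    CLim l J₁ (fun i => g ∘L u i) ψ ((csE J₁ η ∘L g).compLpL 2 μc ψ₀) := by
  obtain ⟨θ, h⟩ := h
  refine ⟨fun i => η * θ i, ((((csE J₁ η ∘L g).compLpL 2 μc).continuous.tendsto _).comp h).congr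
    fun i => (Cnt93.LU_LU _ _ _).trans ?_⟩
  refine congrArg (fun T => Cnt93.LU T _) (ContinuousLinearMap.ext fun b => ?_)
  show cs J₁ _ (g (cs J₀ _ (u i b))) = cs J₁ _ (g (u i b))
  rw [map_cs hJ, cs_mul hs, Circle.coe_mul]

end gen

section nk
variable {E : Type} [NormedAddCommGroup E] [NormedSpace ℝ E] [FiniteDimensional ℝ E]
  [MeasurableSpace E] [BorelSpace E]
  {HM : Type} [TopologicalSpace HM] {I : ModelWithCorners ℝ E HM} [I.Boundaryless]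
  {M : Type} [TopologicalSpace M] [ChartedSpace HM M] [IsManifold I ∞ M] [MeasurableSpace M]
  [T2Space M] [BorelSpace M] [SecondCountableTopology M]
  {E3 : Type} [NormedAddCommGroup E3] [NormedSpace ℝ E3] [FiniteDimensional ℝ E3]
  [MeasurableSpace E3] [BorelSpace E3]
  {H3 : Type} [TopologicalSpace H3] {I3 : ModelWithCorners ℝ E3 H3} [I3.Boundaryless]
  {Y : Type} [TopologicalSpace Y] [ChartedSpace H3 Y] [IsManifold I3 ∞ Y] [T2Space Y]
  [MeasurableSpace Y] [BorelSpace Y] [SecondCountableTopology Y] [CompactSpace Y]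
  {κ lam : Type} [Fintype κ] [Fintype lam] {D : YD I3 Y κ lam} {β β' : YC Y κ lam} {r : ℕ}
  {B : Base M (Option κ) lam} {G : Geo I M (Option κ) lam} {K : Nk D B G}
  {c : Cfg M (Option κ) lam r} {ζ ζ' : Circle}

theorem isEnd_b (b : Bool) : IsEnd (bif b then atBot else atTop) := by
  cases b; exacts [isEnd_top, isEnd_bot]

theorem near_cn (hβ : D.Adm β) (a : Ad0 c B G) {t η : ℝ} : K.Near c t β η ↔
    Ioo (t - η⁻¹) (t + η⁻¹) ⊆ K.J ∧ ∃ u ζ, Cn D (K.pb (noz c)) β u ζ (win Y t η⁻¹) η :=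
  and_congr_right fun s => exists₂_congr fun _ _ =>
    ⟨fun H => cl_of_cls (c := K.pb (noz c)) hβ (admOn_pb K a s) ⟨H.op, H.m, H.A, H.P⟩, fun H =>
      have k := H.cls hβ isOpen_Ioo (admOn_pb K a s); ⟨k.op, k.m, k.A, k.P⟩⟩

theorem cn_lim (hβ : D.Adm β) (a : Ad0 c B G) {l : Filter ℝ} (hl : IsEnd l) (H : K.Lim c β ζ l) :
    K.J ∈ l ∧ ∃ u, ∀ η > 0, ∀ L, ∀ᶠ s in l, Cn D (K.pb (noz c)) β u ζ (win Y s L) η :=
  let ⟨u, H⟩ := H
  ⟨let ⟨_, h1, h2, _⟩ := H 0 1 one_pos; mem_of_superset h1 h2, u, fun _ hη L =>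
    cn_of_lim hβ hl (admOn_pb K a Subset.rfl) (fun k η hη =>
      let ⟨S, h1, h2, H⟩ := H k η hη; ⟨S, h1, h2, H.op, H.m, H.A, H.P⟩) hη L⟩

theorem near_of_lim (hβ : D.Adm β) (a : Ad0 c B G) {b : Bool}
    (H : K.Lim c β ζ (bif b then atBot else atTop)) {η : ℝ} (hη : 0 < η) :
    ∃ T, ∀ t, T ≤ -X212.M.pm b * t → K.Near c t β η := by
  obtain ⟨h1, u, h2⟩ := cn_lim hβ a (isEnd_b b) H
  have := (((isEnd_b b).ev h1 η⁻¹).and (h2 η hη η⁻¹)).mono fun t ht =>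
    (near_cn hβ a).2 ⟨Ioo_subset_Icc_self.trans ht.1, _, _, ht.2⟩
  cases b
  · obtain ⟨T, hT⟩ := eventually_atTop.1 this
    exact ⟨T, fun t ht => hT t (by simpa [X212.M.pm] using ht)⟩
  · obtain ⟨T, hT⟩ := eventually_atBot.1 this
    exact ⟨-T, fun t ht => hT t (by simpa [X212.M.pm] using ht)⟩

/-- two limits of one configuration -/
theorem stb_of_lim (hβ : D.Adm β) (hβ' : D.Adm β') (a : Ad0 c B G) {l : Filter ℝ} [l.NeBot]
    (hl : IsEnd l) (H : K.Lim c β ζ l) (H' : K.Lim c β' ζ' l) : ∃ g, Stb D β β' g (ζ' / ζ) := by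
  obtain ⟨h1, u, h2⟩ := cn_lim hβ a hl H
  obtain ⟨-, u', h3⟩ := cn_lim hβ' a hl H'
  refine stb_of_eta hβ hβ' one_pos fun η hη => ?_
  obtain ⟨s, s1, s2, s3⟩ := ((hl.ev h1 1).and ((h2 η hη 1).and (h3 η hη 1))).exists
  exact ⟨_, _, s, u, u', ζ, ζ', admOn_pb K a (Ioo_subset_Icc_self.trans s1), s2, s3,
    by simpa using hη.le, by simpa using hη.le⟩

omit G in
theorem near_post (hβ : D.Adm β) (hβ' : D.Adm β') {g} (k : Stb D β β' g ζ) {ε : ℝ} (hε : 0 < ε) :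
    ∃ η > 0, ∀ (G : Geo I M (Option κ) lam) (K : Nk D B G) (c : Cfg M (Option κ) lam r) t,
      Ad0 c B G → K.Near c t β η → K.Near c t β' ε := by
  obtain ⟨η, h0, h1⟩ := act_eta hβ hβ' hε
  have p := lt_min h0 hε
  refine ⟨min η ε, p, fun G K c t a H => ?_⟩
  obtain ⟨s, u, ξ, H⟩ := (near_cn hβ a).1 H
  have i := inv_anti₀ p (min_le_right η ε)
  have j : Ioo (t - ε⁻¹) (t + ε⁻¹) ⊆ Ioo (t - (min η ε)⁻¹) (t + (min η ε)⁻¹) :=
    Ioo_subset_Ioo (by linarith) (by linarith)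
  exact (near_cn hβ' a).2 ⟨j.trans s, _, _, h1 _ _ _ _ _ _ _ k
    (H.mono (win_op _ _) (prod_mono_right j) p (min_le_left _ _))⟩

theorem brk_zero {N : ND Y lam} {q : YW I3 Y →₀ ℝ} {k : ℝ} {j : ℕ}
    (h : N.Brk D q β ζ β' ζ' k j) (hj : j = 0) : β = β' ∧ k = 0 := by
  cases h with
  | nil => exact ⟨rfl, rfl⟩
  | bub => cases hj
  | mov => cases hj

end nk

end Crest.Agent.X212.Pat85
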