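import Crest.Agent.X212.Pat85.UqA
import Crest.Agent.X212.Pat85.IsA
import Crest.Agent.X212.Wrd81.Loc2

/-!
# X212 / RFQ-OUT (helper85): the outer part near a regular face object
-/

set_option autoImplicit false
set_option linter.unusedSectionVars false
noncomputable section
open scoped Manifold ContDiff Topology
open Set Function Filter

namespace Crest.Agent.X212.Pat85
open An M Nd18 Rf65 Mp86.St
open An.Job (Sol SolOn StrOn)

variable {Wi : Type} {X : Mf 4} {A κ lam : Type} [Fintype A] [Fintype κ] [Fintype lam]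
  [DecidableEq lam] {M : Mark X A κ} {W : World M} {N : ML M lam} {Λ : Lns W N}
  {A' h : Type} [Fintype A'] [DecidableEq A'] [Fintype h] {r n : ℕ}
  {J : Job Wi Λ A' h r n} {c : M.Cl} {δ : ℝ} {σ : Cel A'} {sh : Set A'} {n₀ : ℤ} {x : A}
  {Adm : (Wi →₀ ℝ) → Prop} {q : Wi →₀ ℝ} {y y' : J.Obc c} {p : Prt A A' h}

/-- equivalent parts have equivalent limits -/
theorem eqv_of_eqP (hJ : J.OK) (hσ : σ ∈ J.𝒦) (hp : J.POK σ c p) (H : SolOn p σ q y)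
    (H' : SolOn p σ q y') (e : EqP p y y') {a : A} (ha : a ∈ cylW c) {b : Bool} (hb : p.En a b) :
    (J.xs a).D.Eqv (y.β a b) (y'.β a b) := by
  obtain ⟨e, u, ζ, e1, e2⟩ := e
  have k := H'.re2 hJ hσ hp H.cell H.inf (fun a ha => (e a ha).symm) (Eqv71.ad0 H.adm) H.off e1 e2
  have t : Act J.m c a (some b) (J.Θ y.s) := ⟨ha.2, hJ.memBr hσ H.ov, hJ.memO hσ H.ov, ha.1⟩
  have := (show NeBot (bif b then atBot else atTop : Filter ℝ) by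
    cases b; exacts [atTop_neBot, atBot_neBot])
  have a1 : (J.xs a).D.Adm _ := ⟨(H.crit a ha b hb).sol.toAdm, (H.crit a ha b hb).tmp⟩
  have a2 : (J.xs a).D.Adm _ := ⟨(H'.crit a ha b hb).sol.toAdm, (H'.crit a ha b hb).tmp⟩
  obtain ⟨_, g⟩ := stb_of_lim a1 a2 (Eqv71.ad0 H.adm) (isEnd_b b) (H.lim a b t hb) (k.lim a b t hb)
  exact g.eqv (hJ.xs a).1.yd a1 a2

variable (J c σ) in
/-- fixed limits of parts stay fixed (`Wl34.cclOn`) -/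
def CclOn : Prop := ∀ (p : Prt A A' h) (α : Type) (𝒰 : Ultrafilter α) (q : α → Wi →₀ ℝ)
  (y : α → J.Obc c) q₀ y₀, (∀ᶠ k in (𝒰 : Filter α), SolOn p σ (q k) (y k)) → SolOn p σ q₀ y₀ →
  StrOn p 𝒰 y y₀ → ∀ i ∈ EdP c p.P, (∀ᶠ k in (𝒰 : Filter α), i ∈ cz (y k)) → i ∈ cz y₀

theorem ed_out {i : Ed c} (hi : i ∈ EdP c {hp x true}) : i.1.1 = x ∧ i.2 = true :=
  let ⟨_, (k : _ = _), e⟩ := hi; hp_some.1 (k ▸ e)

/-- a one-dimensional stabiliser: fixed limits lie on walls without harmonic forms -/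
theorem zw_of_dz (H : Wl J c) (h1 : ∀ a ∈ cylW c, ∀ b, (J.xs a).N.Crit (J.xs a).D (y.β a b))
    (h2 : dz (J.xs x).D (y.β x true) = 1) : ∀ i ∈ EdP c {hp x true}, i ∈ cz y → i ∈ zw J c := by
  rintro ⟨⟨a, ha⟩, b⟩ hi e β hβ
  obtain ⟨rfl, rfl⟩ : a = x ∧ b = true := ed_out hi
  obtain ⟨m, -, h7, h8⟩ := H.num ha
  have h9 := (h8 _ (h7 _ (h1 _ ha true))).1
  have h10 : dh (J.xs a).D (y.β a true) = 0 := e.resolve_right fun e' =>
    absurd (h2.symm.trans e') (by decide)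
  rw [h10, h2, mul_one] at h9
  rw [(h8 β hβ).1, ← h9, zero_mul]

theorem solE_out (H : Wl J c) (hx : x ∈ cylW c) (k : SolOn (pO J c sh σ x) σ q y)
    (z : ∀ i ∈ EdP c {hp x true}, i ∈ cz y → i ∈ zw J c) :
    SolE (pO J c sh σ x) (muF J c {hp x true}) σ q y where
  toSolOn := k
  fr _ (e : _ = _) := .inl ⟨x, hx, by simp [e, hp]⟩
  fx i hi e :=
    let ⟨_, _, h2, _⟩ := H.num i.1.2
    .inl ((by_contra fun e' => mu_ne.2 ⟨hi, e'⟩ e : i ∈ zw J c) _ (h2 _ (k.crit _ i.1.2 i.2 hi)))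
  mv i e := by
    obtain ⟨hi, e⟩ := mu_ne.1 e
    obtain ⟨b, h1, h2, h3⟩ := H.num i.1.2
    obtain ⟨h4, h5⟩ := h3 _ (h2 _ (k.crit _ i.1.2 i.2 hi))
    obtain ⟨h6, h7⟩ := not_or.1 (mt (z i hi) e)
    obtain rfl : b = 1 := by
      rcases Nat.le_one_iff_eq_zero_or_eq_one.1 h1 with rfl | rfl
      exacts [(h6 (by simpa using h4)).elim, rfl]
    omega
  mt _ _ e := nomatch (ed_out (mu_ne.1 e).1).2

/-- **LEAF OUT** (the text of `Qab60.OutL`) -/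
theorem outL (hc : CclOn J c σ) (H : H1 J c δ sh σ Adm n₀) (q₀ : Wi →₀ ℝ) (y₀ : J.Obc c) (x : A)
    (a₀ : Adm q₀) (h₀ : Sol σ q₀ y₀) (f₀ : FA J c σ n₀ y₀ x) (R : RegO J c δ sh σ q₀ y₀ x)
    (o : Ok δ y₀ (pO J c sh σ x)) (α : Type) (𝒰 : Ultrafilter α) (q : α → Wi →₀ ℝ)
    (y y' : α → J.Obc c) (cv : St.Cv (𝒰 : Filter α) q q₀)
    (e : ∀ᶠ i in (𝒰 : Filter α), SolOn (pO J c sh σ x) σ (q i) (y i) ∧
      SolOn (pO J c sh σ x) σ (q i) (y' i)) (s : StrOn (pO J c sh σ x) 𝒰 y y₀)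
    (s' : StrOn (pO J c sh σ x) 𝒰 y' y₀) : ∀ᶠ i in (𝒰 : Filter α),
      EqP (pO J c sh σ x) (y i) (y' i) ∧ (J.xs x).D.Eqv ((y i).β x true) ((y' i).β x true) := by
  have hx : x ∈ cylW c := ⟨f₀.1.2.1.ge rfl, f₀.1.2.2.1⟩
  obtain ⟨h3, h4, -⟩ := (H.num _ _ x a₀ h₀ f₀.1).2.2 f₀.2.1 o
  have z₀ := zw_of_dz (wl H) h₀.crit h3
  have s₀ := sol_out H a₀ h₀ f₀ z₀
  have k : ∀ {y : α → J.Obc c}, (∀ᶠ k in (𝒰 : Filter α), SolOn (pO J c sh σ x) σ (q k) (y k)) →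
      StrOn (pO J c sh σ x) 𝒰 y y₀ → ∀ᶠ k in (𝒰 : Filter α),
      SolE (pO J c sh σ x) (muF J c {hp x true}) σ (q k) (y k) := fun {y} e s =>
    (e.and (eventually_all.2 fun i => (𝒰.em fun k => i ∈ cz (y k)).elim
      (fun t => .of_forall fun _ hi _ => z₀ i hi (hc _ α 𝒰 q y q₀ y₀ e s₀.toSolOn s i hi t))
      fun t => t.mono fun _ t _ k => (t k).elim)).mono fun _ k => solE_out (wl H) hx k.1 k.2
  obtain ⟨b, E, x', ψ, g, f⟩ := R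
  have P := pmF H (singleton_subset_iff.2 (hp_mem f₀.1.2.1 true)) univ
  have S := H.sym σ _ _ _ b δ E q₀ y₀ x' ψ {hp x true} P.ph H.spl s₀ g.ch g.sm f subset_rfl
    fun _ (k : _ = _) => .inl (k ▸ f₀.1.2.2.2.2)
  have u : UU {hp x true} (zw J c) (cylW c) ≃ UU {hp x true} (cz y₀) (jz y₀) :=
    Equiv.subtypeEquivRight fun u => exists_congr fun i => and_congr_right fun hi => by
      rw [(fc_H H a₀ h₀ f₀.1).2, show i ∈ zw J c ↔ i ∈ cz y₀ from ⟨fun k => zw_cz H h₀ k, z₀ i hi⟩]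
  rw [Fintype.card_congr u] at S
  refine (e.and (S.2 g.nr (Eq.trans ?_ h4.symm) α 𝒰 q y y' cv
    ((k (e.mono fun _ k => k.1) s).and (k (e.mono fun _ k => k.2) s')) s s')).mono fun _ k =>
      ⟨k.2, eqv_of_eqP H.ok H.mem P.pok k.1.1 k.1.2 k.2 hx ⟨_, rfl, by simp [hp]⟩⟩
  rw [stb_out hx, h3, min_eq_right (Nat.one_le_iff_ne_zero.2 H.r0)]
  rfl

end Crest.Agent.X212.Pat85
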