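import Crest.Agent.X212.Mp86.St

/-!
# X212 / RF-UQ (helper85), part 1: the outer part of a face object
-/

set_option autoImplicit false
set_option linter.unusedSectionVars false
noncomputable section
open scoped Manifold ContDiff Topology
open Set Function Filter

namespace Crest.Agent.X212.Pat85
open An M Nd18 Rf65 Mp86.St
open An.Job (Sol Str Obc)

variable {Wi : Type} {X : Mf 4} {A κ lam : Type} [Fintype A] [Fintype κ] [Fintype lam]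
  [DecidableEq lam] {M : Mark X A κ} {W : World M} {N : ML M lam} {Λ : Lns W N}
  {A' h : Type} [Fintype A'] [DecidableEq A'] [Fintype h] {r n : ℕ}
  {J : Job Wi Λ A' h r n} {c : M.Cl} {δ : ℝ} {σ : Cel A'} {sh : Set A'} {n₀ : ℤ} {x : A}
  {Adm : (Wi →₀ ℝ) → Prop} {q₀ : Wi →₀ ℝ} {y₀ : J.Obc c}

theorem un_out (e : c.1 = {x}) : W.un c {hp x true} = (W.pc c (hp x false))ᶜ := by
  rw [un_one]
  refine (Cyl58.disjoint_pc _ (hp_mem e true) (hp_mem e false)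
    fun k => by simpa [hp] using congrFun k x).subset_compl_right.antisymm fun z hz => ?_
  obtain ⟨π, h1, h2⟩ := Cyl58.exists_pc W.toCaps z
  rcases eq_hp (e ▸ h1) with rfl | rfl
  exacts [h2, (hz h2).elim]

theorem stb_out (e : x ∈ cylW c) : stb y₀ {hp x true} = dz (J.xs x).D (y₀.β x true) := by
  rw [stb, show {i : Ed c | ∃ π ∈ ({hp x true} : Set _), π i.1 = some i.2} = {(⟨x, e⟩, true)} from
    Set.ext fun ⟨⟨a, _⟩, b⟩ => by simp [hp_some], finsum_mem_singleton]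

variable (H : H1 J c δ sh σ Adm n₀) (a₀ : Adm q₀) (h₀ : Sol σ q₀ y₀)
include H a₀ h₀

theorem fc_H (f : Fc J c σ n₀ y₀ x) : y₀.H = univ ∧ jz y₀ = cylW c :=
  ⟨(h₀.H_eq f.2.2.2.1.1).trans (H.num _ _ x a₀ h₀ f).1, sep_eq_self_iff_mem_true.2 f.2.2.2.1.2⟩

theorem sol_out (f : FA J c σ n₀ y₀ x) (z : ∀ i ∈ EdP c {hp x true}, i ∈ cz y₀ → i ∈ zw J c) :
    SolE (pO J c sh σ x) (muF J c {hp x true}) σ q₀ y₀ :=
  solE0 (p := pO J c sh σ x) (wl H) ⟨h₀.cell, h₀.inf, h₀.sol.toAdm, fun _ hz =>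
      Obc.zero f.2.1 (not_not.1 (un_out (W := W) f.1.2.1 ▸ hz :)),
    fun z _ => h₀.sol.D z, fun z _ => h₀.sol.C z, h₀.sol.S,
    fun i _ => h₀.cut i ((fc_H H a₀ h₀ f.1).1.ge trivial), fun a b ha _ => h₀.lim a b ha,
    fun a ha b _ => h₀.crit a ha b, h₀.int.integrableOn⟩
    (fun _ (k : _ = _) => .inr (.inl (k ▸ f.1.2.2.2.2)))
    (fun i hi => ⟨fun k => zw_cz H h₀ k, z i hi⟩) (fc_H H a₀ h₀ f.1).2 (bk h₀)

/-- **the outer parts of face objects near a regular one are isomorphic** -/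
theorem uq_out (f₀ : FA J c σ n₀ y₀ x) (z₀ : ∀ i ∈ EdP c {hp x true}, i ∈ cz y₀ → i ∈ zw J c)
    (R : RegO J c δ sh σ q₀ y₀ x) {α : Type} {𝒰 : Ultrafilter α} {q : α → Wi →₀ ℝ}
    {y y' : α → J.Obc c} (cv : St.Cv (𝒰 : Filter α) q q₀)
    (e : ∀ᶠ k in (𝒰 : Filter α), Adm (q k) ∧ (Sol σ (q k) (y k) ∧ FA J c σ n₀ (y k) x) ∧
      Sol σ (q k) (y' k) ∧ FA J c σ n₀ (y' k) x) (s : Str 𝒰 y y₀) (s' : Str 𝒰 y' y₀) :
    ∀ᶠ k in (𝒰 : Filter α), EqP (pO J c sh σ x) (y k) (y' k) := by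
  have k : ∀ {y : α → J.Obc c}, (∀ᶠ k in (𝒰 : Filter α), Adm (q k) ∧ Sol σ (q k) (y k) ∧
      FA J c σ n₀ (y k) x) → Str 𝒰 y y₀ → ∀ᶠ k in (𝒰 : Filter α),
      SolE (pO J c sh σ x) (muF J c {hp x true}) σ (q k) (y k) := fun {y} e s =>
    (e.and (eventually_all.2 fun i => (𝒰.em fun k => i ∈ cz (y k)).elim
      (fun t => .of_forall fun _ hi _ => z₀ i hi
        (H.ccl α 𝒰 q y q₀ y₀ (e.mono fun _ k => k.2.1) h₀ s i t))
      fun t => t.mono fun _ t _ k => (t k).elim)).mono fun _ k =>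
      sol_out H k.1.1 k.1.2.1 k.1.2.2 k.2
  obtain ⟨b, E, x', ψ, g, f⟩ := R
  obtain ⟨h1, h2⟩ := fc_H H a₀ h₀ f₀.1
  have S := H.sym σ _ _ _ b δ E q₀ y₀ x' ψ {hp x true}
    (pmF H (singleton_subset_iff.2 (hp_mem f₀.1.2.1 true)) univ).ph H.spl (sol_out H a₀ h₀ f₀ z₀)
    g.ch g.sm f subset_rfl fun _ (k : _ = _) => .inl (k ▸ f₀.1.2.2.2.2)
  have u : UU {hp x true} (zw J c) (cylW c) ≃ UU {hp x true} (cz y₀) (jz y₀) :=
    Equiv.subtypeEquivRight fun u => exists_congr fun i => and_congr_right fun hi => by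
      rw [h2, show i ∈ zw J c ↔ i ∈ cz y₀ from ⟨fun k => zw_cz H h₀ k, z₀ i hi⟩]
  rw [Fintype.card_congr u] at S
  obtain ⟨h3, h4, -⟩ := (H.num _ _ x a₀ h₀ f₀.1).2.2 f₀.2.1 S.1
  refine S.2 g.nr (Eq.trans ?_ h4.symm) α 𝒰 q y y' cv
    ((k (e.mono fun _ k => ⟨k.1, k.2.1⟩) s).and (k (e.mono fun _ k => ⟨k.1, k.2.2⟩) s'))
    (by rw [pO, ← h1]; exact s.on _ _) (by rw [pO, ← h1]; exact s'.on _ _)
  rw [stb_out ⟨f₀.1.2.1.ge rfl, f₀.1.2.2.1⟩, h3, min_eq_right (Nat.one_le_iff_ne_zero.2 H.r0)]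
  rfl

end Crest.Agent.X212.Pat85
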