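import Crest.Agent.X212.Pat85.Loc
import Crest.Agent.X212.Std94.Kl

/-!
# X212, PATCH (helper85): limits which extend over thin sets, the atlas of radial frames

`EX I l U Ω f g` : `f n → g` smoothly on `Ω` and `g` is smooth on `U`.
-/

set_option autoImplicit false
set_option linter.unusedSectionVars false
open Set Filter Topology Function
open scoped ContDiff Manifold InnerProductSpace

noncomputable section
namespace Crest.Agent.X212.Pat85

open Cmp73 Sob92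
open Wz78 (nab curv SA Frm)
open Eps63 (Thin)
open Std94 (Kl)

variable {E : Type} [NormedAddCommGroup E] [NormedSpace ℝ E] [FiniteDimensional ℝ E]
  {HM : Type} [TopologicalSpace HM] {I : ModelWithCorners ℝ E HM} [I.Boundaryless]
  {M : Type} [TopologicalSpace M] [ChartedSpace HM M] [IsManifold I ∞ M]
  {E' : Type} [NormedAddCommGroup E'] [InnerProductSpace ℝ E'] [FiniteDimensional ℝ E']
  {ι α : Type} [Fintype ι] {G H N : Type} [NormedAddCommGroup G] [NormedSpace ℝ G]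
  [NormedAddCommGroup H] [NormedSpace ℝ H] [NormedAddCommGroup N] [NormedSpace ℝ N]
  {l : Filter α} {U U' Ω Ω' S : Set M} {x : M} {k : ℕ} {f f' : α → M → G} {g g' : M → G}
  {e : α → ι → (x : M) → TangentSpace I x} {e₀ : ι → (x : M) → TangentSpace I x}

theorem neBot_iF [l.NeBot] (hx : x ∈ closure Ω) : (iF l Ω x).NeBot := by
  have := mem_closure_iff_nhdsWithin_neBot.1 hx
  refine ⟨fun h => ?_⟩
  obtain ⟨y, hy⟩ := (ev_iF.1 (h ▸ eventually_bot : ∀ᶠ _q in iF l Ω x, False)).exists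
  exact hy.exists.elim fun _ a => a

theorem ev_iF_snd (hΩ : IsOpen Ω) {p : M → Prop} (h : ∀ᶠ y in 𝓝[Ω] x, p y) :
    ∀ᶠ q in iF l Ω x, p q.2 := by
  obtain ⟨O, h1, h2, h3⟩ := mem_nhdsWithin.1 h
  refine ev_iF.2 ?_
  filter_upwards [self_mem_nhdsWithin, nhdsWithin_le_nhds (h1.mem_nhds h2)] with y a b
  exact tendsto_snd.eventually (((h1.inter hΩ).eventually_mem ⟨b, a⟩).mono fun z hz => h3 hz)

variable (I) in
/-- smooth convergence on `Ω` to a function which is smooth on `U` -/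
structure EX (l : Filter α) (U Ω : Set M) (f : α → M → G) (g : M → G) : Prop where
  sm : ∀ x ∈ U, SA I g x
  cv : Cv I l Ω f g

/-- a family and its limit as one function -/
def oj (f : α → M → G) (g : M → G) : Option α × M → G := fun q => q.1.elim (g q.2) (f · q.2)

variable (I) in
/-- the class of `EX` -/
def exK (l : Filter α) (U Ω : Set M) : Kl (Option α × M) :=
  ⟨fun F => EX I l U Ω (fun n x => F (some n, x)) fun x => F (none, x),
    fun c => ⟨fun _ _ => contMDiffAt_const, Cv.const c⟩,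
    fun a b => ⟨fun x hx => (a.sm x hx).add (b.sm x hx), a.cv.add b.cv⟩,
    fun a b => ⟨fun x hx => (a.sm x hx).clm_apply (b.sm x hx), a.cv.app b.cv⟩⟩

namespace EX

theorem kl (h : EX I l U Ω f g) : (exK I l U Ω).mem (oj f g) := h

theorem mono (h : EX I l U Ω f g) (hU : U' ⊆ U) (hΩ : Ω' ⊆ Ω) : EX I l U' Ω' f g :=
  ⟨fun x hx => h.sm x (hU hx), h.cv.mono le_rfl hΩ⟩

theorem tend (h : EX I l U Ω f g) (hx : x ∈ U) :
    Tendsto (fun q : α × M => f q.1 q.2) (iF l Ω x) (𝓝 (g x)) := fun s hs => by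
  obtain ⟨t, h1, h2, h3⟩ := mem_nhds_iff.1 hs
  refine ev_iF.2 ?_
  filter_upwards [self_mem_nhdsWithin, nhdsWithin_le_nhds
    ((h.sm x hx).continuousAt.eventually (h2.eventually_mem h3))] with y a b
  exact ((h.cv.tendsto a).eventually (h2.eventually_mem b)).mono fun _ c => h1 c

/-- identities pass to the limit -/
theorem eq [l.NeBot] (h : EX I l U Ω f g) (h' : EX I l U Ω f' g') (hx : x ∈ U)
    (hc : x ∈ closure Ω) (e : ∀ y ∈ Ω, ∀ᶠ q in l ×ˢ 𝓝 y, f q.1 q.2 = f' q.1 q.2) : g x = g' x :=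
  have := neBot_iF (l := l) hc
  tendsto_nhds_unique_of_eventuallyEq (h.tend hx) (h'.tend hx) (ev_iF_of e)

theorem congr (h : EX I l U Ω f g) (e : ∀ y ∈ Ω, ∀ᶠ q in l ×ˢ 𝓝 y, f' q.1 q.2 = f q.1 q.2) :
    EX I l U Ω f' g := ⟨h.sm, h.cv.congr e fun _ _ => rfl⟩

theorem congr_lim (h : EX I l U Ω f g) (hU : IsOpen U) (hΩ : Ω ⊆ U) (e : ∀ y ∈ U, g' y = g y) :
    EX I l U Ω f g' :=
  ⟨fun x hx => (h.sm x hx).congr_of_eventuallyEq ((hU.eventually_mem hx).mono e),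
    h.cv.congr (fun _ _ => .of_forall fun _ => rfl) fun x hx => e x (hΩ hx)⟩

theorem fixed (hΩ : IsOpen Ω) (hU : Ω ⊆ U) (h : ∀ x ∈ U, SA I g x) : EX I l U Ω (fun _ => g) g :=
  ⟨h, Cv.fixed hΩ fun x hx => h x (hU hx)⟩

theorem fixed' (h : ∀ x, SA I g x) : EX I l U Ω (fun _ => g) g := ⟨fun x _ => h x, Cv.fixed' h⟩

theorem of_cv [FiniteDimensional ℝ G] [l.NeBot] (h : Cv I l univ f g) : EX I l U Ω f g :=
  ⟨fun _ _ => h.smoothAt isOpen_univ trivial, h.mono le_rfl (subset_univ _)⟩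

theorem consts {c : α → G} {d : G} (h : Tendsto c l (𝓝 d)) :
    EX I l U Ω (fun i _ => c i) fun _ => d := ⟨fun _ _ => contMDiffAt_const, Cv.consts h⟩

theorem const (c : G) : EX I l U Ω (fun _ _ => c) fun _ => c := consts tendsto_const_nhds

theorem add (h : EX I l U Ω f g) (h' : EX I l U Ω f' g') :
    EX I l U Ω (fun i x => f i x + f' i x) fun x => g x + g' x := (exK I l U Ω).add h.kl h'.kl

theorem sub (h : EX I l U Ω f g) (h' : EX I l U Ω f' g') :
    EX I l U Ω (fun i x => f i x - f' i x) fun x => g x - g' x := Kl.sub h.kl h'.kl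

theorem neg (h : EX I l U Ω f g) : EX I l U Ω (fun i x => -f i x) fun x => -g x := Kl.neg h.kl

theorem clm (T : G →L[ℝ] H) (h : EX I l U Ω f g) :
    EX I l U Ω (fun i x => T (f i x)) fun x => T (g x) := Kl.clm T h.kl

theorem app {A : α → M → G →L[ℝ] H} {B : M → G →L[ℝ] H} (hA : EX I l U Ω A B) (h : EX I l U Ω f g) :
    EX I l U Ω (fun i x => A i x (f i x)) fun x => B x (g x) := (exK I l U Ω).app hA.kl h.kl

theorem appc {A : α → M → G →L[ℝ] H} {B : M → G →L[ℝ] H} (hA : EX I l U Ω A B) (v : G) :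
    EX I l U Ω (fun i x => A i x v) fun x => B x v := hA.app (const v)

theorem bil (β : G →L[ℝ] H →L[ℝ] N) (h : EX I l U Ω f g) {u : α → M → H} {v : M → H}
    (h' : EX I l U Ω u v) : EX I l U Ω (fun i x => β (f i x) (u i x)) fun x => β (g x) (v x) :=
  Kl.bil β h.kl h'.kl

theorem comp {A : α → M → G →L[ℝ] H} {B : M → G →L[ℝ] H} {A' : α → M → N →L[ℝ] G}
    {B' : M → N →L[ℝ] G} (h : EX I l U Ω A B) (h' : EX I l U Ω A' B') :
    EX I l U Ω (fun i x => A i x ∘L A' i x) fun x => B x ∘L B' x := Kl.comp h.kl h'.kl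

theorem mul {A A' : α → M → G →L[ℝ] G} {B B' : M → G →L[ℝ] G} (h : EX I l U Ω A B)
    (h' : EX I l U Ω A' B') : EX I l U Ω (fun i x => A i x * A' i x) fun x => B x * B' x :=
  h.comp h'

theorem smul {u : α → M → ℝ} {v : M → ℝ} (hu : EX I l U Ω u v) (h : EX I l U Ω f g) :
    EX I l U Ω (fun i x => u i x • f i x) fun x => v x • g x := Kl.smul hu.kl h.kl

theorem csmul (c : ℝ) (h : EX I l U Ω f g) :
    EX I l U Ω (fun i x => c • f i x) fun x => c • g x := Kl.csmul c h.kl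

theorem sum {β : Type} [Fintype β] {w : β → α → M → G} {v : β → M → G}
    (h : ∀ a, EX I l U Ω (w a) (v a)) :
    EX I l U Ω (fun i x => ∑ a, w a i x) fun x => ∑ a, v a x :=
  Kl.fsum (K := exK I l U Ω) Finset.univ fun a => (h a).kl

theorem dv [FiniteDimensional ℝ G] [l.NeBot] (h : EX I l U Ω f g) (hv : VC I l e e₀)
    (hΩ : IsOpen Ω) (a : ι) : EX I l U Ω (fun n => dv I (e n a) (f n)) (dv I (e₀ a) g) :=
  ⟨fun x hx => dv_smoothAt (hv.s0 a x) (h.sm x hx), hv.dv hΩ h.cv a⟩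

theorem nab [FiniteDimensional ℝ G] [l.NeBot] (h : EX I l U Ω f g) (hv : VC I l e e₀)
    (hΩ : IsOpen Ω) {A : α → ι → M → G →L[ℝ] G} {A₀ : ι → M → G →L[ℝ] G} (a : ι)
    (hA : EX I l U Ω (fun n => A n a) (A₀ a)) :
    EX I l U Ω (fun n => nab I (e n) (A n) a (f n)) (nab I e₀ A₀ a g) :=
  (h.dv hv hΩ a).add (hA.app h)

theorem of_apply [FiniteDimensional ℝ G] {A : α → M → G →L[ℝ] H} {B : G → M → H}
    (h : ∀ v, EX I l U Ω (fun n x => A n x v) (B v)) : ∃ B', EX I l U Ω A B' := by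
  let b := Module.finBasis ℝ G
  let c := fun i => ContinuousLinearMap.smulRightL ℝ G H (b.coord i).toContinuousLinearMap
  refine ⟨_, (sum fun i => (h (b i)).clm (c i)).congr fun _ _ => .of_forall fun q => ?_⟩
  ext v
  conv_lhs => rw [← b.sum_repr v, map_sum]
  simp [c, _root_.sum_apply]

end EX

/-- **bounds pass to the limit** -/
theorem DB.lim [l.NeBot] [FiniteDimensional ℝ G] (hv : VC I l e e₀) (hΩ : IsOpen Ω)
    {A : α → ι → M → G →L[ℝ] G} {A₀ : ι → M → G →L[ℝ] G}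
    (hA : ∀ a, Cv I l Ω (fun n => A n a) (A₀ a)) : ∀ {k : ℕ} {f : α → M → G} {g : M → G},
    Cv I l Ω f g → DB I (iF l Ω x) e A k f →
    DB I (iF l Ω x) (fun _ => e₀) (fun _ => A₀) k fun _ => g := by
  have h0 : ∀ {f : α → M → G} {g : M → G}, Cv I l Ω f g → D0 I (iF l Ω x) f →
      D0 I (iF l Ω x) fun _ => g := fun {f g} h h' =>
    ⟨ev_iF_snd hΩ (eventually_nhdsWithin_of_forall fun y hy => h.smoothAt hΩ hy),
      h'.2.imp fun K hK => ev_iF_snd (p := fun y => ‖g y‖ ≤ K) hΩ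
        (((ev_iF.1 hK).and self_mem_nhdsWithin).mono fun y hy =>
          le_of_tendsto (h.pt y hy.2).norm (ev_at (p := fun n y => ‖f n y‖ ≤ K) hy.1))⟩
  intro k
  induction k with
  | zero => exact h0
  | succ k ih => exact fun h h' => ⟨h0 h h'.1, fun a =>
      ih ((hv.dv hΩ h a).add ((hA a).app h)) (h'.2 a)⟩

/-- bounds on a dense subset -/
theorem DB.dense [l.NeBot] (he : SmV I e₀) (hU : IsOpen U) (hd : U ⊆ closure Ω) :
    ∀ {k : ℕ} {g : M → G}, (∀ y ∈ U, SA I g y) →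
    DB I (iF l Ω x) (fun _ => e₀) (z0 ι M fun _ => G) k (fun _ => g) →
    DB I (iF l U x) (fun _ => e₀) (z0 ι M fun _ => G) k fun _ => g := by
  have h0 : ∀ {g : M → G}, (∀ y ∈ U, SA I g y) → D0 I (iF l Ω x) (fun _ => g) →
      D0 I (iF l U x) fun _ => g := fun {g} h h' => by
    refine ⟨ev_iF_snd hU (eventually_nhdsWithin_of_forall h), h'.2.imp fun K hK =>
      ev_iF_snd (p := fun y => ‖g y‖ ≤ K) hU ?_⟩
    obtain ⟨O, h1, h2, h3⟩ := mem_nhdsWithin.1 (ev_iF.1 hK)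
    filter_upwards [self_mem_nhdsWithin, nhdsWithin_le_nhds (h1.mem_nhds h2)] with y a b
    have := mem_closure_iff_nhdsWithin_neBot.1 (hd a)
    refine le_of_tendsto ((h y a).continuousAt.norm.tendsto.mono_left
      (nhdsWithin_le_nhds (s := Ω))) ?_
    filter_upwards [self_mem_nhdsWithin, nhdsWithin_le_nhds (h1.mem_nhds b)] with z c d
    exact (ev_at (p := fun _ y => ‖g y‖ ≤ K) (h3 ⟨d, c⟩)).exists.elim fun _ a => a
  intro k
  induction k with
  | zero => exact h0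
  | succ k ih => exact fun h h' => ⟨h0 h h'.1, fun a => ih (fun y hy =>
      (dv_smoothAt (he a y) (h y hy)).add (contMDiffAt_const.clm_apply (h y hy))) (h'.2 a)⟩

variable (I) in
/-- `Ω` is the complement of a thin set in the chart domain `U` -/
structure Tch (E' : Type) [NormedAddCommGroup E'] [InnerProductSpace ℝ E'] (U Ω : Set M) :
    Prop where
  opU : IsOpen U
  op : IsOpen Ω
  sub : Ω ⊆ U
  ch : ∃ φ : OpenPartialHomeomorph M E', SCh I φ ∧ U ⊆ φ.source ∧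
    ∃ Z, Thin Z ∧ ∀ x ∈ U, φ x ∉ Z → x ∈ Ω

namespace Tch
variable {𝒰 : Ultrafilter α}

theorem inter (h : Tch I E' U Ω) (hU : IsOpen U') : Tch I E' (U ∩ U') (Ω ∩ U') :=
  let ⟨φ, a, b, Z, c, d⟩ := h.ch
  ⟨h.opU.inter hU, h.op.inter hU, inter_subset_inter_left _ h.sub, φ, a,
    inter_subset_left.trans b, Z, c, fun x hx hZ => ⟨d x hx.1 hZ, hx.2⟩⟩

theorem dense (h : Tch I E' U Ω) : U ⊆ closure Ω := fun _ hx =>
  let ⟨_, a, b, _, c, d⟩ := h.ch; a.mem_closure c h.opU b d hx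

theorem dense₂ (h : Tch I E' U Ω) (h' : Tch I E' U' Ω') : U ∩ U' ⊆ closure (Ω ∩ Ω') := by
  refine (h'.inter h.opU).dense.trans' (inter_comm U U').subset |>.trans
    (closure_minimal ?_ isClosed_closure)
  rw [inter_comm]
  exact (h.inter h'.op).dense

theorem ext [FiniteDimensional ℝ G] (h : Tch I E' U Ω) (hv : VC I (𝒰 : Filter α) e e₀)
    (hf : ∀ k, ∀ x ∈ U, DB I (iF 𝒰 Ω x) e (z0 ι M fun _ => G) k f) : ∃ g, EX I 𝒰 U Ω f g :=
  let ⟨_, a, b, _, c, d⟩ := h.ch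
  (a.ext_lim hv c h.opU h.op b h.sub d hf).imp fun _ a => ⟨a.1, a.2⟩

theorem ext₂ [FiniteDimensional ℝ G] (h : Tch I E' U Ω) (h' : Tch I E' U' Ω')
    (hv : VC I (𝒰 : Filter α) e e₀)
    (hf : ∀ k, ∀ x ∈ U ∩ U', DB I (iF 𝒰 (Ω ∩ Ω') x) e (z0 ι M fun _ => G) k f) :
    ∃ g, EX I 𝒰 (U ∩ U') (Ω ∩ Ω') f g := by
  have h1 := h.inter h'.op
  obtain ⟨g, hg⟩ := h1.ext hv fun k x hx => hf k x ⟨hx.1, h'.sub hx.2⟩
  obtain ⟨g', hg'⟩ := (h'.inter h.opU).ext (f := fun _ => g) (hv.const 𝒰) fun k x hx => by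
    rw [inter_comm Ω']
    exact DB.dense hv.s0 h1.opU h1.dense hg.sm (DB.lim hv h1.op (A₀ := fun _ _ => 0)
      (fun _ => Cv.const 0) hg.cv (hf k x hx.symm))
  exact ⟨g', fun x hx => hg'.sm x hx.symm, hg.cv.congr (fun _ _ => .of_forall fun _ => rfl)
    fun x hx => tendsto_nhds_unique (hg'.cv.pt x ⟨hx.2, h.sub hx.1⟩) tendsto_const_nhds⟩

end Tch

theorem pre_compl (φ : OpenPartialHomeomorph M E') :
    φ.target ∩ φ.symm ⁻¹' Sᶜ = φ.target \ φ '' (S ∩ φ.source) := by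
  ext y
  refine and_congr_right fun hy => ⟨?_, fun h h' => h ⟨_, ⟨h', φ.map_target hy⟩, φ.right_inv hy⟩⟩
  rintro h ⟨x, hx, rfl⟩
  exact h (by rw [φ.left_inv hx.2]; exact hx.1)

theorem tch_point (hd : 3 < Module.finrank ℝ E) (hS : IsClosed S) (hc : S.Countable) (x : M) :
    Tch I (EuclideanSpace ℝ (Fin (Module.finrank ℝ E))) (chartAt HM x).source
      ((chartAt HM x).source ∩ Sᶜ) :=
  ⟨(chartAt HM x).open_source, (chartAt HM x).open_source.inter hS.isOpen_compl, inter_subset_left,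
    echart I toEuclidean x, sch_echart _ x, (echart_source _ x).superset, _,
    thin_lines (by simpa using hd) 0 (hc.image (echart I toEuclidean x)),
    fun y hy h => ⟨hy, fun hs => h ⟨_, ⟨y, hs, rfl⟩, 1, by simp⟩⟩⟩

theorem dense_compl (I : ModelWithCorners ℝ E HM) [I.Boundaryless] [IsManifold I ∞ M]
    (hd : 3 < Module.finrank ℝ E) (hS : IsClosed S) (hc : S.Countable) (x : M) :
    x ∈ closure Sᶜ :=
  closure_mono inter_subset_right ((tch_point (I := I) hd hS hc x).dense (mem_chart_source HM x))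

/-- **removal of the exceptional set** -/
theorem ext_S [FiniteDimensional ℝ G] {𝒰 : Ultrafilter α} (hv : VC I (𝒰 : Filter α) e e₀)
    (hd : 3 < Module.finrank ℝ E) (hS : IsClosed S) (hc : S.Countable)
    {A : α → ι → M → G →L[ℝ] G} {A₀ : ι → M → G →L[ℝ] G}
    (hA : ∀ a, EX I 𝒰 univ Sᶜ (fun n => A n a) (A₀ a))
    (hf : ∀ k x, DB I (iF 𝒰 Sᶜ x) e A k f) : ∃ g, EX I 𝒰 univ Sᶜ f g := by
  have op := hS.isOpen_compl
  obtain ⟨g, hg⟩ := MBOn.exists_cv (I := I) (𝒰 := 𝒰) (Ω := Sᶜ) (f := f) fun k x hx =>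
    hv.to_mb (DB.plain (ob_prod _ _) (fun j _ a => hv.to_db ((hA a).cv.mb j x hx))
      (iF_eq (l := (𝒰 : Filter α)) hx ▸ hf k x))
  have t := tch_point (I := I) hd hS hc
  choose w hw using fun x => (t x).ext (f := fun _ => g) (hv.const 𝒰) fun k y _ =>
    (DB.plain ob_iF (fun j _ a => (hv.const 𝒰).db_fixed (.of_forall fun z => (hA a).sm z trivial))
      (DB.lim hv op (fun a => (hA a).cv) hg (hf k y))).mono (iF_mono inter_subset_right)
  have key : ∀ x, ∀ y ∈ (chartAt HM x).source, w y y = w x y := fun x y hy =>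
    ((hw y).mono inter_subset_left inter_subset_left).eq
      ((hw x).mono inter_subset_right inter_subset_right) ⟨mem_chart_source HM y, hy⟩
      ((t y).dense₂ (t x) ⟨mem_chart_source HM y, hy⟩) fun _ _ => .of_forall fun _ => rfl
  refine ⟨fun y => w y y, fun x _ => ((hw x).sm x (mem_chart_source HM x)).congr_of_eventuallyEq
    (Eventually.mono (chart_source_mem_nhds HM x) (key x)),
    hg.congr (fun _ _ => .of_forall fun _ => rfl) fun x hx =>
      tendsto_nhds_unique ((hw x).cv.pt x ⟨mem_chart_source HM x, hx⟩) tendsto_const_nhds⟩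

variable {V : α → Type} [∀ n, NormedAddCommGroup (V n)] [∀ n, InnerProductSpace ℝ (V n)]
  [∀ n, FiniteDimensional ℝ (V n)] {W : ∀ n, ι → M → V n →L[ℝ] V n}
  {p : ∀ n, M → V n →L[ℝ] V n} {J : ∀ n, V n →L[ℝ] V n} {r : ℕ}
  {F : Type} [NormedAddCommGroup F] [InnerProductSpace ℝ F] [FiniteDimensional ℝ F]

variable (I l e W p J) in
/-- parallel frames on `Ω` with connection matrices which are bounded near the points of `U` -/
structure Frs (E' : Type) [NormedAddCommGroup E'] [InnerProductSpace ℝ E'] (U Ω : Set M)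
    (g : ∀ n, M → F →L[ℝ] V n) (B : α → ι → M → F →L[ℝ] F) (J₀ : α → F →L[ℝ] F) : Prop where
  tch : Tch I E' U Ω
  ne : Ω.Nonempty
  fra : ∀ x ∈ Ω, ∀ᶠ q in l ×ˢ 𝓝 x, Fra I (e q.1) (W q.1) (p q.1) (B q.1) (g q.1) q.2
  hJ : ∀ x ∈ Ω, ∀ᶠ q in l ×ˢ 𝓝 x, J q.1 ∘L g q.1 q.2 = g q.1 q.2 ∘L J₀ q.1
  db : ∀ x ∈ U, ∀ k a, DB I (iF l Ω x) e (z0 ι M fun _ => F →L[ℝ] F) k fun n => B n a

/-- **the atlas of radial frames** -/
theorem Dat.atlas [l.NeBot] (h : Dat I l S e e₀ W p J r) (hS : IsClosed S) (hc : S.Countable)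
    (hM : CvxOn I E' (univ : Set M)) (hd : 3 < Module.finrank ℝ E')
    (hF : Module.finrank ℝ F = r) :
    ∃ (K : Type) (_ : Fintype K) (U Ω : K → Set M) (g : K → ∀ n, M → F →L[ℝ] V n)
      (B : K → α → ι → M → F →L[ℝ] F) (J₀ : K → α → F →L[ℝ] F),
      (∀ i, Frs I l e W p J E' (U i) (Ω i) (g i) (B i) (J₀ i) ∧ Ω i ⊆ Sᶜ) ∧
        (∀ x, ∃ i, x ∈ U i) ∧ ∀ x ∉ S, ∃ i, x ∈ Ω i := by
  classical
  obtain ⟨n, φ, h1, h2⟩ := hM
  let β := {i // (φ i).target.Nonempty}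
  have hc' := fun i => (hc.mono (inter_subset_left (t := (φ i).source))).image (φ i)
  choose c₁ a1 c₂ a2 a3 using fun i : β =>
    exists_two_centres hd.le (φ i.1).open_target (h1 i.1).2 i.2 (hc' i.1)
  let c : β × Bool → E' := fun p => if p.2 then c₁ p.1 else c₂ p.1
  have b1 : ∀ p, c p ∈ (φ p.1.1).target \ φ p.1.1 '' (S ∩ (φ p.1.1).source) := fun p => by
    simp only [c]; split_ifs; exacts [a1 _, a2 _]
  choose g B J₀ b2 b3 using fun p : β × Bool =>
    h.exists_fra (F := F) (h1 p.1.1).1 (h1 p.1.1).2 (b1 p).1 hF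
  refine ⟨β × Bool, inferInstance, fun p => (φ p.1.1).source, fun p => (φ p.1.1).source ∩
    φ p.1.1 ⁻¹' vis ((φ p.1.1).target ∩ (φ p.1.1).symm ⁻¹' Sᶜ) (c p), g, B, J₀,
    fun p => ⟨⟨⟨(φ _).open_source, (φ _).isOpen_inter_preimage (isOpen_vis
      ((φ _).isOpen_inter_preimage_symm hS.isOpen_compl) _), inter_subset_left, φ p.1.1,
      (h1 _).1, subset_rfl, _, thin_lines hd (c p) (hc' p.1.1), fun x hx hZ => ⟨hx, ?_⟩⟩,
      ⟨(φ p.1.1).symm (c p), (φ _).map_target (b1 p).1, ?_⟩,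
      fun x hx => (b2 p x hx).mono fun _ a => a.1, fun x hx => (b2 p x hx).mono fun _ a => a.2,
      b3 p⟩, fun x hx hs => ?_⟩, fun x => ?_, fun x hx => ?_⟩
  · rw [pre_compl]
    exact diff_lines (h1 _).2 (b1 p) ⟨(φ _).map_source hx, hZ⟩
  · rw [pre_compl, mem_preimage, (φ _).right_inv (b1 p).1]
    exact self_mem_vis (b1 p)
  · have := (vis_subset hx.2).2
    rw [mem_preimage, (φ _).left_inv hx.1] at this
    exact this hs
  · obtain ⟨i, hi⟩ := h2 x trivial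
    exact ⟨(⟨i, _, (φ i).map_source hi⟩, true), hi⟩
  · obtain ⟨i, hi⟩ := h2 x trivial
    have h4 : φ i x ∈ (φ i).target \ φ i '' (S ∩ (φ i).source) :=
      ⟨(φ i).map_source hi, fun ⟨y, hy, h⟩ => hx ((φ i).injOn hy.2 hi h ▸ hy.1)⟩
    simp only [pre_compl]
    rcases a3 ⟨i, _, h4.1⟩ h4 with h5 | h5
    exacts [⟨(⟨i, _, h4.1⟩, true), hi, h5⟩, ⟨(⟨i, _, h4.1⟩, false), hi, h5⟩]

end Crest.Agent.X212.Pat85
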