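import Crest.Agent.X212.Pat85.Tr
import Crest.Agent.X212.Cmp73.Core

/-!
# X212, PATCH (helper85): `Gs.Ga` without hypotheses
-/

set_option autoImplicit false
set_option linter.unusedSectionVars false
open Set Filter Topology Function
open scoped ContDiff Manifold InnerProductSpace

noncomputable section
namespace Crest.Agent.X212.Pat85

open An Cmp73

variable {E : Type} [NormedAddCommGroup E] [NormedSpace ℝ E] [FiniteDimensional ℝ E]
  [MeasurableSpace E] [BorelSpace E]
  {HM : Type} [TopologicalSpace HM] {I : ModelWithCorners ℝ E HM} [I.Boundaryless]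
  {E₀ : Type} [NormedAddCommGroup E₀] [NormedSpace ℝ E₀] [FiniteDimensional ℝ E₀]
  [MeasurableSpace E₀] [BorelSpace E₀]
  {H₀ : Type} [TopologicalSpace H₀] {I₀ : ModelWithCorners ℝ E₀ H₀} [I₀.Boundaryless]
  {M : Type} [TopologicalSpace M] [ChartedSpace H₀ M] [IsManifold I₀ ∞ M] [MeasurableSpace M]
  [BorelSpace M] [T2Space M] [SecondCountableTopology M]
  {ι lam : Type} [Fintype ι] [Fintype lam] {α : Type}
  {X : α → Type} [∀ n, TopologicalSpace (X n)] [∀ n, ChartedSpace HM (X n)]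
  [∀ n, IsManifold I ∞ (X n)] [∀ n, MeasurableSpace (X n)] [∀ n, BorelSpace (X n)]
  [∀ n, T2Space (X n)] [∀ n, SecondCountableTopology (X n)] {r : ℕ}
  {g : Gs I I₀ M ι lam X}

theorem gaP {E' : Type} [NormedAddCommGroup E'] [InnerProductSpace ℝ E'] [FiniteDimensional ℝ E']
    (hM : CvxOn I₀ E' (univ : Set M)) (hd : 3 < Module.finrank ℝ E') (hg : g.OK)
    (c : ∀ n, Cfg (X n) ι lam r) : g.Ga c := fun _ ha => ga hg ha hM hd

theorem gaC [CompactSpace M] (hg : g.OK) (c : ∀ n, Cfg (X n) ι lam r) : g.Ga c :=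
  gaP (E' := EuclideanSpace ℝ (Fin 4)) (cvxOn_compact
    (ContinuousLinearEquiv.ofFinrankEq (by rw [hg.h4]; simp)) isCompact_univ) (by simp) hg c

end Crest.Agent.X212.Pat85
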