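import Crest.Agent.X212.Pat85.Vol
import Crest.Agent.X212.Fin37.Defs
import Crest.Agent.X212.Cht98.Jb

/-!
# X212, FIN (helper85): the leaves L4U, VOL, DJ, CPT
-/

set_option autoImplicit false
set_option linter.unusedSectionVars false
open Set Filter Topology Function MeasureTheory

noncomputable section
namespace Crest.Agent.X212.Pat85

open An An.Job Cht98 M Fin37

variable {Wi : Type} {X : Mf 4} {A κ lam : Type} [Fintype A] [Fintype κ] [Fintype lam]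
  [DecidableEq lam] {M : Mark X A κ} {W : World M} {N : ML M lam}
  {Λ : Lns W N} {A' h : Type} [Fintype A'] [DecidableEq A'] [Fintype h] {r n : ℕ}
  {J : Job Wi Λ A' h r n} {c : M.Cl} {s : A' → ℝ} {σ : Cel A'}

theorem cl_dm (hs : s ∈ cl σ) : s ∈ J.dom σ := ⟨hs.1, fun a _ => (hs.2 a).2⟩

theorem cl_Icc (hs : s ∈ cl σ) : s ∈ Icc (0 : A' → ℝ) 1 :=
  ⟨fun a => (hs.2 a).1, fun a => (hs.2 a).2⟩

theorem isCompact_cel (σ : Cel A') : IsCompact (cl σ) := by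
  refine isCompact_Icc.of_isClosed_subset ?_ fun _ => cl_Icc
  simp only [cl, sp, ofPred_and, ofPred_forall]
  exact (isClosed_iInter fun a => isClosed_iInter fun b => isClosed_iInter fun _ =>
    isClosed_eq (continuous_apply a) continuous_const).inter
      (isClosed_iInter fun a => isClosed_Icc.preimage (continuous_apply a))

variable (hJ : J.OK)
include hJ

theorem pm_U : IsCompact ((fun s => (J.Θ s).1) '' Icc 0 1) :=
  isCompact_Icc.image (continuous_fst.comp hJ.sm.continuous)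

theorem pm_par (h : Pm J c s) : (J.Θ s).1 ∈ (fun s => (J.Θ s).1) '' Icc 0 1 ∧
    J.Θ s ∈ M.Br c.1 ∧ J.Θ s ∈ M.O c.1 :=
  let ⟨σ, h1, h2, h3⟩ := h
  have hp := hJ.par σ h1 s (cl_dm h2)
  ⟨⟨s, cl_Icc h2, rfl⟩, ⟨hp, h3.ge⟩, fun a ha => (hp.1 a).2.lt_of_ne fun k => ha.1 (h3.le k)⟩

theorem mem_m (h1 : σ ∈ J.𝒦) (h2 : s ∈ cl σ) {a : A} (hp : ¬M.pin a) (k : (J.Θ s).2 a = 1) :
    a ∈ J.m.1 :=
  let ⟨a', e, _⟩ := hJ.inf σ h1 s (cl_dm h2) a k
  hJ.mem a' a e hp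

theorem nk_target (i : Ix J c s) : (nk J i).ψ.target =
    hZ W.toCaps c i.1.1 ⁻¹' Hs ((J.Θ s).2 i.1.1) (i.1.2.getD false) :=
  isNk_target i.2 (hJ.nk _ _ _ _ _)

/-- **L4U** -/
theorem l4U : L4U J :=
  let ⟨S, h0, hS⟩ := l4u W (pm_U hJ)
  ⟨S, h0, fun c _ h => hS J.m c _ (pm_par hJ h).1 (pm_par hJ h).2.1.1 (pm_par hJ h).2.2⟩

theorem exists_t0 : ∃ t₀ < (1 : ℝ), ∀ σ ∈ J.𝒦, ∀ a, ¬M.pin a → a ∉ J.m.1 → ∀ s ∈ cl σ,
    (J.Θ s).2 a < t₀ := by
  have : ∀ᶠ t in 𝓝 (1 : ℝ), ∀ σ ∈ J.𝒦, ∀ a, ¬M.pin a → a ∉ J.m.1 → ∀ s ∈ cl σ,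
      (J.Θ s).2 a < t := by
    refine eventually_all.2 fun σ => eventually_imp_distrib_left.2 fun h1 => eventually_all.2
      fun a => eventually_imp_distrib_left.2 fun hp => eventually_imp_distrib_left.2 fun hm =>
        (isCompact_cel σ).eventually_forall_of_forall_eventually fun s h2 => ?_
    exact (isOpen_lt ((continuous_apply a).comp (continuous_snd.comp (hJ.sm.continuous.comp
      continuous_snd))) continuous_fst).mem_nhds (((hJ.par σ h1 s (cl_dm h2)).1 a).2.lt_of_ne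
        fun k => hm (mem_m hJ h1 h2 hp k))
  exact ((eventually_mem_nhdsWithin (s := Iio 1)).and (this.filter_mono nhdsWithin_le_nhds)).exists

/-- **VOL** -/
theorem volJ : VOL J := by
  obtain ⟨t₀, ht, k⟩ := exists_t0 hJ
  obtain ⟨V, hV⟩ := volU W (pm_U hJ) ht
  refine ⟨|V|, fun c s h => ?_⟩
  obtain ⟨h1, h2, h3⟩ := pm_par hJ h
  refine ENNReal.toReal_le_of_le_ofReal (abs_nonneg _) ((measure_mono ?_).trans
    ((hV J.m c _ h1 h2.1 h3 fun a hp hm => let ⟨σ, k1, k2, _⟩ := h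
      .inl (k σ k1 a hp hm s k2).le).trans (ENNReal.ofReal_le_ofReal (le_abs_self _))))
  refine fun z hz a hp ha => not_lt.1 fun k => ?_
  rcases ha with ha | ha
  · obtain ⟨b, hb⟩ := exists_dom (t := (J.Θ s).2 a) (.inr (hZ_ne W.toCaps ha hp z))
    refine hz ⟨(a, some b), hp, h2, h3, ha⟩ ?_
    rw [Nka63.O_zero, nk_target hJ]; exact ⟨abs_lt.1 k, hb⟩
  · refine hz ⟨(a, none), hp, h2, h3, ha⟩ ?_
    rw [Nka63.O_zero, nk_target hJ]; exact ⟨abs_lt.1 k, .inl (h3 a ha.2.1)⟩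

/-- **DJ** -/
theorem dj : DJ J := by
  rintro c s ⟨σ, h1, h2, h3⟩ i j e
  have m : ∀ i : Ix J c s, i.1.1 ∈ J.m.1 := by
    rintro ⟨⟨a, _ | b⟩, ha⟩
    exacts [ha.2.2.2.1, mem_m hJ h1 h2 ha.1 (h3.ge ha.2.2.2)]
  by_cases e' : i.1.1 = j.1.1
  · rw [nk_target hJ, nk_target hJ]
    obtain ⟨⟨a, b⟩, ha⟩ := i
    obtain ⟨⟨a', b'⟩, ha'⟩ := j
    obtain rfl : a = a' := e'
    rcases b with _ | b <;> rcases b' with _ | b'
    · exact (e rfl).elim
    · exact (ha.2.2.2.2.1.1 ha'.2.2.2).elim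
    · exact (ha'.2.2.2.2.1.1 ha.2.2.2).elim
    have k : ¬(J.Θ s).2 a < 1 := (h3.ge ha.2.2.2 : _ = _).not_lt
    refine disjoint_left.2 fun z k1 k2 => ?_
    have k3 := k1.2.resolve_left k
    have k4 := k2.2.resolve_left k
    cases b <;> cases b'
    exacts [e rfl, lt_asymm k3 k4, lt_asymm k3 k4, e rfl]
  · exact disjoint_left.2 fun _ k k' => disjoint_left.1 (disjoint_hZ W.toCaps (act_ok i.2).mem
      (act_ok j.2).mem (J.m.2 (m i) (m j) e'))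
      (show _ < (3 : ℝ) from lt_trans (isNk_sub i.2 (hJ.nk _ _ _ _ _) k) (by norm_num))
      (show _ < (3 : ℝ) from lt_trans (isNk_sub j.2 (hJ.nk _ _ _ _ _) k') (by norm_num))

/-- **CPT** -/
theorem cpt : CPT J := by
  intro c s h d
  obtain ⟨-, h2, h3⟩ := pm_par hJ h
  obtain ⟨ε, ⟨k0, k1⟩, k2⟩ := exists_deep d
  refine (isCompact_thk W.toCaps c (J.Θ s) k0 (k1.trans (by norm_num))).of_isClosed_subset ?_
    fun z hz a ha => not_lt.1 fun k => ?_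
  · simp only [core, ofPred_forall]
    exact isClosed_iInter fun i => (Nka63.isOpen_O _).isClosed_compl
  rw [Nw_eq h3] at ha
  obtain ⟨b, hb⟩ := exists_dom (t := 1) (.inr (hZ_ne W.toCaps ha.1 ha.2 z))
  have ac : Act J.m c a (some b) (J.Θ s) := ⟨ha.2, h2, h3, ha.1⟩
  have e : (J.Θ s).2 a = 1 := h2.2 ha.1
  have hK := hJ.nk c a _ _ ac
  have k3 := isNk_tm ac hK (z := z) (by
    rw [isNk_target ac hK, e]; exact ⟨abs_lt.1 (k.trans_le k1), hb⟩)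
  have k4 := k2 b (hZ W.toCaps c a z) hb k
  refine hz ⟨(a, some b), ac⟩ (Nka63.mem_Dq.2 ?_)
  rw [k3, hK.lo, hK.hi, e]
  generalize hZ W.toCaps c a z = u at k4 ⊢
  cases b <;> simp [pm] at k4 ⊢ <;> linarith

end Crest.Agent.X212.Pat85
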