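import Crest.Agent.X212.Pat85.Ga
import Crest.Agent.X212.Cmp73.Lvc
import Crest.Agent.X212.Shi84.Int

/-!
# X212, PATCH (helper85): the limit configuration of a family with bounded jets (leaf `ga`)
-/

set_option autoImplicit false
set_option linter.unusedSectionVars false
open Set Filter Topology Function
open scoped ContDiff Manifold InnerProductSpace

noncomputable section
namespace Crest.Agent.X212.Pat85

open An Cmp73 Sob92
open Wz78 (SA curv spin Rm fL)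
open Pj41 (OKOn ConnOn Iso0 cmM cmB)

variable {E : Type} [NormedAddCommGroup E] [NormedSpace ℝ E] [FiniteDimensional ℝ E]
  [MeasurableSpace E] [BorelSpace E]
  {HM : Type} [TopologicalSpace HM] {I : ModelWithCorners ℝ E HM} [I.Boundaryless]
  {E₀ : Type} [NormedAddCommGroup E₀] [NormedSpace ℝ E₀] [FiniteDimensional ℝ E₀]
  [MeasurableSpace E₀] [BorelSpace E₀]
  {H₀ : Type} [TopologicalSpace H₀] {I₀ : ModelWithCorners ℝ E₀ H₀} [I₀.Boundaryless]
  {M : Type} [TopologicalSpace M] [ChartedSpace H₀ M] [IsManifold I₀ ∞ M] [MeasurableSpace M]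
  [BorelSpace M] [T2Space M] [SecondCountableTopology M]
  {ι lam : Type} [Fintype ι] [Fintype lam] {α : Type}
  {X : α → Type} [∀ n, TopologicalSpace (X n)] [∀ n, ChartedSpace HM (X n)]
  [∀ n, IsManifold I ∞ (X n)] [∀ n, MeasurableSpace (X n)] [∀ n, BorelSpace (X n)]
  [∀ n, T2Space (X n)] [∀ n, SecondCountableTopology (X n)] {r : ℕ}
  {g : Gs I I₀ M ι lam X} {c : ∀ n, Cfg (X n) ι lam r} {S : Set M} {x : M}

theorem okOn_base {B B' : Base M ι lam} {m : Md M ι lam} {O : Set M} (h : OKOn I₀ B m O)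
    (hP : ∀ y ∈ O, ∀ a b, B.P a b y = B'.P a b y) (hl : ∀ y ∈ O, B.l y = B'.l y)
    (hi : B.il = B'.il) : OKOn I₀ B' m O :=
  ⟨h.Jsq, h.Jsk, h.sp, h.sρ, h.sj, h.psym, h.pidem, h.prk, h.Jp,
    fun y hy => by simpa only [hP y hy] using h.cl y hy, h.ρsk, h.Jρ, h.jsym, h.jJ, hi ▸ h.jil,
    fun y hy => hl y hy ▸ h.jl y hy, fun y hy => hl y hy ▸ h.jsq y hy, h.pj, h.jρ⟩

theorem connOn_base {B B' : Base M ι lam} {G : Geo I₀ M ι lam} {m : Md M ι lam} {W : m.Cn}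
    {O : Set M} (h : ConnOn B G m W O) (hP : ∀ y ∈ O, ∀ a b, B.P a b y = B'.P a b y) :
    ConnOn B' G m W O :=
  ⟨h.sm, fun a y hy => by simpa only [hP y hy] using h.proj a y hy, h.par, h.comp, h.sk, h.J, h.j⟩

variable (hg : g.OK)
include hg

theorem vc_of : VC I₀ g.l (fun n => (g.H n).F.e) g.G₀.F.e :=
  ⟨fun a => (hg.e a).mb, fun a => (hg.e a).pt, (Wz78.frm g.G₀.F).se, fun x v =>
    ((Submodule.mem_span_range_iff_exists_fun ℝ).1
      (g.G₀.F.span x ▸ Submodule.mem_top (x := v))).imp fun _ h => h.symm⟩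

/-- bounded jets on `X n`, read on `M` -/
theorem db_of_cb (hP : g.P ⊆ S) {V : α → Type} [∀ n, NormedAddCommGroup (V n)]
    [∀ n, NormedSpace ℝ (V n)] {A : ∀ n, ι → X n → V n →L[ℝ] V n} {s : ∀ n, X n → V n}
    (h : g.CB c S x A s) (k : ℕ) : DB I₀ (iF g.l Sᶜ x) (fun n => (g.H n).F.e)
      (fun n a y => A n a (g.ψ n y)) k fun n y => s n (g.ψ n y) :=
  DB.of_rel ob_iF (e' := fun n => (g.G n).F.e) (fun n => (Wz78.frm (g.G n).F).se) h.sA
    ((Shi84.ev_src (x := x) hg (compl_subset_compl.2 hP)).mono fun q hq =>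
      ⟨((hg.rel q.1).ld _ hq).contMDiffAt, fun a => (hg.rel q.1).e a _ hq⟩) h.sm
    fun v _ => (Fb.cb_iff.1 h).2.2 v

variable (ha : ∀ n, (c n).Adm (g.B n) (g.G n))
include ha

/-- limits of spinor fields -/
theorem lv_of_db {c' : Cfg M ι lam r} {u : ∀ n, M → CL (c n).m.V c'.m.V} (h : g.Lim c c' S u)
    {s : ∀ n, X n → (c n).m.V} (hs : ∀ k x, DB I₀ (iF g.l Sᶜ x) (fun n => (g.H n).F.e)
      (fun n a y => (c n).W a (g.ψ n y)) k fun n y => s n (g.ψ n y)) : ∃ s', g.LV c c' S u s s' := by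
  obtain ⟨c1, c2⟩ := Shi84.closed_S (I₀ := I₀) h.fin
  obtain ⟨s', k⟩ := ext_S (vc_of hg) (by rw [hg.h4]; omega) c1 c2 (A := g.tW c c' u) (A₀ := c'.W)
    (fun a => ⟨fun x _ => h.adm.conn.cc.sm a x, h.cW a⟩)
    (f := fun n y => u n y (s n (g.ψ n y))) fun k x => by
      have e : ∀ᶠ q in iF g.l Sᶜ x, g.Nr c c' u q.1 q.2 := ev_iF_of fun y hy => h.nr hg ha hy
      refine DB.map ob_iF ⟨e.mono fun _ a => a.su, 1, e.mono fun q a => ?_⟩
        (e.mono fun q a b => ?_) (hs k x)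
      · refine ContinuousLinearMap.opNorm_le_bound _ zero_le_one fun v => ?_
        have o := (ha q.1).ok
        have e1 : u q.1 q.2 v = u q.1 q.2 ((c q.1).m.p _ v) :=
          (congrArg (fun T => T v) (a.me.up o)).symm
        have e2 : (c q.1).m.p (g.ψ q.1 q.2) ((c q.1).m.p (g.ψ q.1 q.2) v) = (c q.1).m.p _ v :=
          congrArg (fun T => T v) (o.pidem _)
        rw [e1, a.me.norm e2, one_mul]
        exact (Mp86.proj_le (o.psym _) (o.pidem _) v).2.2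
      · rw [← add_sub_assoc]; exact sub_eq_zero.2 (a.itw b)
  exact ⟨s', fun x => k.sm x trivial, k.cv⟩

theorem fam_of (hP : g.P ⊆ S) (hF : ∀ x s, g.CB c S x (WA c) (gF' g.G c s)) :
    Fam I₀ g.l S g.B₀ g.G₀ g.H (fun n => cmM (g.ψ n) (c n).m) fun n a y => (c n).W a (g.ψ n y) := by
  have hU := compl_subset_compl.2 hP
  have gx : ∀ x, Gx g.B g.G c (g.F Sᶜ x) := fun x => ⟨hg.B, hg.G, fun n => (ha n).ok,
    fun n => (ha n).conn, fun n => (ha n).sm, fun n => (ha n).pos, Shi84.gb hg hU⟩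
  have db : ∀ {T : ∀ n, X n → (c n).m.V →L[ℝ] (c n).m.V},
      (∀ x, (gfb g.G c (g.F Sᶜ x)).CB (WE c) T) → ∀ k x, DB I₀ (iF g.l Sᶜ x) (fun n => (g.H n).F.e)
        (fun n => hom (fun a y => (c n).W a (g.ψ n y)) fun a y => (c n).W a (g.ψ n y)) k
        fun n y => T n (g.ψ n y) := fun h k x => db_of_cb (c := c) hg hP (h x) k
  refine ⟨hg.B₀, hg.G₀.P, fun n => (hg.H n).P, vc_of hg, (Shi84.fcv hg).Gam isOpen_univ, hg.a,
    fun x hx => (hg.src x (hU hx)).mono fun q hq => ?_, fun a b => ⟨_, db (T := fun n x =>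
      spin (fun a => (c n).m.ρ a x) (fun k l => Rm I (g.G n).F.e (g.G n).F.c (g.G n).F.Gam a b k l x) +
      (fL (g.B n) (g.G n) x (a, b) / 2) • ((c n).m.J * (c n).m.p x) + opL (gF' g.G c (a, b) n x))
      fun x => ?_, fun x hx => (hg.src x (hU hx)).mono fun q hq => ?_⟩,
    fun b => db fun x => (gx x).cb_ρ b, fun s => db fun x => (gx x).cb_j (s := fun _ _ => s) ?_⟩
  · have s : {q.2} ⊆ (g.ψ q.1).source := singleton_subset_iff.2 hq
    have P := fun y hy => hg.P_eq (s hy) (n := q.1) (y := y)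
    exact ⟨okOn_base (Pj41.cmM_okOn (fun y hy => ((hg.rel q.1).ld y (s hy)).contMDiffAt)
      (mapsTo_univ _ _) (Pj41.OK.on (ha q.1).ok univ)) P (fun y hy => hg.bl _ y (s hy)) (hg.il _),
      connOn_base (((hg.rel q.1).connOn (fun a y hy => (hg.la _ y hy a).symm) (mapsTo_univ _ _)
        (Pj41.IsConn.on (ha q.1).conn univ)).mono s) P⟩
  · have h := gx x
    exact (((Wt.sum h.sE fun k => Wt.sum h.sE fun l => (h.cs_Rm a b k l).smul
      ((h.cb_ρ k).mulE (h.cb_ρ l) cn00) cn00).const_smul (1 / 4)).add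
      ((((h.cs_fL (a, b)).const_smul (1 / 2)).congr fun n x => by
        rw [smul_eq_mul, mul_comm, ← div_eq_mul_one_div]).smul (h.cb_J.mulE h.cb_p cn00) cn00)).add
      (h.wt_opL (hF x (a, b)))
  · rw [← Wz78.curv_eq (hg.B _) (hg.G _) (ha _).ok (ha _).conn,
      (hg.rel q.1).curv hq (A' := (c q.1).W) fun _ => .of_forall fun _ => rfl]
    exact (mul_assoc _ _ _).trans (congrArg _ ((ha _).ok.pidem _))
  · exact Wt.par (fun _ _ => contMDiff_const) (fun _ => contMDiff_const) (K := ‖s‖)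
      (.of_forall fun _ => le_rfl) fun n a x => by simp [Wz78.nab, dv_cst]

/-- **GA**: the limit configuration -/
theorem ga {E' : Type} [NormedAddCommGroup E'] [InnerProductSpace ℝ E'] [FiniteDimensional ℝ E']
    (hM : CvxOn I₀ E' (univ : Set M)) (hd : 3 < Module.finrank ℝ E') (hP : g.P ⊆ S)
    (fin : ∀ K, IsCompact K → (S ∩ K).Finite) (hF : ∀ x s, g.CB c S x (WA c) (gF' g.G c s))
    (hΦ : ∀ x, g.CB c S x (WV c) fun n => (c n).Φ) : ∃ c' u, g.Lim c c' S u := by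
  obtain ⟨c1, c2⟩ := Shi84.closed_S (I₀ := I₀) fin
  obtain ⟨m', W', u, ok, cn, k1, k2⟩ := (fam_of hg ha hP hF).lim c1 c2 hM hd
  have iso : ∀ x ∉ S, ∃ O, IsOpen O ∧ x ∈ O ∧
      ∀ᶠ n in (g.l : Filter α), Iso0 I₀ (cmM (g.ψ n) (c n).m) m' O (u n) := fun x hx => by
    obtain ⟨s, hs, t, ht, k⟩ := eventually_prod_iff.1 (k1 x hx)
    obtain ⟨O, h1, h2, h3⟩ := eventually_nhds_iff.1 ht
    exact ⟨O, h2, h3, hs.mono fun n hn => iso0_of fun y hy => k hn (h1 y hy)⟩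
  have hA : ∀ (Φ : ∀ n, X n → (c n).m.V) (Φ' : M → m'.V) z' a, Cv I₀ g.l Sᶜ
      (g.dA (fun n => ⟨(c n).m, (c n).W, Φ n, (c n).z⟩) (⟨m', W', Φ', z'⟩ : Cfg M ι lam r) u a)
        fun _ => 0 := fun Φ Φ' z' a =>
    (k2 a).congr (fun _ _ => .of_forall fun q => by
      simp only [Gs.dA, cov, Pre.D_def, ← Pj41.ad_trn, ad_pj]) fun _ _ => rfl
  have hz := ultra_lim g.l (c := fun n => (c n).z) (C := 1) (.of_forall fun n =>
    (ha n).z.elim (fun e => by subst e; rw [Subsingleton.elim (c n).z 0, norm_zero]; exact zero_le_one)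
      le_of_eq)
  generalize limUnder (g.l : Filter α) (fun n => (c n).z) = z' at hz
  have z1 : r = 0 ∨ ‖z'‖ = 1 := or_iff_not_imp_left.2 fun e => tendsto_nhds_unique hz.norm
    (tendsto_const_nhds.congr fun n => ((ha n).z.resolve_left e).symm)
  have a0 : ∀ n, Cfg.Adm ⟨(c n).m, (c n).W, fun _ => 0, (c n).z⟩ (g.B n) (g.G n) := fun n =>
    ⟨(ha n).ok, (ha n).conn, contMDiff_const, fun _ => map_zero _, (ha n).z⟩
  have L0 : g.Lim (fun n => ⟨(c n).m, (c n).W, fun _ => 0, (c n).z⟩) ⟨m', W', fun _ => 0, z'⟩ S u :=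
    ⟨⟨ok, cn, contMDiff_const, fun _ => map_zero _, z1⟩, hP, fin, iso, hA _ _ _,
      (Cv.const 0).congr (fun _ _ => .of_forall fun _ => map_zero _) fun _ _ => rfl, hz⟩
  obtain ⟨Φ', k⟩ := lv_of_db hg a0 L0 (s := fun n => (c n).Φ) fun k x => db_of_cb hg hP (hΦ x) k
  have sp := Wz78.sm_pp ok hg.B₀
  have k' := k.map L0 hg a0 (T := fun n => (c n).m.pp (g.B n)) sp (Cv.fixed' sp)
    fun n _ _ hq => hq.me.pp hq.be (hg.B n) hg.B₀ (ha n).ok _
  simp only [fun n => (ha n).pos] at k'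
  exact ⟨⟨m', W', Φ', z'⟩, u, ⟨ok, cn, k.sm, congrFun (k'.unique L0 hg k), z1⟩, hP, fin, iso,
    hA _ _ _, k.cv, hz⟩

end Crest.Agent.X212.Pat85
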