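import Crest.Agent.X212.Pat85.IsB
import Crest.Agent.X212.Rf65.Pl

/-!
# X212 / RF-ISO (helper85): the leaf `Rf65.IsoL`
-/

set_option autoImplicit false
set_option linter.unusedSectionVars false

noncomputable section
namespace Crest.Agent.X212.Pat85

open An M

variable {Wi : Type} {X : Mf 4} {A κ lam : Type} [Fintype A] [Fintype κ] [Fintype lam]
  [DecidableEq lam] {M : Mark X A κ} {W : World M} {N : ML M lam}
  {Λ : Lns W N} {A' h : Type} [Fintype A'] [DecidableEq A'] [Fintype h] {r n : ℕ}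

/-- **LEAF ISO** -/
theorem isoL (J : Job Wi Λ A' h r n) (c : M.Cl) : Rf65.IsoL J c := fun hJ _ hσ _ _ H =>
  ⟨fun _ _ => str_refl hJ hσ H, fun _ H' t t' e => ⟨fun _ => iso_tf hJ hσ H H' e,
    fun _ hπ => iso_ta hJ hσ H H' e hπ, fun _ ha => iso_eqv hJ hσ H H' e ha, fun _ _ _ hz =>
      iso_str hJ hσ H H' e t t' (hz.mono fun _ ⟨_, k⟩ => Eqv71.ad0 k.sol.toAdm)⟩⟩

end Crest.Agent.X212.Pat85
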