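import Crest.Agent.X212.Pat85.UqA
import Crest.Agent.X212.Lns95.Sw

/-!
# X212 / RF-UQ (helper85), part 2: the inside of a lens wall; the leaf `Rf65.UqStmt`
-/

set_option autoImplicit false
set_option linter.unusedSectionVars false
noncomputable section
open scoped Manifold ContDiff Topology Real InnerProductSpace
open Set Function Filter MeasureTheory
open Crest.Agent.R208.F (Ext)

namespace Crest.Agent.X212.Pat85
open An Nd18 Lns95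
open M (Mf)
open Qab60 (Ab Sq)
open Abel74 (fm)
open Hol14 (flux)

theorem eqv_cg {M ι lam : Type} [Fintype ι] [Fintype lam] {B : Base M ι lam} {k : Cut M lam}
    {m m' : Md M ι lam} {u u' : M → CL m.V m'.V} {a : k.H B m} {a' : k.H B m'} (e : u' k.x0 = u k.x0)
    (h : k.Eqv k B B u a a') : k.Eqv k B B u' a a' := h.imp fun _ h => e ▸ h

section lv
variable {Y : Mf 3} [CompactSpace Y.M] {κ : Type} [Fintype κ] {lam : Type} [Fintype lam]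
  {D : YD Y.I Y.M κ lam}
  {E : Type} [NormedAddCommGroup E] [NormedSpace ℝ E] [FiniteDimensional ℝ E]
  [MeasurableSpace E] [BorelSpace E]
  {HM : Type} [TopologicalSpace HM] {I : ModelWithCorners ℝ E HM} [I.Boundaryless]
  {M : Type} [TopologicalSpace M] [ChartedSpace HM M] [IsManifold I ∞ M] [T2Space M]
  [MeasurableSpace M] [BorelSpace M] [SecondCountableTopology M]
  {B : Base M (Option κ) lam} {G : Geo I M (Option κ) lam} {K : Nk D B G}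
  {Ω : Set M} {w : M → Ext E} {r : ℕ} {c : Cfg M (Option κ) lam r} {ξ : M → c.m.A} {k : Cut M lam}

/-- an abelian solution of level `t ^ 2 / 4` -/
theorem sl_sc (i : Ins K Ω w) (A : Ab B G Ω c ξ)
    (e : ∀ x ∈ Ω, c.m.p2 B x (c.m.Fg G.F c.W x) - c.m.mu B x (c.Φ x) (c.Φ x) = 0)
    (n : Integrable (c.m.kd B G.F c.W) G.F.μ) {t : ℝ} (ht : t ≠ 0)
    (l : ∫ x in Ω, c.m.kd B G.F c.W x ∂G.F.μ = t ^ 2 / 4) :
    Sl B G Ω (t⁻¹ • fm G.F c.m c.W ξ) := by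
  have ok := i.tam.ok
  obtain ⟨-, h2, h3, h4⟩ := Qa50.addStmt I M _ lam r B G Ω c ξ i.hB i.hG i.cl A
  have a : ∀ x ∈ Ω, Num57.hs G.F B.o x (Qab60.c2 G.F (fm G.F c.m c.W ξ) x) = 0 := fun x hx =>
    PiLp.ext fun s => (smul_eq_zero.1 (congrArg (· s) ((h2 x hx).1.symm.trans (e x hx)) :
      _ • ξ x = 0)).resolve_right (h4 x hx)
  have k : ∀ x, ⟪Qab60.c2 G.F (fm G.F c.m c.W ξ) x,
      Qab60.st B.o x (Qab60.c2 G.F (fm G.F c.m c.W ξ) x)⟫_ℝ =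
      Ω.indicator (fun x => -(8 * π ^ 2) * c.m.kd B G.F c.W x) x := fun x => by
    by_cases hx : x ∈ Ω
    · rw [indicator_of_mem hx, kd_ab i.hB i.hG A hx]; field_simp
    · rw [indicator_of_notMem hx, Qab60.c2_of_zero (h3.off x hx), inner_zero_left]
  have m : ∀ x, ‖Qab60.c2 G.F (fm G.F c.m c.W ξ) x‖ ^ 2 =
      Ω.indicator (fun x => (8 * π ^ 2) * c.m.kd B G.F c.W x) x := fun x => by
    by_cases hx : x ∈ Ω
    · have := k x
      rw [Qab60.inner_st ok, a x hx, indicator_of_mem hx] at this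
      rw [Qab60.norm_c2_sq ok, a x hx, indicator_of_mem hx]
      simp only [norm_zero] at this ⊢
      linarith
    · rw [indicator_of_notMem hx, Qab60.c2_of_zero (h3.off x hx), norm_zero, sq, mul_zero]
  refine ⟨h3.smul _, fun x hx => by rw [Qab60.c2_smul, Pi.smul_apply, map_smul, a x hx, smul_zero],
    ?_, ?_⟩
  · rw [Sq, Qab60.c2_smul]
    refine MemLp.const_smul ((memLp_two_iff_integrable_sq_norm
      (Qab60.sm_c2 h3.fo.sm).continuous.aestronglyMeasurable).2 ?_) _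
    simp only [m]
    exact (n.const_mul _).indicator i.cl.isOpen.measurableSet
  · rw [smul_mul_smul_comm, Int54.integ_smul, Qab60.integ_mul ok h3.fo.dg]
    simp only [k]
    rw [integral_indicator i.cl.isOpen.measurableSet, integral_const_mul, l]
    field_simp
    norm_num

/-- **the levels of abelian solutions are discrete** -/
theorem sl_lv (hc : ClsStmt D I M) (i : Ins K Ω w) (hk : k.OK B G.F) (hs : k.supp ⊆ Ω)
    (hw : |flux I k w| = 4 * π) (A : Ab B G Ω c ξ)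
    (e : ∀ x ∈ Ω, c.m.p2 B x (c.m.Fg G.F c.W x) - c.m.mu B x (c.Φ x) (c.Φ x) = 0)
    (n : Integrable (c.m.kd B G.F c.W) G.F.μ)
    (l : ∫ x in Ω, c.m.kd B G.F c.W x ∂G.F.μ ∈ Ioo (0 : ℝ) 1) : Sl B G Ω (fm G.F c.m c.W ξ) := by
  obtain ⟨t, h0, h2, ht⟩ : ∃ t : ℝ, 0 < t ∧ t < 2 ∧ ∫ x in Ω, c.m.kd B G.F c.W x ∂G.F.μ = t ^ 2 / 4 :=
    ⟨2 * √(∫ x in Ω, c.m.kd B G.F c.W x ∂G.F.μ), mul_pos two_pos (Real.sqrt_pos.2 l.1), by
      have := (Real.sqrt_lt' one_pos).2 (l.2.trans_eq (one_pow 2).symm); linarith,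
      by rw [mul_pow, Real.sq_sqrt l.1.le]; ring⟩
  have S := sl_sc i A e n h0.ne' ht
  obtain ⟨ε, -, -, a, hε, -, -, fa, -, f, -⟩ := (hc B G K Ω w _ i S).1
  obtain ⟨m, hm⟩ := Hol14.abel_int i.hB A.adm.ok hk A.adm.conn i.hG (A.rd.toRedOn.mono hs)
  have := congrArg (fun w => |flux I k w|) f
  beta_reduce at this
  rw [Hol14.flux_add G.F (Csm97.dat hk) (fun x _ => ((Qab60.cz_of_cs i.cs).smul _).fo.sm x)
    fun x _ => fa.d.sm x, Hol14.flux_dM G.F (Csm97.dat hk) (fun x _ => fa.sm x)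
      fun _ _ => .of_forall fa.dg, add_zero, Hol14.flux_smul, Hol14.flux_smul, hm, abs_mul (ε / 2),
    abs_mul, abs_mul, hw, show |ε / 2| = 1 / 2 by rcases hε with rfl | rfl <;> norm_num [abs_div],
    abs_of_pos (inv_pos.2 h0), abs_of_pos Real.two_pi_pos, ← Int.cast_abs] at this
  have h3 : ((|m| : ℤ) : ℝ) = t := by
    have := Real.pi_pos
    field_simp at *
    linarith
  obtain rfl : t = 1 := by
    have a : 0 < |m| := by exact_mod_cast h3 ▸ h0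
    have b : |m| < 2 := by exact_mod_cast h3 ▸ h2
    rw [← h3, show |m| = 1 by omega, Int.cast_one]
  simpa using S

end lv

section scene
open M G75 Ins26 Rf65 Mp86.St
open An.Job (Sol Str Obc)
open Eqv71 (ad0)
variable {κ lam : Type} [Fintype κ] [Fintype lam] [DecidableEq lam] {Lm : LM κ lam}

variable (Lm) in
/-- the inputs -/
structure Lns : Prop where
  cls : ∀ (Y : Mf 3) [CompactSpace Y.M] (D : YD Y.I Y.M κ (lam ⊕ lam)) (X : Mf 4), ClsStmt D X.I X.M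
  uni : ∀ (Y : Mf 3) [CompactSpace Y.M] (D : YD Y.I Y.M κ (lam ⊕ lam)) (X : Mf 4), UniStmt D X.I X.M
  geo : GeoStmt Lm

variable {S : Scene Lm} {D : S.Dat} {i : S.L} {Wi : Type} {r n : ℕ}
  {J : Job Wi (D.Λ i) (S.A ⊕ Unit) S.ls r n} {X : Finset S.A} {a₀ : Option S.A} {j : ℕ} {n₀ : ℤ}
  {T : ℝ} {c : S.M.Cl} {l : S.ls} {σ : Cel (S.A ⊕ Unit)} {q : Wi →₀ ℝ} {s : S.A ⊕ Unit → ℝ}

variable (J c l q) in
/-- the row of the cut inside has at most one solution -/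
def Un : Prop := ∀ σ ∈ J.𝒦, ∀ s ∈ Job.cl σ, J.Ov σ c s → ∀ x ξ, Ab (J.B c) (J.G c s) (Om D c l) x ξ →
  Sl (J.B c) (J.G c s) (Om D c l) (fm (J.G c s).F x.m x.W ξ) →
  ∀ x' ξ' u, Ab (J.B c) (J.G c s) (Om D c l) x' ξ' → Dfl49.PI (J.G c s).F x x' (Om D c l) u →
    ∀ ψ ψ', (J.cut c l).Sol (J.B c) (J.G c s).F (J.σc c q s l) x ψ →
    (J.cut c l).Sol (J.B c) (J.G c s).F (J.σc c q s l) x' ψ' →
    (J.cut c l).Eqv (J.cut c l) (J.B c) (J.B c) u ψ ψ'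

variable (H : Lns Lm) (G : GX J X a₀ j n₀ T) (ha : ∀ a ∈ a₀, a ∉ c.1) (hc : c.1 = {l.1})
include G hc

theorem pc_om : D.W.pc c (hp l.1 false) = Om D c l :=
  pc_in G.sc l.2 (hp_some.2 ⟨rfl, rfl⟩) (hp_mem hc false).toIsReg _ c

theorem cut_om : l ∈ J.unc c ∧ (J.cut c l).supp ⊆ Om D c l := by
  have k : J.nb l ⊆ ⋃ ρ ∈ ({hp l.1 false} : Set _), S.M.sys.U ρ := by
    rw [biUnion_singleton, U_in G.sc l.2 (hp_some.2 ⟨rfl, rfl⟩) (hp_mem hc false).toIsReg, G.nb]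
    exact subset_rfl
  exact ⟨Job.unc_of (fun _ (h : _ = _) => h ▸ hp_mem hc false) k, (G.ok.cut_sub k).trans (by
    rw [un_one, pc_om G hc])⟩

theorem nb_out {a : S.ls} (e : a ≠ l) : a ∈ (pO J c (shX S X) σ l.1).H := by
  refine ⟨trivial, fun z hz => mem_biUnion (mem_singleton _) fun a' b k => ?_⟩
  obtain ⟨rfl, rfl⟩ := hp_some.1 k
  rw [G.nb] at hz
  have := disjoint_left.1 (G.sc.lsd a a.2 l l.2 fun k => e (Subtype.ext k)) (.inl hz)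
  exact ((S.M.sys.w l).compl_subset false fun k => this (.inl k)).resolve_right fun k => this (.inr k)

variable (hσ : σ ∈ J.𝒦)
include hσ

theorem act_l (hs : J.Ov σ c s) : Act J.m c l.1 (some false) (J.Θ s) :=
  ⟨G.sc.lsp l l.2, G.ok.memBr hσ hs, G.ok.memO hσ hs, hc.ge rfl⟩

include ha in
theorem s_one (hs : J.Ov σ c s) : s (.inl l.1) = 1 := by
  obtain ⟨a, h2, h3⟩ := G.ok.inf σ hσ s hs.1 l (hs.2.ge (hc.ge rfl))
  rw [G.hd] at h2
  rcases a with a | a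
  · simp only [Sum.elim_inl] at h2
    split_ifs at h2
    exact Option.some.inj h2 ▸ h3
  · exact (ha _ h2 (hc.ge rfl)).elim

include ha in
theorem qt_om (hP : PJ J c) (h1 : s ∈ Job.cl σ) (hs : J.Ov σ c s) : J.Qt c s (hp l.1 false) := by
  have t := hP.nil l ⟨hc.ge rfl, G.sc.lsp l l.2⟩
  refine qt_in G.sc l.2 (hp_some.2 ⟨rfl, rfl⟩) G.ok hσ (hp_mem hc false) hs
    ⟨t.1.J0, t.1.J2, congrFun t.2⟩ fun w => (em _).imp id fun k => ⟨_, fun x hx => ?_,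
      (G.van σ hσ s h1 l (s_one G ha hc hσ hs) w).1 k, (S.M.sys.w l).dj⟩
  simpa [Sys.cores, hc] using fun h => h true hx

include ha in
/-- the outer part sees all coordinates -/
theorem s_eq {s' : S.A ⊕ Unit → ℝ} (h1 : s ∈ Job.cl σ) (hs : J.Ov σ c s) (hs' : J.Ov σ c s')
    (e : ∀ a ∈ (pO J c (shX S X) σ l.1).V, s a = s' a) : s = s' := funext fun a => by
  rcases hb : σ a with _ | b
  swap
  · rw [hs.1.1 a b hb, hs'.1.1 a b hb]
  by_cases k : ∃ x ∈ c.1, J.hd a = some x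
  · obtain ⟨x, h3, h4⟩ := k
    rw [G.ok.eq_one hσ hs h4 h3, G.ok.eq_one hσ hs' h4 h3]
  refine e a ⟨hb, fun x h3 h4 => k ⟨x, h4, h3⟩, (em _).imp id fun h => ?_⟩
  simp only [shX, mem_ofPred_eq, not_forall, ne_eq, not_not] at h
  obtain ⟨x, hx, rfl⟩ := h
  have h5 : J.hd (.inl x) = some x := by simp [G.hd, hx]
  have h6 : x ≠ l := fun e => k ⟨x, hc.ge e, h5⟩
  obtain ⟨τ, o, τ', rfl, h7, h8, -⟩ := G.cell _ hσ
  have m : ∀ a, cel τ o (.inl a) ≠ some false → a ∈ (↑τ' ∪ ↑S.fz : Set _) := fun a h =>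
    .inl (h7 (by_contra fun k => h (if_neg k)))
  have p := (G.sc.cell i _ h8).1 (m x (by simp [hb])) (m l fun k => by
    simpa [s_one G ha hc hσ hs, b01] using h1.1 _ _ k) h6
  refine ⟨_, rfl, x, ⟨if_neg h6, fun z hz a b k => ?_, fun a k => ?_⟩, h5⟩
  · obtain ⟨rfl, rfl⟩ := hp_some.1 k
    exact G.sc.lsi l l.2 x h6 p hz
  · obtain ⟨_, k⟩ := Sys.mem_bd.1 k
    exact (hp_some.1 k).1 ▸ p

include H

theorem geo_om (hs : J.Ov σ c s) : (∃ w, Ins (J.K c l.1 _ _ (act_l G hc hσ hs)) (Om D c l) w ∧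
    |flux (D.W.Z c).I (J.cut c l) w| = 4 * π) ∧ ∀ σ' ∈ J.𝒦, ∀ s', J.Ov σ' c s' →
      Cht98.Agr (J.G c s) (J.G c s') (Om D c l) := by
  have h := H.geo S D i l J.m c _ _ _ _ _ G.sc hc (act_l G hc hσ hs) (G.ok.xs l).1
    (G.ok.nk _ _ _ _ (act_l G hc hσ hs))
  rw [← G.ct] at h
  exact ⟨h.1, fun _ k _ k' => h.2.2 _ (act_l G hc k k')⟩

omit hσ in
theorem sml_un : Sml fun Adm => ∀ q, Adm q → Un J c l q := by
  obtain ⟨C, h0, hC⟩ := H.uni _ (J.xs l).D (D.W.Z c) _ _ Wi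
    {s | ∃ σ ∈ J.𝒦, s ∈ Job.cl σ ∧ J.Ov σ c s} _ (J.G c) _ (J.cut c l)
    (fun w => (J.tp c).tc (J.tc l w)) (fun s ⟨σ, hσ, hs⟩ =>
      let h := geo_om H G hc hσ hs.2
      ⟨G.ok.ct σ hσ s hs.2.1 c hs.2.2 l (cut_om G hc).1, fun _ ⟨_, k, k'⟩ => h.2 _ k _ k'.2, _, h.1⟩)
    (cut_om G hc).2
  choose b hb using fun w => (isCompact_Icc (a := (0 : S.A ⊕ Unit → ℝ))
    (b := 1)).exists_bound_of_continuousOn (G.ok.cc l w).continuous.continuousOn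
  refine ⟨fun w => |b w| * C w, fun w => mul_nonneg (abs_nonneg _) (h0 w),
    fun A hA q hq σ hσ s h1 h2 x ξ a t => (hC s ⟨σ, hσ, h1, h2⟩ q.support (fun w => q w * J.cc l w s)
      (fun w _ k => G.ok.tc_in hσ h2 (right_ne_zero_of_mul k)) (lt_of_le_of_lt ?_ (hA q hq)) _
      (fun _ => rfl) x ξ a t).2⟩
  rw [sub_zero]
  refine Finset.sum_le_sum fun w _ => ?_
  rw [abs_mul, mul_assoc]
  exact mul_le_mul_of_nonneg_left (mul_le_mul_of_nonneg_right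
    ((hb w s ⟨fun a => (h1.2 a).1, fun a => (h1.2 a).2⟩).trans (le_abs_self _)) (h0 w)) (abs_nonneg _)

include ha

/-- the inside of an abelian face object -/
theorem ab_om (hP : PJ J c) {y : J.Obc c} (h : Sol σ q y) (f : FA J c σ n₀ y l.1)
    (k : y.kap (D.W.pc c (hp l.1 false)) ∈ Ioo (0 : ℝ) 1) :
    ∃ ξ, Ab (J.B c) (J.G c y.s) (Om D c l) y.x ξ ∧
      Sl (J.B c) (J.G c y.s) (Om D c l) (fm (J.G c y.s).F y.x.m y.x.W ξ) := by
  have h3 := pc_om G hc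
  obtain ⟨⟨w, I, hw⟩, -⟩ := geo_om H G hc hσ h.ov
  obtain ⟨x, hx⟩ := (S.M.sys.w l).ne false
  obtain ⟨ξ, R⟩ := Loc8.exists_rd I.hB I.hG h.sol.toAdm I.cl.isOpen ⟨x, hx.2, rfl⟩
    (I.sc.2 _ ⟨x, hx.2, rfl⟩) (by rw [← h3]; exact f.2.2)
  have A : Ab _ _ _ y.x ξ := ⟨h.sol.toAdm, R, fun z hz => Obc.zero f.2.1 (h3 ▸ hz)⟩
  exact ⟨ξ, A, sl_lv (H.cls _ _ _) I (G.ok.ct σ hσ _ h.ov.1 c h.inf l (cut_om G hc).1) (cut_om G hc).2
    hw A (fun z hz => by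
      simpa [Cfg.eC, (qt_om G ha hc hσ hP h.cell h.ov q _ z (h3 ▸ hz)).2] using h.sol.C z)
    h.int (h3 ▸ k)⟩

open Classical in
/-- isomorphic outside, isomorphic -/
theorem iso_om (hP : PJ J c) (un : Un J c l q) {y y' : J.Obc c} (h : Sol σ q y) (h' : Sol σ q y')
    (f : FA J c σ n₀ y l.1) (f' : FA J c σ n₀ y' l.1)
    (k : y.kap (D.W.pc c (hp l.1 false)) ∈ Ioo (0 : ℝ) 1)
    (k' : y'.kap (D.W.pc c (hp l.1 false)) ∈ Ioo (0 : ℝ) 1)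
    (e : EqP (pO J c (shX S X) σ l.1) y y') : Job.Iso y y' := by
  obtain ⟨ξ, A, Sl⟩ := ab_om H G ha hc hσ hP h f k
  obtain ⟨ξ', A', Sl'⟩ := ab_om H G ha hc hσ hP h' f' k'
  have e₀ := s_eq G ha hc hσ h.cell h.ov h'.ov e.1
  obtain ⟨_, x, Hz, ψ, β, ζ, k₁, j', l'⟩ := y'
  obtain rfl : y.s = _ := e₀
  obtain ⟨-, u', ζ', e', g⟩ := e
  obtain ⟨⟨w, I, -⟩, -⟩ := geo_om H G hc hσ h.ov
  obtain ⟨u, p⟩ := uniq_in (H.cls _ _ _) I A A' Sl Sl'
  have o : D.W.un c {hp l.1 true} = (Om D c l)ᶜ := by rw [un_out hc, pc_om G hc]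
  refine ⟨rfl, _, ζ', ceq_glue (u' := u') I.hB I.cl (ad0 A.adm) (ad0 A'.adm) A.z A'.z p
    (by rw [← o]; exact e'), fun ⟨a, hu⟩ => ?_⟩
  by_cases hl : a = l
  · subst hl
    exact eqv_cg (piecewise_eq_of_mem _ _ _ ((cut_om G hc).2 Hol14.x0_mem))
      (un σ hσ y.s h.cell h.ov _ ξ A Sl _ ξ' u A' p _ _ (h.cut _ (h.H_eq f.1.2.2.2.1.1 ▸ hu))
        (h'.cut _ (h'.H_eq f'.1.2.2.2.1.1 ▸ hu)))
  · exact eqv_cg (piecewise_eq_of_notMem _ _ _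
      (o.le (G.ok.cut_sub (nb_out (σ := σ) G hc hl).2 Hol14.x0_mem))) (g a (nb_out G hc hl))

omit G ha hc hσ

/-- **LEAF UQ at lens faces** -/
theorem uq : UqStmt Lm := fun S D i Wi r n J X a₀ j n₀ T c G ha hP => by
  refine ⟨1, one_pos, fun δ _ => (Sml.all (P := fun l A => c.1 = {l.1} → ∀ q, A q → Un J c l q)
    fun l => (em (c.1 = {l.1})).elim (fun hc => (sml_un H G hc).mono fun _ k _ => k)
      fun hc => .of fun _ k => (hc k).elim).mono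
    fun A un σ hl H₁ lx q4 q₀ y₀ x a h₀ f₀ R _ _ α 𝒰 q y y' cv e s s' => ?_⟩
  have hc := f₀.1.2.1
  have hx := hl ⟨hc.ge rfl, f₀.1.2.2.1⟩
  have k : ∀ {y : α → J.Obc c}, Str 𝒰 y y₀ → ∀ᶠ k in (𝒰 : Filter α),
      (y k).kap (D.W.pc c (hp x false)) ∈ Ioo (0 : ℝ) 1 := fun s =>
    s.kap _ (hp_mem hc false) (isOpen_Ioo.mem_nhds (by rw [(q4 q₀ y₀ x a h₀ f₀ R).1]; norm_num))
  filter_upwards [uq_out H₁ a h₀ f₀ (fun i _ _ β hβ => by
    simpa using ((H₁.wl _ _ 0 (G.ok.xs _).1.yd (hP.nil _ i.1.2).1 (lx.1 _ (hl i.1.2))).2.1 β hβ).1)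
    R cv e s s', e, k s, k s'] with k h1 h2 h3 h4
  exact iso_om (l := ⟨x, hx⟩) H G ha hc H₁.mem hP (un _ hc _ h2.1) h2.2.1.1 h2.2.2.1 h2.2.1.2 h2.2.2.2
    h3 h4 h1

end scene

end Crest.Agent.X212.Pat85
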