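import Crest.Agent.X212.Pat85.HsaA
import Crest.Agent.X212.Cqn41.Nr0
import Crest.Agent.X212.Mp86.St

/-!
# X212 / NT-R HSA (helper85): decaying forms are smooth variations, and conversely
-/

set_option autoImplicit false
set_option linter.unusedSectionVars false
noncomputable section
open scoped Manifold ContDiff Topology InnerProductSpace
open MeasureTheory Set Function Filter
open Crest.Agent.R208.F (Ext)

namespace Crest.Agent.X212.Pat85
open An M Nd18 Mod61 Nk89 Cht98 Rf65 Pte3 Qab60 Nr41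
open Grp76 (Nice)
open Mp86.St (hp_mem)

section job
variable {Wi : Type} {X : Mf 4} {A κ lam : Type} [Fintype A] [Fintype κ] [Fintype lam]
  [DecidableEq lam] {M : Mark X A κ} {W : World M} {N : ML M lam} {Λ : Lns W N}
  {A' h : Type} [Fintype A'] [DecidableEq A'] [Fintype h] {r n : ℕ}
  {J : Job Wi Λ A' h r n} {c : M.Cl} {σ : Cel A'} {p : Prt A A' h} {U : Type} [Fintype U] {δ : ℝ}
  {b : Bp J c} {E : EC b p U δ} {R : A} {s : A' → ℝ}

/-- decaying forms lie in all weighted spaces -/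
theorem nice_dk (H : CS σ E) (e : c.1 = {R}) {ha : Act J.m c R (some false) (J.Θ s)} {d : ℝ}
    (hd : δ < d) {a : (W.Z c).M → Ext (W.Z c).E} (k : Dk J c R s ha d a) :
    Nice (b.F p U δ).F0.toPre (c1 (J.G c s).F a) := by
  obtain ⟨T, T0, hT⟩ := k.dc
  refine End3.nice_of_dec H.ee hd (R' := max 5 T) (le_max_left _ _) (sm_c1 k.fo.sm)
    (g := fun i z => c1 (J.G c s).F a ((H.ee.P i).K.ψ z)) (fun _ _ _ => rfl) ?_
  rintro ⟨⟨R', hR⟩, β⟩ w
  obtain rfl : R = R' := (e.le hR.1).symm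
  have ac : Act J.m c R (some β) (J.Θ b.s) := ⟨hR.2, b.br, b.O, hR.1⟩
  have mJ := fun z (hz : max 5 T < _) =>
    End3.mem_J (H.ee.okP (⟨R, hR⟩, β)) (le_max_left 5 T) (s := z) hz.le
  have ev := fun z hz => (End3.isOpen_hi (H.ee.P (⟨R, hR⟩, β)) (max 5 T)).eventually_mem (x := z) hz
  cases β
  · have en := en_W ha (H.ok.nk _ _ _ _ ha) (H.ok.xs R).1 fun _ k => .inl (e.le k)
    have sg : ∀ u : ℝ, (H.ee.P (⟨R, hR⟩, false)).sg * u = u := one_mul
    refine (hT w).imp fun C hC z hz => ?_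
    refine (congrArg norm (Prm93.Dw_congr w ((ev z hz).mono fun q hq => ?_))).trans_le
      ((hC z ⟨trivial, (le_max_right 5 T).trans_lt (hz.trans_eq (sg _))⟩).trans_eq (by rw [sg]))
    have q0 : 0 < q.2 := (T0.trans (le_max_right 5 T)).trans_lt (lt_of_lt_of_eq hq (sg _))
    refine (congrArg (c1 (J.G c s).F a) ?_).trans (en.c1_pm q0 a).symm
    refine (isNk_ψ ac (H.ok.nk _ _ _ _ ac) (mJ _ hq)).trans
      ((isNk_ψ ha (H.ok.nk _ _ _ _ ha) (en.J q0)).trans ?_).symm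
    rw [show (J.Θ s).2 R = 1 from ha.2.1.2 ha.2.2.2, show (J.Θ b.s).2 R = 1 from ac.2.1.2 hR.1]
  · refine ⟨0, fun z hz => ?_⟩
    refine (congrArg norm (Prm93.Dw_congr w ((ev z hz).mono fun q hq => ?_))).trans_le
      ((Sob92.CB_const _ 0 w le_rfl z).trans_eq (norm_zero.trans (zero_mul _).symm))
    exact c1_of_zero (k.off _ fun m => disjoint_left.1 (Cyl58.disjoint_pc _ (hp_mem e true)
      (hp_mem e false) fun k => by simpa [hp] using congrFun k R)
      ((H.ok.nk _ _ _ _ ac).end_mem ac (hp_mem e true) (if_pos rfl) (mJ _ hq)) m)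

end job

open G75 Ins26 Jb7 in
/-- **NT-R HSA** -/
theorem hsa {κ lam : Type} [Fintype κ] [Fintype lam] [DecidableEq lam] (Lm : LM κ lam) :
    All Lm Hsa := fun _ D _ _ _ _ J c _ _ => ⟨1, one_pos, fun δ _ σ R b E q y x ψ ξ C _ _ => by
  have F := C.cs.F
  have rd := C.ins.ab.rd
  have cl : IsClopen (oI D.W c R) := Cyl58.isClopen_pc _ (hp_mem C.one false)
  have e : HA C = Hs (FW σ R b δ).F0.toPre (pΩ (FW σ R b δ) (oI D.W c R) E.o.m) := by
    rw [oI, ← un_one]; rfl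
  have cξ : (FW σ R b δ).F0.Cb ξ := cb_xi F x cl (C.θ ▸ rd :)
  refine ⟨fun ha d a hd k =>
    ⟨_, e.ge (hs_tn F x.ht cξ rd.mem rd.off (nice_dk C.cs C.one hd k)), ?_⟩, fun α hα => ?_⟩
  · rw [← C.θ]
    exact S_Si F x.ht a
  · rw [← C.θ, e]
    exact hs_split F x.ht cξ rd.mem rd.off (fun z hz => (real_inner_self_eq_norm_sq _).trans
      (Abel74.norm_sq E.o.ok (rd.mem z hz) (rd.sq z hz))) (e.le hα)⟩

end Crest.Agent.X212.Pat85
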