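import Crest.Agent.X212.Pat85.CB
import Crest.Agent.N250.Gr.AA

/-!
# X212, PATCH (helper85), part 2: limits of bounded families in a vector space
-/

set_option autoImplicit false

open Set Filter Topology Metric
open scoped ContDiff

noncomputable section

namespace Crest.Agent.X212.Pat85

variable {ι : Type} {E F G : Type} [NormedAddCommGroup E] [NormedSpace ℝ E]
  [NormedAddCommGroup F] [NormedSpace ℝ F] [NormedAddCommGroup G] [NormedSpace ℝ G]
  {l : Filter ι} {x : E} {f : ι → E → F} {k : ℕ}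

namespace CB

/-- explicit form on a ball -/
theorem ball (h : CB (l ×ˢ 𝓝 x) k f) : ∃ r > 0, ∃ C, ∀ᶠ i in l, ∀ y ∈ ball x r,
    ContDiffAt ℝ ∞ (f i) y ∧ ∀ j ≤ k, ‖iteratedFDeriv ℝ j (f i) y‖ ≤ C := by
  obtain ⟨C, hC⟩ := h
  obtain ⟨pa, hpa, pb, hpb, H⟩ := eventually_prod_iff.1 hC
  obtain ⟨r, hr, hb⟩ := Metric.eventually_nhds_iff_ball.1 hpb
  exact ⟨r, hr, C, hpa.mono fun i hi y hy => H hi (hb y hy)⟩

/-- equi-Lipschitz near the point -/
theorem lip (h : CB (l ×ˢ 𝓝 x) 1 f) : ∃ r > 0, ∃ C, ∀ᶠ i in l, ∀ y ∈ Metric.ball x r,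
    ∀ z ∈ Metric.ball x r, ‖f i y - f i z‖ ≤ C * ‖y - z‖ := by
  obtain ⟨r, hr, C, hC⟩ := h.ball
  refine ⟨r, hr, C, hC.mono fun i hi y hy z hz => ?_⟩
  refine (convex_ball x r).norm_image_sub_le_of_norm_fderiv_le
    (fun w hw => (hi w hw).1.differentiableAt (by simp)) (fun w hw => ?_) hz hy
  simpa using (hi w hw).2 1 le_rfl

/-- convergence at the point gives joint convergence -/
theorem tendsto_of (h : CB (l ×ˢ 𝓝 x) 1 f) {c : F} (hc : Tendsto (fun i => f i x) l (𝓝 c)) :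
    Tendsto (fun q : ι × E => f q.1 q.2) (l ×ˢ 𝓝 x) (𝓝 c) := by
  obtain ⟨r, hr, C, hC⟩ := h.lip
  have h1 : Tendsto (fun q : ι × E => f q.1 q.2 - f q.1 x) (l ×ˢ 𝓝 x) (𝓝 0) := by
    have h2 : Tendsto (fun q : ι × E => C * ‖q.2 - x‖) (l ×ˢ 𝓝 x) (𝓝 (C * ‖x - x‖)) :=
      ((tendsto_snd.sub_const x).norm).const_mul C
    rw [sub_self, norm_zero, mul_zero] at h2
    refine squeeze_zero_norm' ?_ h2
    filter_upwards [hC.prod_inl (𝓝 x), (isOpen_ball.eventually_mem (mem_ball_self hr)).prod_inr l]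
      with q h3 h4 using h3 _ h4 _ (mem_ball_self hr)
  simpa using h1.add (hc.comp tendsto_fst)

/-- post-composition with a map which is smooth near the limit value -/
theorem post_at {𝓕 : Filter (ι × E)} (h : CB 𝓕 k f) {c : F}
    (hc : Tendsto (fun q : ι × E => f q.1 q.2) 𝓕 (𝓝 c)) {Φ : F → G}
    (hΦ : ∀ᶠ y in 𝓝 c, ContDiffAt ℝ ∞ Φ y) : CB 𝓕 k fun i y => Φ (f i y) :=
  (cb_fixed hΦ (⊤ : Filter Unit) k).comp h (fun _ => ()) (tendsto_top.prodMk hc)

/-- the property spreads to nearby points -/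
theorem ev (h : CB (l ×ˢ 𝓝 x) k f) : ∀ᶠ y in 𝓝 x, CB (l ×ˢ 𝓝 y) k f := by
  obtain ⟨r, hr, C, hC⟩ := h.ball
  filter_upwards [isOpen_ball.eventually_mem (mem_ball_self hr)] with y hy
  refine ⟨C, ?_⟩
  filter_upwards [hC.prod_inl (𝓝 y), (isOpen_ball.eventually_mem hy).prod_inr l] with q h1 h2
    using h1 _ h2

end CB

namespace CBOn

variable {U : Set E} {g : E → F}

theorem ultra [FiniteDimensional ℝ E] [FiniteDimensional ℝ F] (𝒰 : Ultrafilter ι)
    (hU : IsOpen U) (h : CBOn (𝒰 : Filter ι) U f) (hx : x ∈ U) : ∃ r > 0, ball x r ⊆ U ∧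
      ∃ v, ContDiffOn ℝ ∞ v (ball x r) ∧ N250.Gr.JLim (𝒰 : Filter ι) f v (ball x r) := by
  have := FiniteDimensional.proper_real E
  obtain ⟨r, hr, hrU⟩ := nhds_basis_closedBall.mem_iff.1 (hU.mem_nhds hx)
  have hb := h.bound (isCompact_closedBall x r) hrU
  refine ⟨r, hr, ball_subset_closedBall.trans hrU, N250.Gr.sm_lim 𝒰 f isOpen_ball
    (convex_ball x r) isBounded_ball ?_ fun k => ?_⟩
  · obtain ⟨C, hC⟩ := hb 0
    exact hC.mono fun i hi y hy => (hi y (ball_subset_closedBall hy)).1.contDiffWithinAt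
  · obtain ⟨C, hC⟩ := hb k
    exact ⟨C, hC.mono fun i hi y hy => (hi y (ball_subset_closedBall hy)).2 k le_rfl⟩

/-- a pointwise limit of a bounded family is smooth -/
theorem lim_smooth [FiniteDimensional ℝ E] [FiniteDimensional ℝ F] [l.NeBot] (hU : IsOpen U)
    (h : CBOn l U f) (hg : ∀ y ∈ U, Tendsto (fun i => f i y) l (𝓝 (g y))) (hx : x ∈ U) :
    ContDiffAt ℝ ∞ g x := by
  obtain ⟨r, hr, hrU, v, hv, hl⟩ :=
    ultra (Ultrafilter.of l) hU (h.mono (Ultrafilter.of_le l) subset_rfl) hx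
  refine (hv.contDiffAt (ball_mem_nhds x hr)).congr_of_eventuallyEq ?_
  filter_upwards [ball_mem_nhds x hr] with y hy
  exact tendsto_nhds_unique ((hg y (hrU hy)).mono_left (Ultrafilter.of_le l))
    (hl.val.tendsto_at hy)

/-- the derivatives converge -/
theorem lim_fd [FiniteDimensional ℝ E] [FiniteDimensional ℝ F] (hU : IsOpen U)
    (h : CBOn l U f) (hg : ∀ y ∈ U, Tendsto (fun i => f i y) l (𝓝 (g y))) (hx : x ∈ U) :
    Tendsto (fun i => fderiv ℝ (f i) x) l (𝓝 (fderiv ℝ g x)) := by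
  refine (tendsto_iff_ultrafilter _ _ _).2 fun 𝒰 h𝒰 => ?_
  obtain ⟨r, hr, hrU, v, -, hl⟩ := ultra 𝒰 hU (h.mono h𝒰 subset_rfl) hx
  have e : g =ᶠ[𝓝 x] v := by
    filter_upwards [ball_mem_nhds x hr] with y hy
    exact tendsto_nhds_unique ((hg y (hrU hy)).mono_left h𝒰) (hl.val.tendsto_at hy)
  rw [e.fderiv_eq]
  exact hl.d1.tendsto_at (mem_ball_self hr)

end CBOn

/-- bounded families of points converge along an ultrafilter -/
theorem ultra_lim [FiniteDimensional ℝ F] (𝒰 : Ultrafilter ι) {c : ι → F} {C : ℝ}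
    (hc : ∀ᶠ i in (𝒰 : Filter ι), ‖c i‖ ≤ C) : Tendsto c 𝒰 (𝓝 (limUnder (𝒰 : Filter ι) c)) := by
  have := FiniteDimensional.proper_real F
  obtain ⟨a, -, ha⟩ := (isCompact_closedBall (0 : F) C).ultrafilter_le_nhds (𝒰.map c) (by
    rw [Ultrafilter.coe_map, le_principal_iff, mem_map]
    filter_upwards [hc] with j hj
    simpa using hj)
  exact tendsto_nhds_limUnder ⟨a, ha⟩

end Crest.Agent.X212.Pat85
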