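import Crest.Agent.X212.Pat85.Rad
import Crest.Agent.X212.Pat85.AA
import Crest.Agent.X212.Eps63.Ext

/-!
# X212, PATCH (helper85): converging frames in charts, limits which extend over thin sets
-/

set_option autoImplicit false
set_option linter.unusedSectionVars false
open Set Filter Topology Function Metric
open scoped ContDiff Manifold InnerProductSpace

noncomputable section
namespace Crest.Agent.X212.Pat85

open Cmp73 Sob92
open Wz78 (nab curv SA)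
open Eps63 (Thin)

section flat
variable {ι E G α : Type} [Fintype ι] [NormedAddCommGroup E] [InnerProductSpace ℝ E]
  [FiniteDimensional ℝ E] [NormedAddCommGroup G] [NormedSpace ℝ G]

/-- the Gram operator -/
def gram (t : ι → E) : E →L[ℝ] E := ∑ a, (innerSL ℝ (t a)).smulRight (t a)

/-- the canonical right inverse of a spanning family -/
def rinv (t : ι → E) : E →L[ℝ] ι → ℝ :=
  ContinuousLinearMap.pi fun a => innerSL ℝ (t a) ∘L (gram t).inverse

theorem rinv_sum {t : ι → E} (h : (gram t).IsInvertible) (v : E) : ∑ a, rinv t v a • t a = v := by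
  conv_rhs => rw [← h.self_apply_inverse v]
  simp [rinv, gram, _root_.sum_apply]

theorem gram_inv {t : ι → E} (h : ∀ v, ∃ s : ι → ℝ, ∑ a, s a • t a = v) :
    (gram t).IsInvertible := by
  have hi : Injective (gram t : E →ₗ[ℝ] E) := by
    refine (injective_iff_map_eq_zero _).2 fun v hv => ?_
    have h1 : ∑ a, ⟪t a, v⟫_ℝ * ⟪t a, v⟫_ℝ = 0 := by
      have := congrArg (fun w => ⟪w, v⟫_ℝ) hv
      simpa [gram, _root_.sum_apply, sum_inner, inner_smul_left] using this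
    have h2 := (Finset.sum_eq_zero_iff_of_nonneg fun a _ => mul_self_nonneg _).1 h1
    obtain ⟨s, hs⟩ := h v
    refine inner_self_eq_zero (𝕜 := ℝ).1 ?_
    conv_lhs => arg 2; rw [← hs]
    rw [sum_inner]
    exact Finset.sum_eq_zero fun a _ => by
      rw [inner_smul_left, mul_self_eq_zero.1 (h2 a (Finset.mem_univ a)), mul_zero]
  exact ⟨(LinearEquiv.ofInjectiveEndo _ hi).toContinuousLinearEquiv, by ext; rfl⟩

/-- converging spanning frames -/
theorem ff_of {l : Filter α} {z : E} {T : α → ι → E → E} {t : ι → E}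
    (hT : ∀ k a, CB (l ×ˢ 𝓝 z) k fun n => T n a) (ht : ∀ a, Tendsto (fun n => T n a z) l (𝓝 (t a)))
    (h : ∀ v, ∃ s : ι → ℝ, ∑ a, s a • t a = v) :
    FF (l ×ˢ 𝓝 z) T (fun n y => rinv fun a => T n a y) ∧
      ∀ᶠ q in l ×ˢ 𝓝 z, (gram fun a => T q.1 a q.2).IsInvertible := by
  have := FiniteDimensional.complete ℝ E
  have hG : ∀ k, CB (l ×ˢ 𝓝 z) k fun n y => gram fun a => T n a y := fun k => CB.sum fun a =>
    ((hT k a).clm (innerSL ℝ : E →L[ℝ] E →L[ℝ] ℝ)).bil (ContinuousLinearMap.smulRightL ℝ E E) (hT k a)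
  have h1 : Tendsto (fun q : α × E => gram fun a => T q.1 a q.2) (l ×ˢ 𝓝 z) (𝓝 (gram t)) :=
    (hG 1).tendsto_of (tendsto_finsetSum _ fun a _ =>
      ((ContinuousLinearMap.smulRightL ℝ E E).continuous₂.tendsto (_, _)).comp
        ((((innerSL ℝ : E →L[ℝ] E →L[ℝ] ℝ).continuous.tendsto _).comp (ht a)).prodMk_nhds (ht a)))
  have hop : ∀ᶠ L in 𝓝 (gram t), L.IsInvertible :=
    ContinuousLinearEquiv.isOpen.mem_nhds (gram_inv h)
  have h2 : ∀ᶠ q in l ×ˢ 𝓝 z, (gram fun a => T q.1 a q.2).IsInvertible := h1.eventually hop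
  have h3 : ∀ k v a, CB (l ×ˢ 𝓝 z) k fun n y => rinv (fun a => T n a y) v a := fun k v a =>
    ((hT k a).clm (innerSL ℝ : E →L[ℝ] E →L[ℝ] ℝ)).app (((hG k).post_at h1
      (hop.mono fun L hL => hL.contDiffAt_map_inverse)).app (CB.const v))
  exact ⟨⟨ob_prod l z, hT, fun k => CB.of_apply fun v => CB.pi (h3 k v),
    h2.mono fun q hq v => rinv_sum (t := fun a => T q.1 a q.2) hq v⟩, h2⟩

theorem lim_itd {l : Filter α} [l.NeBot] {U : Set E} (hU : IsOpen U) {x : E} (hx : x ∈ U) {C : ℝ} :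
    ∀ (j : ℕ) {G : Type} [NormedAddCommGroup G] [NormedSpace ℝ G] [FiniteDimensional ℝ G]
    {f : α → E → G} {g : E → G}, CBOn l U f → (∀ y ∈ U, Tendsto (fun i => f i y) l (𝓝 (g y))) →
    (∀ᶠ n in l, ‖iteratedFDeriv ℝ j (f n) x‖ ≤ C) → ‖iteratedFDeriv ℝ j g x‖ ≤ C
  | 0, _, _, _, _, _, _, _, hg, h => by
      simp only [norm_iteratedFDeriv_zero] at h ⊢
      exact le_of_tendsto (hg x hx).norm h
  | j + 1, _, _, _, _, _, _, hf, hg, h => by
      simp only [← norm_iteratedFDeriv_fderiv] at h ⊢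
      exact lim_itd hU hx j hf.fd (fun y hy => hf.lim_fd hU hg hy) h

/-- limits with iterated bounds extend over thin sets -/
theorem ext_flat [FiniteDimensional ℝ G] {l : Filter α} [l.NeBot] {U Ω Z : Set E} (hZ : Thin Z)
    (hU : IsOpen U) (hΩ : IsOpen Ω) (h1 : U \ Z ⊆ Ω) (h2 : Ω ⊆ U) {f : α → E → G} {g : E → G}
    (hf : ∀ k, ∀ z ∈ U, CB (iF l Ω z) k f) (hg : ∀ y ∈ Ω, Tendsto (fun i => f i y) l (𝓝 (g y))) :
    ∃ g' : E → G, (∀ x ∈ U, ContDiffAt ℝ ∞ g' x) ∧ EqOn g' g Ω := by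
  have := FiniteDimensional.proper_real E
  have hb : CBOn l Ω f := fun k x hx => iF_eq (l := l) hx ▸ hf k x (h2 hx)
  have sm : ∀ x ∈ Ω, ContDiffAt ℝ ∞ g x := fun x hx => hb.lim_smooth hΩ hg hx
  refine hZ.ext_loc hΩ h1 (fun _ => sm) fun z hz => ?_
  obtain ⟨r, hr, hrU⟩ := nhds_basis_closedBall.mem_iff.1 (hU.mem_nhds hz)
  refine ⟨r, hr, ball_subset_closedBall.trans hrU, fun k => Eps63.bc_of_itd
    (fun _ => isOpen_ball.inter hΩ) k (fun _ x hx => sm x hx.2) fun j _ => ?_⟩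
  suffices ∃ C, ∀ x ∈ closedBall z r, x ∈ Ω → ‖iteratedFDeriv ℝ j g x‖ ≤ C from
    this.imp fun C hC _ x hx => hC x (ball_subset_closedBall hx.1) hx.2
  refine (isCompact_closedBall z r).induction_on
    (p := fun S => ∃ C, ∀ x ∈ S, x ∈ Ω → ‖iteratedFDeriv ℝ j g x‖ ≤ C) ⟨0, by simp⟩
    (fun s t hst ht => ht.imp fun C hC x hx => hC x (hst hx))
    (fun s t ⟨C, hC⟩ ⟨D, hD⟩ => ⟨max C D, fun x hx hx' => hx.elim
      (fun a => (hC x a hx').trans (le_max_left _ _)) fun a => (hD x a hx').trans (le_max_right _ _)⟩)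
    fun w hw => ?_
  obtain ⟨C, hC⟩ := hf j w (hrU hw)
  refine ⟨_, mem_nhdsWithin_of_mem_nhds (eventually_nhdsWithin_iff.1 (ev_iF.1 hC)), C,
    fun x hx hx' => lim_itd hΩ hx' j hb hg ?_⟩
  exact (ev_at (p := fun n y => ContDiffAt ℝ ∞ (f n) y ∧
    ∀ i ≤ j, ‖iteratedFDeriv ℝ i (f n) y‖ ≤ C) (hx hx')).mono fun n hn => hn.2 j le_rfl

/-- countably many lines through a point form a thin set -/
theorem thin_lines (hd : 3 < Module.finrank ℝ E) (c : E) {S : Set E} (hS : S.Countable) :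
    Thin {z | ∃ s ∈ S, ∃ t : ℝ, z = c + t • (s - c)} := by
  classical
  have := FiniteDimensional.complete ℝ E
  intro x y
  let W : E → Submodule ℝ E := fun s => Submodule.span ℝ (({s - c, x - c, y - c} : Finset E) : Set E)
  have hW : ∀ s, W s ≠ ⊤ := fun s e => by
    have h2 := finrank_span_finset_le_card (R := ℝ) ({s - c, x - c, y - c} : Finset E)
    have h3 : ({s - c, x - c, y - c} : Finset E).card ≤ 3 := Finset.card_le_three
    rw [Set.finrank, show Submodule.span ℝ _ = ⊤ from e, finrank_top] at h2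
    omega
  have hD : Dense (⋂ s ∈ S, (W s : Set E)ᶜ) :=
    dense_biInter_of_isOpen (fun s _ => (W s).closed_of_finiteDimensional.isOpen_compl) hS
      fun s _ => interior_eq_empty_iff_dense_compl.1
        (not_nonempty_iff_eq_empty.1 fun h => hW s ((W s).eq_top_of_nonempty_interior' h))
  obtain ⟨w, hw⟩ := hD.nonempty
  refine ⟨w, fun a b ε hab hε ⟨s, hs, t, ht⟩ => mem_iInter₂.1 hw s hs ?_⟩
  have e : w = ε⁻¹ • (t • (s - c) - a • (x - c) - b • (y - c)) := by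
    have : t • (s - c) - a • (x - c) - b • (y - c) = ε • w := by
      rw [← sub_eq_iff_eq_add'] at ht
      rw [← ht, show b = 1 - a by linarith]
      module
    rw [this, smul_smul, inv_mul_cancel₀ hε, one_smul]
  rw [e]
  refine Submodule.smul_mem _ _ (sub_mem (sub_mem ?_ ?_) ?_) <;>
    exact Submodule.smul_mem _ _ (Submodule.subset_span (by simp))

theorem diff_lines {C S : Set E} {c : E} (hC : Convex ℝ C) (hc : c ∈ C \ S) :
    C \ {z | ∃ s ∈ S, ∃ t : ℝ, z = c + t • (s - c)} ⊆ vis (C \ S) c := fun z hz y hy =>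
  ⟨hC.segment_subset hc.1 hz.1 hy, fun hs => hz.2 ⟨y, hs, by
    rw [segment_eq_image'] at hy
    obtain ⟨t, -, rfl⟩ := hy
    have : t ≠ 0 := fun h => hc.2 (by simpa [h] using hs)
    exact ⟨t⁻¹, by simp [smul_smul, this]⟩⟩⟩

/-! ### the star filter -/

/-- neighbourhoods of the segments from `c` to the visible points near `z` -/
def sF (l : Filter α) (O : Set E) (c z : E) : Filter (α × E) :=
  (𝓝[vis O c] z).bind fun y => l ×ˢ 𝓝ˢ (segment ℝ c y)

variable {l : Filter α} {O : Set E} {c z : E}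

theorem iF_le_sF : iF l (vis O c) z ≤ sF l O c z := fun _ hD => ev_iF.2
  (Eventually.mono (mem_bind'.1 hD) fun y hy =>
    prod_mono le_rfl (nhds_le_nhdsSet (right_mem_segment ℝ c y)) hy)

theorem sb_sF : SB (sF l O c z) c := fun D hD => eventually_bind.2
  (Eventually.mono (mem_bind'.1 hD) fun y hy => by
    obtain ⟨A, hA, W, hW, H⟩ := mem_prod_iff.1 hy
    obtain ⟨W', h1, h2, h3⟩ := mem_nhdsSet_iff_exists.1 hW
    filter_upwards [prod_mem_prod hA ((isOpen_vis h1 c).mem_nhdsSet.2 (segment_subset_vis h2))]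
      with q hq
    have h4 : W' ⊆ interior {w | (q.1, w) ∈ D} :=
      interior_maximal (fun w hw => H (mk_mem_prod hq.1 (h3 hw))) h1
    exact fun w hw => h4 (hq.2 hw))

theorem isCompact_seg (c z : E) : IsCompact (segment ℝ c z) := by
  rw [segment_eq_image']; exact isCompact_Icc.image (by fun_prop)

theorem sF_ex {P : ℝ → α × E → Prop} (hP : ∀ K K' q, K ≤ K' → P K q → P K' q)
    (h : ∀ w ∈ segment ℝ c z, ∃ K, ∀ᶠ q in iF l O w, P K q) : ∃ K, ∀ᶠ q in sF l O c z, P K q := by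
  have key : ∃ K, ∀ᶠ y in 𝓝ˢ (segment ℝ c z), y ∈ O → ∀ᶠ q in l ×ˢ 𝓝 y, P K q := by
    refine (isCompact_seg c z).induction_on
      (p := fun S => ∃ K, ∀ᶠ y in 𝓝ˢ S, y ∈ O → ∀ᶠ q in l ×ˢ 𝓝 y, P K q) ⟨0, by simp⟩
      (fun s t hst ht => ht.imp fun K hK => nhdsSet_mono hst hK)
      (fun s t ⟨K, hK⟩ ⟨K', hK'⟩ => ⟨max K K', ?_⟩) fun w hw => ?_
    · rw [nhdsSet_union, eventually_sup]
      exact ⟨hK.mono fun y a b => (a b).mono fun q => hP _ _ q (le_max_left _ _),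
        hK'.mono fun y a b => (a b).mono fun q => hP _ _ q (le_max_right _ _)⟩
    · obtain ⟨K, hK⟩ := h w hw
      obtain ⟨W, h1, h2, h3⟩ := _root_.eventually_nhds_iff.1 (eventually_nhdsWithin_iff.1 (ev_iF.1 hK))
      exact ⟨W, mem_nhdsWithin_of_mem_nhds (h2.mem_nhds h3), K,
        (show ∀ᶠ y in 𝓝ˢ W, y ∈ W from h2.mem_nhdsSet.2 subset_rfl).mono h1⟩
  obtain ⟨K, hK⟩ := key
  obtain ⟨W, h1, h2, h3⟩ := mem_nhdsSet_iff_exists.1 hK
  refine ⟨K, eventually_bind.2 ?_⟩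
  filter_upwards [self_mem_nhdsWithin, nhdsWithin_le_nhds ((isOpen_vis h1 c).mem_nhds h2)]
    with y a b
  exact (isCompact_seg c y).mem_prod_nhdsSet_of_forall fun w hw => h3 (b hw) (a hw)

theorem sF_ev {P : α × E → Prop} (h : ∀ w ∈ O, ∀ᶠ q in l ×ˢ 𝓝 w, P q) :
    ∀ᶠ q in sF l O c z, P q :=
  let ⟨_, hK⟩ := sF_ex (P := fun _ => P) (fun _ _ _ _ a => a) fun _ _ => ⟨0, ev_iF_of h⟩; hK

theorem sF_cb {k : ℕ} {f : α → E → G} (h : ∀ w ∈ segment ℝ c z, CB (iF l O w) k f) :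
    CB (sF l O c z) k f :=
  sF_ex (fun _ _ _ hK a => ⟨a.1, fun j hj => (a.2 j hj).trans hK⟩) h

theorem sF_db {V : α → Type} [∀ n, NormedAddCommGroup (V n)] [∀ n, NormedSpace ℝ (V n)]
    {T : α → ι → E → E} {A : ∀ n, ι → E → V n →L[ℝ] V n} : ∀ {k : ℕ} {f : ∀ n, E → V n},
    (∀ w ∈ segment ℝ c z, DB 𝓘(ℝ, E) (iF l O w) T A k f) → DB 𝓘(ℝ, E) (sF l O c z) T A k f := by
  have h0 : ∀ {f : ∀ n, E → V n}, (∀ w ∈ segment ℝ c z, D0 𝓘(ℝ, E) (iF l O w) f) →
      D0 𝓘(ℝ, E) (sF l O c z) f := fun {f} h => by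
    obtain ⟨K, hK⟩ := sF_ex (P := fun K q => SA 𝓘(ℝ, E) (f q.1) q.2 ∧ ‖f q.1 q.2‖ ≤ K)
      (fun _ _ _ hK a => ⟨a.1, a.2.trans hK⟩) fun w hw => (h w hw).2.imp fun _ a => (h w hw).1.and a
    exact ⟨hK.mono fun _ a => a.1, K, hK.mono fun _ a => a.2⟩
  intro k
  induction k with
  | zero => exact h0
  | succ k ih => exact fun h => ⟨h0 fun w hw => (h w hw).1, fun a => ih fun w hw => (h w hw).2 a⟩

end flat

variable {E : Type} [NormedAddCommGroup E] [NormedSpace ℝ E] [FiniteDimensional ℝ E]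
  {HM : Type} [TopologicalSpace HM] {I : ModelWithCorners ℝ E HM} [I.Boundaryless]
  {M : Type} [TopologicalSpace M] [ChartedSpace HM M] [IsManifold I ∞ M]
  {E' : Type} [NormedAddCommGroup E'] [InnerProductSpace ℝ E'] [FiniteDimensional ℝ E']
  {ι α G : Type} [Fintype ι] [NormedAddCommGroup G] [NormedSpace ℝ G]
  {l : Filter α} {e : α → ι → (x : M) → TangentSpace I x} {e₀ : ι → (x : M) → TangentSpace I x}
  {φ : OpenPartialHomeomorph M E'} {k : ℕ} {x : M}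

theorem mb_to_cb {ψ : E' → M} {y : E'} {f : α → M → G} (hf : MB I l (ψ y) k f)
    (hψ : ∀ᶠ z in 𝓝 y, ContMDiffAt 𝓘(ℝ, E') I ∞ ψ z) : CB (l ×ˢ 𝓝 y) k fun i z => f i (ψ z) := by
  have hs := hψ.self_of_nhds.continuousAt.eventually (chart_source_mem_nhds HM (ψ y))
  refine (CB.comp_fixed (ψ := fun z => extChartAt I (ψ y) (ψ z)) hf ?_).congr
    ((tendsto_snd.eventually hs.eventually_nhds).mono fun q hq => hq.mono fun z hz => ?_)
  · filter_upwards [hs, hψ] with z h1 h2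
    exact ((contMDiffAt_extChartAt' h1).comp z h2).contDiffAt
  · simp only
    rw [(extChartAt I (ψ y)).left_inv (by rw [extChartAt_source]; exact hz)]

variable (I) in
/-- frames converging everywhere to a smooth spanning frame -/
structure VC (l : Filter α) (e : α → ι → (x : M) → TangentSpace I x)
    (e₀ : ι → (x : M) → TangentSpace I x) : Prop where
  mb : ∀ a k x, MB I l x k fun n => dv I (e n a) (extChartAt I x)
  pt : ∀ a x, Tendsto (fun n => dv I (e n a) (extChartAt I x) x) l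
    (𝓝 (dv I (e₀ a) (extChartAt I x) x))
  s0 : SmV I e₀
  sp : ∀ x (v : TangentSpace I x), ∃ s : ι → ℝ, v = ∑ a, s a • e₀ a x

theorem VC.const (h : VC I l e e₀) (l' : Filter α) : VC I l' (fun _ => e₀) e₀ :=
  ⟨fun a _ _ => MB.vf (.of_forall (h.s0 a)), fun _ _ => tendsto_const_nhds, h.s0, h.sp⟩

theorem VC.dv [FiniteDimensional ℝ G] [l.NeBot] (h : VC I l e e₀) {Ω : Set M} (hΩ : IsOpen Ω)
    {f : α → M → G} {g : M → G} (hf : Cv I l Ω f g) (a : ι) :
    Cv I l Ω (fun n => dv I (e n a) (f n)) (dv I (e₀ a) g) :=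
  hf.dv hΩ (fun k x _ => h.mb a k x) fun x _ => h.pt a x

theorem VC.to_mb (h : VC I l e e₀) : ∀ {k : ℕ} {f : α → M → G},
    DB I (l ×ˢ 𝓝 x) e (z0 ι M fun _ => G) k f → MB I l x k f
  | 0, _, hf => MB.zero_of hf.1 hf.2
  | k + 1, f, hf => by
    refine MB.gain (X := fun a n => e n a) (fun a => h.mb a k x)
      (fun a => (h.mb a 1 x).tendsto (h.pt a x)) (fun v => ?_) (MB.zero_of hf.1.1 hf.1.2)
      fun a => (VC.to_mb h (hf.2 a)).congr (.of_forall fun q => by simp [nab])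
    obtain ⟨R, -, hR⟩ := exists_rinv (I := I) h.s0 x (h.sp x)
    exact ⟨R x v, (comb_apply _ _).symm.trans (hR.self_of_nhds v)⟩

theorem VC.to_db (h : VC I l e e₀) : ∀ {k : ℕ} {f : α → M → G},
    MB I l x k f → DB I (l ×ˢ 𝓝 x) e (z0 ι M fun _ => G) k f
  | 0, _, hf => ⟨hf.smooth, hf.bdd⟩
  | k + 1, f, hf => ⟨⟨hf.smooth, hf.bdd⟩, fun a => (VC.to_db h (hf.dv (h.mb a k x))).congr
      (ob_prod l x) (.of_forall fun q => by simp [nab])⟩

/-- a fixed smooth function -/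
theorem VC.db_fixed (h : VC I l e e₀) {T : Set M} {g : M → G} (hg : ∀ᶠ y in 𝓝 x, SA I g y) :
    DB I (iF l T x) e (z0 ι M fun _ => G) k fun _ => g := (h.to_db (MB.fixed hg)).mono iF_le

variable (I) in
/-- a frame read in a chart -/
def chT (φ : OpenPartialHomeomorph M E') (e : α → ι → (x : M) → TangentSpace I x) (n : α) (a : ι)
    (z : E') : E' :=
  dv I (e n a) φ (φ.symm z)

namespace SCh
variable (h : SCh I φ)
include h

theorem rel (hx : x ∈ φ.source) (n : α) (a : ι) :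
    mfderiv I 𝓘(ℝ, E') φ x (e n a x) = chT I φ e n a (φ x) := by
  rw [chT, φ.left_inv hx]; rfl

theorem inv_rel (hx : x ∈ φ.source) (v : TangentSpace I x) :
    mfderiv 𝓘(ℝ, E') I φ.symm (φ x) (mfderiv I 𝓘(ℝ, E') φ x v) = v := by
  have h2 : mfderiv I I (φ.symm ∘ φ) x = ContinuousLinearMap.id ℝ _ :=
    (EventuallyEq.mfderiv_eq (f := id) (φ.eventually_left_inverse hx)).trans mfderiv_id
  rw [mfderiv_comp x ((h.sm' _ (φ.map_source hx)).mdifferentiableAt (by simp))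
    ((h.sm x hx).mdifferentiableAt (by simp))] at h2
  exact congrArg (fun L => L v) h2

theorem rel' {z : E'} (hz : z ∈ φ.target) (n : α) (a : ι) :
    mfderiv 𝓘(ℝ, E') I φ.symm z (chT (E' := E') I φ e n a z) = e n a (φ.symm z) := by
  have := h.inv_rel (φ.map_target hz) (e n a (φ.symm z))
  rwa [φ.right_inv hz] at this

theorem surj (hx : x ∈ φ.source) (v : E') : ∃ w, mfderiv I 𝓘(ℝ, E') φ x w = v := by
  have hz := φ.map_source hx
  have h2 : mfderiv 𝓘(ℝ, E') 𝓘(ℝ, E') (φ ∘ φ.symm) (φ x) = ContinuousLinearMap.id ℝ _ :=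
    (EventuallyEq.mfderiv_eq (f := id) (φ.eventually_right_inverse hz)).trans mfderiv_id
  rw [mfderiv_comp (φ x) ((h.sm _ (φ.map_target hz)).mdifferentiableAt (by simp))
    ((h.sm' _ hz).mdifferentiableAt (by simp))] at h2
  have h3 := congrArg (fun L => L v) h2
  have key : ∀ y, y = x → ∀ w : E, mfderiv I 𝓘(ℝ, E') φ y w = v →
      ∃ w, mfderiv I 𝓘(ℝ, E') φ x w = v := by rintro _ rfl w hw; exact ⟨w, hw⟩
  exact key _ (φ.left_inv hx) _ h3

theorem ev_symm {z : E'} (hz : z ∈ φ.target) : ∀ᶠ y in 𝓝 z, ContMDiffAt 𝓘(ℝ, E') I ∞ φ.symm y :=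
  (φ.open_target.eventually_mem hz).mono h.sm'

theorem ff [l.NeBot] (hv : VC I l e e₀) {z : E'} (hz : z ∈ φ.target) :
    FF (l ×ˢ 𝓝 z) (chT I φ e) (fun n y => rinv fun a => chT I φ e n a y) ∧
      ∀ᶠ q in l ×ˢ 𝓝 z, (gram fun a => chT I φ e q.1 a q.2).IsInvertible := by
  have hx := φ.map_target hz
  have h1 := fun a => hv.dv φ.open_source (Cv.fixed φ.open_source h.sm) a
  refine ff_of (T := chT I φ e) (t := fun a => dv I (e₀ a) φ (φ.symm z))
    (fun k a => mb_to_cb (f := fun n => dv I (e n a) φ) ((h1 a).mb k _ hx) (h.ev_symm hz))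
    (fun a => (h1 a).pt _ hx) fun v => ?_
  obtain ⟨w, hw⟩ := h.surj hx v
  obtain ⟨s, rfl⟩ := hv.sp _ w
  refine ⟨s, ?_⟩
  rw [← hw, map_sum]
  simp only [map_smul]
  rfl

variable {V : α → Type} [∀ n, NormedAddCommGroup (V n)] [∀ n, NormedSpace ℝ (V n)]

theorem to_flat {Ω : Set M} {z : E'} (hz : z ∈ φ.target) {A : ∀ n, ι → M → V n →L[ℝ] V n}
    {f : ∀ n, M → V n} (hf : DB I (iF l Ω (φ.symm z)) e A k f) :
    DB 𝓘(ℝ, E') (iF l (φ.target ∩ φ.symm ⁻¹' Ω) z) (chT I φ e) (fun n a y => A n a (φ.symm y)) k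
      fun n y => f n (φ.symm y) :=
  DB.pull ob_iF (tendsto_iF (h.sm' z hz).continuousAt (eventually_nhdsWithin_of_forall
    fun y hy => ⟨(h.sm' y hy.1).continuousAt, hy.2⟩)) (ev_iF_of fun _ hy =>
      (tendsto_snd.eventually (φ.open_target.eventually_mem hy.1)).mono fun q hq =>
        ⟨h.sm' _ hq, h.rel' hq q.1⟩) hf

theorem of_flat {O : Set E'} (hx : x ∈ φ.source) {f : α → E' → G}
    (hf : DB 𝓘(ℝ, E') (iF l O (φ x)) (chT I φ e) (z0 ι E' fun _ => G) k f) :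
    DB I (iF l (φ.source ∩ φ ⁻¹' O) x) e (z0 ι M fun _ => G) k fun n y => f n (φ y) :=
  DB.pull ob_iF (tendsto_iF (h.sm x hx).continuousAt (eventually_nhdsWithin_of_forall
    fun y hy => ⟨(h.sm y hy.1).continuousAt, hy.2⟩)) (ev_iF_of fun _ hy =>
      (tendsto_snd.eventually (φ.open_source.eventually_mem hy.1)).mono fun q hq =>
        ⟨h.sm _ hq, h.rel hq q.1⟩) hf

/-- **limits extend over thin sets** -/
theorem ext_lim [FiniteDimensional ℝ G] {𝒰 : Ultrafilter α} (hv : VC I (𝒰 : Filter α) e e₀)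
    {U Ω : Set M} {Z : Set E'} (hZ : Thin Z) (hU : IsOpen U) (hΩ : IsOpen Ω) (h1 : U ⊆ φ.source)
    (h2 : Ω ⊆ U) (h3 : ∀ x ∈ U, φ x ∉ Z → x ∈ Ω) {f : α → M → G}
    (hf : ∀ k, ∀ x ∈ U, DB I (iF 𝒰 Ω x) e (z0 ι M fun _ => G) k f) :
    ∃ g, (∀ x ∈ U, SA I g x) ∧ Cv I (𝒰 : Filter α) Ω f g := by
  obtain ⟨g, hg⟩ := MBOn.exists_cv (I := I) (𝒰 := 𝒰) (Ω := Ω) (f := f) fun k x hx =>
    hv.to_mb (iF_eq (l := (𝒰 : Filter α)) hx ▸ hf k x (h2 hx))
  obtain ⟨g', a, b⟩ := ext_flat (l := (𝒰 : Filter α)) hZ (φ.isOpen_inter_preimage_symm hU)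
    (φ.isOpen_inter_preimage_symm hΩ) (fun z hz => ⟨hz.1.1, h3 _ hz.1.2
      (by rw [φ.right_inv hz.1.1]; exact hz.2)⟩) (fun z hz => ⟨hz.1, h2 hz.2⟩)
    (f := fun n y => f n (φ.symm y)) (g := fun y => g (φ.symm y))
    (fun k z hz => (((h.ff hv hz.1).1.mono ob_iF iF_le).cb (h.to_flat hz.1 (hf k _ hz.2))))
    fun y hy => hg.pt _ hy.2
  have m : ∀ {T : Set M}, T ⊆ U → ∀ x ∈ T, φ x ∈ φ.target ∩ φ.symm ⁻¹' T := fun hT x hx =>
    ⟨φ.map_source (h1 (hT hx)), by rwa [mem_preimage, φ.left_inv (h1 (hT hx))]⟩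
  refine ⟨fun x => g' (φ x), fun x hx => (a _ (m subset_rfl x hx)).contMDiffAt.comp x
    (h.sm x (h1 hx)), hg.congr (fun _ _ => .of_forall fun _ => rfl) fun x hx => ?_⟩
  rw [b (m h2 x hx)]
  simp only [φ.left_inv (h1 (h2 hx))]

/-- complements of thin sets are dense -/
theorem mem_closure {U Ω : Set M} {Z : Set E'} (hZ : Thin Z) (hU : IsOpen U) (h1 : U ⊆ φ.source)
    (h3 : ∀ x ∈ U, φ x ∉ Z → x ∈ Ω) (hx : x ∈ U) : x ∈ closure Ω := by
  have hz : φ x ∈ φ.target ∩ φ.symm ⁻¹' U :=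
    ⟨φ.map_source (h1 hx), by rwa [mem_preimage, φ.left_inv (h1 hx)]⟩
  have := (h.sm' _ hz.1).continuousAt.continuousWithinAt.mem_closure
    (hZ.mem_closure (φ.isOpen_inter_preimage_symm hU) hz) (t := Ω)
    fun z hz => h3 _ hz.1.2 (by rw [φ.right_inv hz.1.1]; exact hz.2)
  rwa [φ.left_inv (h1 hx)] at this

end SCh

end Crest.Agent.X212.Pat85
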