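import Mathlib.Analysis.Calculus.ContDiff.Bounds
import Mathlib.Analysis.Calculus.ContDiff.FiniteDimension
import Mathlib.Analysis.Calculus.ContDiff.RCLike
import Mathlib.Analysis.Normed.Module.FiniteDimension

/-!
# X212, PATCH (helper85), part 1: families with bounded derivatives along a filter

`CB 𝓕 k f` : along the filter `𝓕` on `ι × E`, `f i` is smooth at `y` and its derivatives of order
`≤ k` at `y` are bounded.  (`𝓕 = l ×ˢ 𝓝 x` : near `x`, eventually along `l`;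
`𝓕 = 𝓟 {q | q.2 ∈ S q.1}` : uniformly on the sets `S i`.)
`CBOn l U f` : all orders, near every point of `U`.
-/

set_option autoImplicit false

open Set Filter Topology
open scoped ContDiff

noncomputable section

namespace Crest.Agent.X212.Pat85

variable {ι κ : Type*} {E E' F G H : Type} [NormedAddCommGroup E] [NormedSpace ℝ E]
  [NormedAddCommGroup E'] [NormedSpace ℝ E'] [NormedAddCommGroup F] [NormedSpace ℝ F]
  [NormedAddCommGroup G] [NormedSpace ℝ G] [NormedAddCommGroup H] [NormedSpace ℝ H]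

/-- smooth with bounded derivatives of order `≤ k`, along `𝓕`. -/
def CB (𝓕 : Filter (ι × E)) (k : ℕ) (f : ι → E → F) : Prop :=
  ∃ C : ℝ, ∀ᶠ q in 𝓕, ContDiffAt ℝ ∞ (f q.1) q.2 ∧
    ∀ j ≤ k, ‖iteratedFDeriv ℝ j (f q.1) q.2‖ ≤ C

/-- all derivatives bounded near every point of `U`, eventually along `l`. -/
def CBOn (l : Filter ι) (U : Set E) (f : ι → E → F) : Prop :=
  ∀ k, ∀ x ∈ U, CB (l ×ˢ 𝓝 x) k f

theorem ev_diff {φ : E → F} {x : E} (h : ContDiffAt ℝ ∞ φ x) :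
    ∀ᶠ y in 𝓝 x, DifferentiableAt ℝ φ y :=
  ((h.of_le (m := 1) (by exact_mod_cast le_top)).eventually (by simp)).mono fun _ hy =>
    hy.differentiableAt one_ne_zero

namespace CB

variable {𝓕 : Filter (ι × E)} {k : ℕ} {f g : ι → E → F}

theorem smooth (h : CB 𝓕 k f) : ∀ᶠ q in 𝓕, ContDiffAt ℝ ∞ (f q.1) q.2 :=
  let ⟨_, hC⟩ := h; hC.mono fun _ hq => hq.1

theorem bdd (h : CB 𝓕 k f) : ∃ C, ∀ᶠ q in 𝓕, ‖f q.1 q.2‖ ≤ C :=
  let ⟨C, hC⟩ := h
  ⟨C, hC.mono fun q hq => by simpa using hq.2 0 (Nat.zero_le _)⟩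

theorem of_le (h : CB 𝓕 k f) {j : ℕ} (hj : j ≤ k) : CB 𝓕 j f :=
  let ⟨C, hC⟩ := h; ⟨C, hC.mono fun _ hq => ⟨hq.1, fun i hi => hq.2 i (hi.trans hj)⟩⟩

theorem pred (h : CB 𝓕 (k + 1) f) : CB 𝓕 k f := h.of_le k.le_succ

theorem mono (h : CB 𝓕 k f) {𝓖 : Filter (ι × E)} (hG : 𝓖 ≤ 𝓕) : CB 𝓖 k f :=
  let ⟨C, hC⟩ := h; ⟨C, hG hC⟩

/-- reindexing -/
theorem reindex (h : CB 𝓕 k f) {𝓖 : Filter (κ × E)} (e : κ → ι)
    (he : Tendsto (fun q : κ × E => (e q.1, q.2)) 𝓖 𝓕) : CB 𝓖 k fun j => f (e j) :=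
  let ⟨C, hC⟩ := h; ⟨C, he.eventually hC⟩

theorem congr (h : CB 𝓕 k f) (e : ∀ᶠ q in 𝓕, g q.1 =ᶠ[𝓝 q.2] f q.1) : CB 𝓕 k g := by
  obtain ⟨C, hC⟩ := h
  refine ⟨C, (hC.and e).mono fun q hq => ⟨hq.1.1.congr_of_eventuallyEq hq.2, fun j hj => ?_⟩⟩
  rw [(hq.2.iteratedFDeriv ℝ j).eq_of_nhds]
  exact hq.1.2 j hj

theorem zero_iff : CB 𝓕 0 f ↔
    (∀ᶠ q in 𝓕, ContDiffAt ℝ ∞ (f q.1) q.2) ∧ ∃ C, ∀ᶠ q in 𝓕, ‖f q.1 q.2‖ ≤ C := by
  refine ⟨fun h => ⟨h.smooth, h.bdd⟩, fun ⟨h1, C, hC⟩ => ⟨C, (h1.and hC).mono fun q hq =>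
    ⟨hq.1, fun j hj => ?_⟩⟩⟩
  obtain rfl : j = 0 := Nat.le_zero.1 hj
  simpa using hq.2

theorem fd (h : CB 𝓕 (k + 1) f) : CB 𝓕 k fun i => fderiv ℝ (f i) := by
  obtain ⟨C, hC⟩ := h
  refine ⟨C, hC.mono fun q hq => ⟨hq.1.fderiv_right (m := ∞) (by simp), fun j hj => ?_⟩⟩
  rw [norm_iteratedFDeriv_fderiv]
  exact hq.2 _ (Nat.succ_le_succ hj)

theorem succ_of (h0 : CB 𝓕 0 f) (h : CB 𝓕 k fun i => fderiv ℝ (f i)) : CB 𝓕 (k + 1) f := by
  obtain ⟨C, hC⟩ := h0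
  obtain ⟨D, hD⟩ := h
  refine ⟨max C D, (hC.and hD).mono fun q hq => ⟨hq.1.1, fun j hj => ?_⟩⟩
  cases j with
  | zero => exact (hq.1.2 0 le_rfl).trans (le_max_left _ _)
  | succ j =>
    rw [← norm_iteratedFDeriv_fderiv]
    exact (hq.2.2 j (Nat.succ_le_succ_iff.1 hj)).trans (le_max_right _ _)

/-- **gain of one derivative from a first order equation** -/
theorem succ_of_eq (h0 : CB 𝓕 0 f) {d : ι → E → E →L[ℝ] F} (h : CB 𝓕 k d)
    (e : ∀ᶠ q in 𝓕, fderiv ℝ (f q.1) =ᶠ[𝓝 q.2] d q.1) : CB 𝓕 (k + 1) f :=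
  h0.succ_of (h.congr e)

theorem consts {c : ι → F} (hc : ∃ C, ∀ᶠ q in 𝓕, ‖c q.1‖ ≤ C) : CB 𝓕 k fun i _ => c i := by
  obtain ⟨C, hC⟩ := hc
  refine ⟨max C 0, hC.mono fun q hq => ⟨contDiffAt_const, fun j _ => ?_⟩⟩
  cases j with
  | zero => simpa using Or.inl hq
  | succ j => simp [iteratedFDeriv_succ_const]

theorem const (c : F) : CB 𝓕 k fun _ _ => c := consts ⟨‖c‖, Eventually.of_forall fun _ => le_rfl⟩

theorem add (hf : CB 𝓕 k f) (hg : CB 𝓕 k g) : CB 𝓕 k fun i x => f i x + g i x := by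
  obtain ⟨C, hC⟩ := hf
  obtain ⟨D, hD⟩ := hg
  refine ⟨C + D, (hC.and hD).mono fun q hq => ⟨hq.1.1.add hq.2.1, fun j hj => ?_⟩⟩
  have := iteratedFDeriv_add_apply (i := j) (hq.1.1.of_le (by exact_mod_cast le_top))
    (hq.2.1.of_le (by exact_mod_cast le_top))
  change ‖iteratedFDeriv ℝ j (f q.1 + g q.1) q.2‖ ≤ _
  rw [this]
  exact (norm_add_le _ _).trans (add_le_add (hq.1.2 j hj) (hq.2.2 j hj))

theorem clm (T : F →L[ℝ] G) (hf : CB 𝓕 k f) : CB 𝓕 k fun i x => T (f i x) := by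
  obtain ⟨C, hC⟩ := hf
  refine ⟨‖T‖ * C, hC.mono fun q hq => ⟨T.contDiff.contDiffAt.comp _ hq.1, fun j hj => ?_⟩⟩
  have := T.iteratedFDeriv_comp_left (i := j) hq.1 (by exact_mod_cast le_top)
  change ‖iteratedFDeriv ℝ j (T ∘ f q.1) q.2‖ ≤ _
  rw [this]
  exact (ContinuousLinearMap.norm_compContinuousMultilinearMap_le _ _).trans
    (mul_le_mul_of_nonneg_left (hq.2 j hj) (norm_nonneg _))

theorem neg (hf : CB 𝓕 k f) : CB 𝓕 k fun i x => -f i x :=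
  hf.clm (-ContinuousLinearMap.id ℝ F)

theorem sub (hf : CB 𝓕 k f) (hg : CB 𝓕 k g) : CB 𝓕 k fun i x => f i x - g i x := by
  simpa only [sub_eq_add_neg] using hf.add hg.neg

theorem const_smul (c : ℝ) (hf : CB 𝓕 k f) : CB 𝓕 k fun i x => c • f i x :=
  hf.clm (c • ContinuousLinearMap.id ℝ F)

theorem fsum {α : Type*} (s : Finset α) {w : α → ι → E → F} (h : ∀ a ∈ s, CB 𝓕 k (w a)) :
    CB 𝓕 k fun i x => ∑ a ∈ s, w a i x := by
  classical
  induction s using Finset.induction_on with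
  | empty => simpa using const (0 : F)
  | insert a s ha ih =>
    simp only [Finset.sum_insert ha]
    exact (h a (Finset.mem_insert_self _ _)).add
      (ih fun b hb => h b (Finset.mem_insert_of_mem hb))

theorem sum {α : Type*} [Fintype α] {w : α → ι → E → F} (h : ∀ a, CB 𝓕 k (w a)) :
    CB 𝓕 k fun i x => ∑ a, w a i x := fsum _ fun a _ => h a

theorem prodMk {w : ι → E → G} (hf : CB 𝓕 k f) (hw : CB 𝓕 k w) :
    CB 𝓕 k fun i x => (f i x, w i x) := by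
  have := (hf.clm (ContinuousLinearMap.inl ℝ F G)).add (hw.clm (ContinuousLinearMap.inr ℝ F G))
  simpa using this

theorem fst {w : ι → E → F × G} (h : CB 𝓕 k w) : CB 𝓕 k fun i x => (w i x).1 :=
  h.clm (ContinuousLinearMap.fst ℝ F G)

theorem snd {w : ι → E → F × G} (h : CB 𝓕 k w) : CB 𝓕 k fun i x => (w i x).2 :=
  h.clm (ContinuousLinearMap.snd ℝ F G)

theorem apply {α : Type} [Fintype α] {w : ι → E → α → F} (h : CB 𝓕 k w) (a : α) :
    CB 𝓕 k fun i x => w i x a := h.clm (ContinuousLinearMap.proj (R := ℝ) (φ := fun _ => F) a)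

theorem pi {α : Type} [Fintype α] {w : ι → E → α → F} (h : ∀ a, CB 𝓕 k fun i x => w i x a) :
    CB 𝓕 k w := by
  classical
  have := sum fun a => (h a).clm (ContinuousLinearMap.single ℝ (fun _ : α => F) a)
  simpa [Finset.univ_sum_single] using this

end CB

theorem cb_bil (𝓕 : Filter (ι × E)) (k : ℕ) : ∀ {F G H : Type} [NormedAddCommGroup F]
    [NormedSpace ℝ F] [NormedAddCommGroup G] [NormedSpace ℝ G] [NormedAddCommGroup H]
    [NormedSpace ℝ H] (B : F →L[ℝ] G →L[ℝ] H) {f : ι → E → F} {g : ι → E → G},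
    CB 𝓕 k f → CB 𝓕 k g → CB 𝓕 k fun i x => B (f i x) (g i x) := by
  have h0 : ∀ {F G H : Type} [NormedAddCommGroup F]
      [NormedSpace ℝ F] [NormedAddCommGroup G] [NormedSpace ℝ G] [NormedAddCommGroup H]
      [NormedSpace ℝ H] (B : F →L[ℝ] G →L[ℝ] H) {f : ι → E → F} {g : ι → E → G},
      CB 𝓕 0 f → CB 𝓕 0 g → CB 𝓕 0 fun i x => B (f i x) (g i x) := by
    intro F G H _ _ _ _ _ _ B f g hf hg
    obtain ⟨C, hC⟩ := hf.bdd
    obtain ⟨D, hD⟩ := hg.bdd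
    refine CB.zero_iff.2 ⟨(hf.smooth.and hg.smooth).mono fun q hq =>
      (B.contDiff.contDiffAt.comp _ hq.1).clm_apply hq.2, ‖B‖ * C * D,
      (hC.and hD).mono fun q hq => (B.le_opNorm₂ _ _).trans ?_⟩
    have := (norm_nonneg _).trans hq.1
    gcongr
    exacts [hq.1, hq.2]
  induction k with
  | zero => exact h0
  | succ k ih =>
    intro F G H _ _ _ _ _ _ B f g hf hg
    refine (h0 B (hf.of_le (Nat.zero_le _)) (hg.of_le (Nat.zero_le _))).succ_of_eq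
      ((ih (B.precompR E) hf.pred hg.fd).add (ih (B.precompL E) hf.fd hg.pred)) ?_
    filter_upwards [hf.smooth, hg.smooth] with q h1 h2
    filter_upwards [ev_diff h1, ev_diff h2] with y h3 h4
    exact B.fderiv_of_bilinear h3 h4

theorem cb_comp (𝓕 : Filter (ι × E)) (𝓖 : Filter (κ × E')) (e : ι → κ) (k : ℕ) :
    ∀ {G : Type} [NormedAddCommGroup G] [NormedSpace ℝ G] {g : κ → E' → G} {ψ : ι → E → E'},
    CB 𝓖 k g → (∀ᶠ q in 𝓕, ContDiffAt ℝ ∞ (ψ q.1) q.2) →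
    (∀ j, j + 1 ≤ k → CB 𝓕 j fun i => fderiv ℝ (ψ i)) →
    Tendsto (fun q : ι × E => (e q.1, ψ q.1 q.2)) 𝓕 𝓖 → CB 𝓕 k fun i x => g (e i) (ψ i x) := by
  have h0 : ∀ {G : Type} [NormedAddCommGroup G] [NormedSpace ℝ G] {g : κ → E' → G}
      {ψ : ι → E → E'}, CB 𝓖 0 g → (∀ᶠ q in 𝓕, ContDiffAt ℝ ∞ (ψ q.1) q.2) →
      Tendsto (fun q : ι × E => (e q.1, ψ q.1 q.2)) 𝓕 𝓖 →
      CB 𝓕 0 fun i x => g (e i) (ψ i x) := by
    intro G _ _ g ψ hg hψ ht
    obtain ⟨C, hC⟩ := hg.bdd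
    exact CB.zero_iff.2 ⟨((ht.eventually hg.smooth).and hψ).mono fun q hq =>
      ContDiffAt.comp q.2 (g := g (e q.1)) (f := ψ q.1) hq.1 hq.2, C, ht.eventually hC⟩
  induction k with
  | zero => exact fun hg hψ _ ht => h0 hg hψ ht
  | succ k ih =>
    intro G _ _ g ψ hg hψ hd ht
    refine (h0 (hg.of_le (Nat.zero_le _)) hψ ht).succ_of_eq
      (cb_bil 𝓕 k (ContinuousLinearMap.compL ℝ E E' G)
        (ih hg.fd hψ (fun j hj => hd j (hj.trans k.le_succ)) ht) (hd k le_rfl)) ?_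
    filter_upwards [ht.eventually hg.smooth, hψ] with q h1 h2
    filter_upwards [h2.continuousAt.eventually (ev_diff h1), ev_diff h2] with y h3 h4
    exact fderiv_comp y h3 h4

/-- a smooth map on an open set is bounded with all derivatives on compact subsets -/
theorem cb_compact {Φ : E → F} {W K : Set E} (hW : IsOpen W) (hK : IsCompact K) (hKW : K ⊆ W)
    (hΦ : ContDiffOn ℝ ∞ Φ W) (k : ℕ) : CB (𝓟 (univ ×ˢ K : Set (ι × E))) k fun _ => Φ := by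
  have h1 : ∀ j : ℕ, ∃ C, ∀ y ∈ K, ‖iteratedFDeriv ℝ j Φ y‖ ≤ C := fun j => by
    have h2 : ContinuousOn (iteratedFDeriv ℝ j Φ) W :=
      (hΦ.continuousOn_iteratedFDerivWithin (m := j) (by exact_mod_cast le_top)
        hW.uniqueDiffOn).congr fun y hy => (iteratedFDerivWithin_of_isOpen j hW hy).symm
    exact hK.exists_bound_of_continuousOn (h2.mono hKW)
  choose C hC using h1
  refine ⟨∑ j ∈ Finset.range (k + 1), |C j|, eventually_principal.2 fun q hq =>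
    ⟨hΦ.contDiffAt (hW.mem_nhds (hKW hq.2)), fun j hj => ((hC j _ hq.2).trans (le_abs_self _)).trans
      (Finset.single_le_sum (f := fun j => |C j|) (fun _ _ => abs_nonneg _)
        (Finset.mem_range.2 (Nat.lt_succ_of_le hj)))⟩⟩

/-- a fixed map, smooth near `x` -/
theorem cb_fixed {Φ : E → F} {x : E} (hΦ : ∀ᶠ y in 𝓝 x, ContDiffAt ℝ ∞ Φ y) (l : Filter ι)
    (k : ℕ) : CB (l ×ˢ 𝓝 x) k fun _ => Φ := by
  obtain ⟨W, hW, hWo, hx⟩ := eventually_nhds_iff.1 hΦ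
  have hΦ' : ContDiffOn ℝ ∞ Φ W := fun y hy => (hW y hy).contDiffWithinAt
  have h1 : ∀ j : ℕ, ∀ᶠ y in 𝓝 x, ‖iteratedFDeriv ℝ j Φ y‖ ≤ ‖iteratedFDeriv ℝ j Φ x‖ + 1 :=
    fun j => by
    have h2 : ContinuousOn (iteratedFDeriv ℝ j Φ) W :=
      (hΦ'.continuousOn_iteratedFDerivWithin (m := j) (by exact_mod_cast le_top)
        hWo.uniqueDiffOn).congr fun y hy => (iteratedFDerivWithin_of_isOpen j hWo hy).symm
    exact ((h2.continuousAt (hWo.mem_nhds hx)).norm.eventually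
      (Iic_mem_nhds (lt_add_one _)))
  have h3 := (Finset.range (k + 1)).eventually_all.2 fun j _ => h1 j
  have h4 : ∀ᶠ y in 𝓝 x, ContDiffAt ℝ ∞ Φ y ∧ ∀ j ≤ k, ‖iteratedFDeriv ℝ j Φ y‖ ≤
      ∑ j ∈ Finset.range (k + 1), (‖iteratedFDeriv ℝ j Φ x‖ + 1) := by
    refine (hΦ.and h3).mono fun y hy => ⟨hy.1, fun j hj => ?_⟩
    have hj' := Finset.mem_range.2 (Nat.lt_succ_of_le hj)
    exact (hy.2 j hj').trans (Finset.single_le_sum
      (f := fun j => ‖iteratedFDeriv ℝ j Φ x‖ + 1) (fun _ _ => by positivity) hj')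
  exact ⟨_, tendsto_snd.eventually h4⟩

namespace CB

variable {𝓕 : Filter (ι × E)} {k : ℕ} {f : ι → E → F}

theorem bil (B : F →L[ℝ] G →L[ℝ] H) {g : ι → E → G} (hf : CB 𝓕 k f) (hg : CB 𝓕 k g) :
    CB 𝓕 k fun i x => B (f i x) (g i x) := cb_bil 𝓕 k B hf hg

theorem smul {u : ι → E → ℝ} (hu : CB 𝓕 k u) (hf : CB 𝓕 k f) :
    CB 𝓕 k fun i x => u i x • f i x := hu.bil (ContinuousLinearMap.lsmul ℝ ℝ) hf

theorem mul {𝔸 : Type} [NormedRing 𝔸] [NormedAlgebra ℝ 𝔸] {u v : ι → E → 𝔸} (hu : CB 𝓕 k u)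
    (hv : CB 𝓕 k v) : CB 𝓕 k fun i x => u i x * v i x :=
  hu.bil (ContinuousLinearMap.mul ℝ 𝔸) hv

theorem app {A : ι → E → F →L[ℝ] G} (hA : CB 𝓕 k A) (hf : CB 𝓕 k f) :
    CB 𝓕 k fun i x => A i x (f i x) := hA.bil (ContinuousLinearMap.id ℝ (F →L[ℝ] G)) hf

theorem clm_comp {A : ι → E → G →L[ℝ] H} {B : ι → E → F →L[ℝ] G} (hA : CB 𝓕 k A)
    (hB : CB 𝓕 k B) : CB 𝓕 k fun i x => (A i x).comp (B i x) :=
  hA.bil (ContinuousLinearMap.compL ℝ F G H) hB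

/-- directional derivative -/
theorem pd (h : CB 𝓕 (k + 1) f) (v : E) : CB 𝓕 k fun i x => fderiv ℝ (f i) x v :=
  h.fd.app (const v)

/-- **composition of families** -/
theorem comp {𝓖 : Filter (κ × E')} {g : κ → E' → G} (hg : CB 𝓖 k g) {ψ : ι → E → E'}
    (hψ : CB 𝓕 k ψ) (e : ι → κ) (ht : Tendsto (fun q : ι × E => (e q.1, ψ q.1 q.2)) 𝓕 𝓖) :
    CB 𝓕 k fun i x => g (e i) (ψ i x) :=
  cb_comp 𝓕 𝓖 e k hg hψ.smooth (fun _ hj => (hψ.of_le hj).fd) ht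

/-- fixed change of variables -/
theorem comp_fixed {l : Filter ι} {ψ : E' → E} {x : E'} (hf : CB (l ×ˢ 𝓝 (ψ x)) k f)
    (hψ : ∀ᶠ y in 𝓝 x, ContDiffAt ℝ ∞ ψ y) : CB (l ×ˢ 𝓝 x) k fun i y => f i (ψ y) :=
  hf.comp (cb_fixed hψ l k) id (tendsto_id.prodMap hψ.self_of_nhds.continuousAt)

/-- smooth post-composition, values in a compact subset of the domain of smoothness -/
theorem post {Φ : F → G} {W K : Set F} (hW : IsOpen W) (hK : IsCompact K) (hKW : K ⊆ W)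
    (hΦ : ContDiffOn ℝ ∞ Φ W) (hf : CB 𝓕 k f) (hfK : ∀ᶠ q in 𝓕, f q.1 q.2 ∈ K) :
    CB 𝓕 k fun i x => Φ (f i x) :=
  (cb_compact (ι := Unit) hW hK hKW hΦ k).comp hf (fun _ => ())
    (tendsto_principal.2 (hfK.mono fun _ hq => ⟨mem_univ _, hq⟩))

/-- smooth post-composition, values in a closed subset of the domain of smoothness -/
theorem post' [FiniteDimensional ℝ F] {Φ : F → G} {W K : Set F} (hW : IsOpen W) (hK : IsClosed K)
    (hKW : K ⊆ W) (hΦ : ContDiffOn ℝ ∞ Φ W) (hf : CB 𝓕 k f) (hfK : ∀ᶠ q in 𝓕, f q.1 q.2 ∈ K) :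
    CB 𝓕 k fun i x => Φ (f i x) := by
  obtain ⟨C, hC⟩ := hf.bdd
  have := FiniteDimensional.proper_real F
  exact hf.post hW ((isCompact_closedBall (0 : F) C).inter_left hK)
    (inter_subset_left.trans hKW) hΦ
    ((hfK.and hC).mono fun q hq => ⟨hq.1, mem_closedBall_zero_iff.2 hq.2⟩)

theorem post_smooth [FiniteDimensional ℝ F] {Φ : F → G} (hΦ : ContDiff ℝ ∞ Φ) (hf : CB 𝓕 k f) :
    CB 𝓕 k fun i x => Φ (f i x) :=
  hf.post' isOpen_univ isClosed_univ subset_rfl hΦ.contDiffOn (Eventually.of_forall fun _ => trivial)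

/-- a family of linear maps out of a finite dimensional space is bounded if it is so pointwise -/
theorem of_apply [FiniteDimensional ℝ F] {A : ι → E → F →L[ℝ] G}
    (h : ∀ v, CB 𝓕 k fun i x => A i x v) : CB 𝓕 k A := by
  classical
  let b := Module.finBasis ℝ F
  have := sum fun a => (h (b a)).clm
    (ContinuousLinearMap.smulRightL ℝ F G (LinearMap.toContinuousLinearMap (b.coord a)))
  refine this.congr (Eventually.of_forall fun q => Eventually.of_forall fun y => ?_)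
  ext v
  have e := congrArg (A q.1 y) (b.sum_repr v)
  rw [map_sum] at e
  simpa using e.symm

/-- from neighbourhoods of points to compact sets -/
theorem of_compact {l : Filter ι} {K : Set E} (hK : IsCompact K)
    (h : ∀ x ∈ K, CB (l ×ˢ 𝓝 x) k f) : CB (l ×ˢ 𝓝ˢ K) k f := by
  refine hK.induction_on (p := fun S => CB (l ×ˢ 𝓝ˢ S) k f) ?_ ?_ ?_ ?_
  · exact ⟨0, by simp⟩
  · exact fun s t hst ht => ht.mono (prod_mono le_rfl (nhdsSet_mono hst))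
  · rintro s t ⟨C, hC⟩ ⟨D, hD⟩
    refine ⟨max C D, ?_⟩
    rw [nhdsSet_union, prod_sup, eventually_sup]
    exact ⟨hC.mono fun q hq => ⟨hq.1, fun j hj => (hq.2 j hj).trans (le_max_left _ _)⟩,
      hD.mono fun q hq => ⟨hq.1, fun j hj => (hq.2 j hj).trans (le_max_right _ _)⟩⟩
  · intro x hx
    obtain ⟨C, hC⟩ := h x hx
    obtain ⟨pa, hpa, pb, hpb, H⟩ := eventually_prod_iff.1 hC
    obtain ⟨W, hW, hWo, hxW⟩ := eventually_nhds_iff.1 hpb
    exact ⟨W, mem_nhdsWithin_of_mem_nhds (hWo.mem_nhds hxW), C, eventually_prod_iff.2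
      ⟨pa, hpa, pb, (show ∀ᶠ y in 𝓝ˢ W, y ∈ W from hWo.mem_nhdsSet.2 subset_rfl).mono hW, H⟩⟩

end CB

namespace CBOn

variable {l : Filter ι} {U : Set E} {f : ι → E → F}

theorem mono (h : CBOn l U f) {l' : Filter ι} (hl : l' ≤ l) {V : Set E} (hV : V ⊆ U) :
    CBOn l' V f := fun k x hx => (h k x (hV hx)).mono (prod_mono hl le_rfl)

theorem reindex (h : CBOn l U f) {l' : Filter κ} {e : κ → ι} (he : Tendsto e l' l) :
    CBOn l' U fun j => f (e j) := fun k x hx => (h k x hx).reindex e (he.prodMap tendsto_id)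

theorem fd (h : CBOn l U f) : CBOn l U fun i => fderiv ℝ (f i) := fun k x hx => (h (k + 1) x hx).fd

/-- explicit bounds on compact subsets -/
theorem bound (h : CBOn l U f) {K : Set E} (hK : IsCompact K) (hKU : K ⊆ U) (k : ℕ) :
    ∃ C, ∀ᶠ i in l, ∀ y ∈ K, ContDiffAt ℝ ∞ (f i) y ∧ ∀ j ≤ k, ‖iteratedFDeriv ℝ j (f i) y‖ ≤ C := by
  obtain ⟨C, hC⟩ := CB.of_compact hK fun x hx => h k x (hKU hx)
  obtain ⟨pa, hpa, pb, hpb, H⟩ := eventually_prod_iff.1 hC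
  exact ⟨C, hpa.mono fun i hi y hy => H hi (hpb.self_of_nhdsSet y hy)⟩

/-- from explicit bounds on compact subsets -/
theorem of_bound [FiniteDimensional ℝ E] (hU : IsOpen U)
    (h : ∀ K, IsCompact K → K ⊆ U → ∀ k : ℕ, ∃ C, ∀ᶠ i in l, ∀ y ∈ K,
      ContDiffAt ℝ ∞ (f i) y ∧ ‖iteratedFDeriv ℝ k (f i) y‖ ≤ C) : CBOn l U f := by
  intro k x hx
  have := FiniteDimensional.proper_real E
  obtain ⟨K, hK, hKU, hKc⟩ := local_compact_nhds (hU.mem_nhds hx)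
  choose C hC using h K hKc hKU
  have h3 := (Finset.range (k + 1)).eventually_all.2 fun j _ => hC j
  refine ⟨∑ j ∈ Finset.range (k + 1), |C j|, eventually_prod_iff.2 ⟨_, h3, _, hK, fun {i} hi {y} hy =>
    ⟨(hi 0 (by simp) y hy).1, fun j hj => ?_⟩⟩⟩
  have hj' := Finset.mem_range.2 (Nat.lt_succ_of_le hj)
  exact ((hi j hj' y hy).2.trans (le_abs_self _)).trans
    (Finset.single_le_sum (f := fun j => |C j|) (fun _ _ => abs_nonneg _) hj')

/-- a fixed smooth map -/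
theorem fixed {Φ : E → F} (hU : IsOpen U) (hΦ : ContDiffOn ℝ ∞ Φ U) : CBOn l U fun _ => Φ :=
  fun k _ hx => cb_fixed ((hU.eventually_mem hx).mono fun _ hy => hΦ.contDiffAt (hU.mem_nhds hy)) l k

end CBOn

end Crest.Agent.X212.Pat85
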