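import Crest.Agent.X212.Cmp73.Top

/-!
# X212 / COMP leaf WL (helper85): it suffices to treat good families
-/

set_option autoImplicit false
set_option linter.unusedSectionVars false
open Set Filter Topology Function MeasureTheory
open scoped ContDiff Manifold

noncomputable section
namespace Crest.Agent.X212.Pat85

open An An.Job M Nd18 Cmp73

theorem ext_sub {α : Type} {T : Set α} {P : α → Type} [∀ i, Nonempty (P i)] (u : ∀ j : T, P j) :
    ∃ u' : ∀ i, P i, (fun j : T => u' j) = u := by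
  classical
  exact ⟨fun i => if h : i ∈ T then u ⟨i, h⟩ else Classical.arbitrary _,
    funext fun j => dif_pos j.2⟩

theorem uf_const {α K : Type} (𝒰 : Ultrafilter α) (φ : α → K) {S : Set K} (hS : S.Finite)
    (h : ∀ᶠ i in (𝒰 : Filter α), φ i ∈ S) : ∃ k, ∀ᶠ i in (𝒰 : Filter α), φ i = k := by
  obtain ⟨k, -, hk⟩ := Ultrafilter.eq_pure_of_finite_mem (f := 𝒰.map φ) hS h
  refine ⟨k, ?_⟩
  have : {k} ∈ 𝒰.map φ := by rw [hk]; exact Ultrafilter.mem_pure.2 rfl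
  exact this

theorem uf_const' {α K : Type} [Finite K] (𝒰 : Ultrafilter α) (φ : α → K) :
    ∃ k, ∀ᶠ i in (𝒰 : Filter α), φ i = k :=
  uf_const 𝒰 φ finite_univ (.of_forall fun _ => trivial)

section gen
variable {E : Type} [NormedAddCommGroup E] [NormedSpace ℝ E] [FiniteDimensional ℝ E]
  [MeasurableSpace E] [BorelSpace E]
  {HM : Type} [TopologicalSpace HM] {I : ModelWithCorners ℝ E HM}
  {M : Type} [TopologicalSpace M] [ChartedSpace HM M] [IsManifold I ∞ M]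
  [MeasurableSpace M] {ι : Type} [Fintype ι] {lam : Type} [Fintype lam] {r : ℕ} {α β : Type}

theorem cv_map {G : Type} [NormedAddCommGroup G] [NormedSpace ℝ G] {e : β → α} {l : Filter β}
    {Ω : Set M} {f : α → M → G} {g : M → G} (h : Cv I l Ω (fun j => f (e j)) g) :
    Cv I (map e l) Ω f g :=
  ⟨fun k x hx => by
    obtain ⟨C, hC⟩ := h.mb k x hx
    refine ⟨C, ?_⟩
    rw [prod_map_left]
    exact hC, fun x hx => h.pt x hx⟩

theorem ulim_map {B : Base M ι lam} {f : β → α} {l : Filter β} {O : Set M}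
    {e : α → ι → Π x : M, TangentSpace I x} {c : α → Cfg M ι lam r} {c₀ : Cfg M ι lam r}
    {u : ∀ i, M → CL (c i).m.V c₀.m.V} {ζ : α → Circle}
    (h : ULim I B l O (fun j => e (f j)) (fun j => c (f j)) c₀ (fun j => u (f j)) fun j => ζ (f j)) :
    ULim I B (map f l) O e c c₀ u ζ :=
  ⟨fun x hx => h.m x hx, fun a => cv_map (h.A a), cv_map h.Φ, h.z⟩

theorem clim_map {T : Set α} {l : Filter T} {N : α → ℕ} {N₀ : ℕ} {J : En (Fin N₀)}
    {u : ∀ i, CL (Eu (Fin (N i))) (Eu (Fin N₀))} {ψ : ∀ i, L2c (Fin (N i))} {ψ₀ : L2c (Fin N₀)}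
    (h : CLim (N := fun j : T => N j) l J (fun j => u j) (fun j => ψ j) ψ₀) :
    CLim (map Subtype.val l) J u ψ ψ₀ := by
  obtain ⟨η, hη⟩ := h
  obtain ⟨η', rfl⟩ := ext_sub (P := fun _ => Circle) η
  exact ⟨η', hη⟩

end gen

variable {Wi : Type} {X : Mf 4} {A κ lam : Type} [Fintype A] [Fintype κ] [Fintype lam]
  [DecidableEq lam] {M : Mark X A κ} {W : World M} {N : ML M lam}
  {Λ : Lns W N} {A' h : Type} [Fintype A'] [DecidableEq A'] [Fintype h] {r n : ℕ}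
  {J : Job Wi Λ A' h r n} {Adm : (Wi →₀ ℝ) → Prop} {α : Type} {T : Set α} {l : Filter T}

theorem str_map {c : M.Cl} {y : α → J.Obc c} {y₀ : J.Obc c} (k : Str l (fun j => y j) y₀) :
    Str (map Subtype.val l) y y₀ := by
  obtain ⟨u, ζ, h1, h2⟩ := k.lim
  obtain ⟨u', rfl⟩ := ext_sub (P := fun i => (W.Z c).M → CL (y i).x.m.V y₀.x.m.V) u
  obtain ⟨ζ', rfl⟩ := ext_sub (P := fun _ => Circle) ζ
  exact ⟨k.s, ⟨u', ζ', ulim_map h1, fun i hi => clim_map (h2 i hi)⟩, k.tail, k.dis, k.k, k.en, k.kap⟩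

theorem dg_map {c : M.Cl} {y : α → J.Obc M.c0} {y₀ : J.Obc c} (k : Dg l (fun j => y j) y₀) :
    Dg (map Subtype.val l) y y₀ := by
  obtain ⟨u, ζ, h1, h2⟩ := k.lim
  obtain ⟨u', rfl⟩ := ext_sub (P := fun i => (W.Z c).M → CL (y i).x.m.V y₀.x.m.V) u
  obtain ⟨ζ', rfl⟩ := ext_sub (P := fun _ => Circle) ζ
  exact ⟨k.s, ⟨u', ζ', ulim_map (c := fun i => pb (up c) (y i).x) h1,
    fun i hi => clim_map (N := fun i => (y i).x.m.N) (h2 i hi)⟩, k.tight, k.neck⟩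

theorem cl_dom {σ : Cel A'} {s : A' → ℝ} (hs : s ∈ cl σ) : s ∈ J.dom σ :=
  ⟨hs.1, fun a _ => (hs.2 a).2⟩

theorem cpt_cl (σ : Cel A') : IsCompact (cl σ) := by
  refine (isCompact_univ_pi fun _ : A' => isCompact_Icc (a := (0 : ℝ)) (b := 1)).of_isClosed_subset
    ?_ fun s hs a _ => hs.2 a
  have e : cl σ = (⋂ a, ⋂ b, ⋂ _ : σ a = some b, {s : A' → ℝ | s a = b01 b}) ∩
      ⋂ a, (fun s : A' → ℝ => s a) ⁻¹' Icc 0 1 := by
    ext s; simp [cl, sp]
  rw [e]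
  exact (isClosed_iInter fun a => isClosed_iInter fun b => isClosed_iInter fun _ =>
    isClosed_eq (continuous_apply a) continuous_const).inter
    (isClosed_iInter fun a => isClosed_Icc.preimage (continuous_apply a))

/-- **LEAF WL** -/
theorem wl (hJ : J.OK) (hA : APJ J Adm) : WL J Adm := by
  intro H σ hσ q₀ hq₀ α 𝒰 q c y hcv hev
  obtain ⟨S, C, hb⟩ := hA
  obtain ⟨s₀, hs₀, hs⟩ : ∃ s₀ ∈ cl σ, Tendsto (fun i => (y i).s) 𝒰 (𝓝 s₀) :=
    (cpt_cl σ).ultrafilter_le_nhds (𝒰.map fun i => (y i).s)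
      (le_principal_iff.2 (hev.mono fun i hi => hi.2.cell))
  have hp := hJ.par σ hσ s₀ (cl_dom hs₀)
  have hΘ : ∀ a, Tendsto (fun i => (J.Θ (y i).s).2 a) 𝒰 (𝓝 ((J.Θ s₀).2 a)) := fun a =>
    (((continuous_apply a).comp (continuous_snd.comp hJ.sm.continuous)).tendsto s₀).comp hs
  have hsub : c.1 ⊆ (M.cOf hp).1 := fun a ha =>
    tendsto_nhds_unique (hΘ a) (tendsto_const_nhds.congr' (hev.mono fun i hi =>
      (show a ∈ Sys.inf (J.Θ (y i).s).2 from hi.2.inf ▸ ha).symm))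
  obtain ⟨Jc, hJc, hq⟩ := hcv
  classical
  obtain ⟨k1, e1⟩ := uf_const' 𝒰 fun i (p : A × Option Bool) => Act J.m c p.1 p.2 (J.Θ (y i).s)
  obtain ⟨k2, e2⟩ := uf_const 𝒰 (fun i => (y i).l) (finite_Iic ⌈C⌉₊) (hev.mono fun i hi =>
    Nat.cast_le.1 ((hb σ hσ c _ _ hi.1 hi.2).l.trans (Nat.le_ceil C)))
  obtain ⟨k3, e3⟩ := uf_const' 𝒰 fun i => (y i).H
  obtain ⟨k4, e4⟩ := uf_const' 𝒰 fun i (w : (Jc ∪ q₀.support : Finset Wi)) =>
    (J.co w (y i).s = 0, fun k => J.cc k w (y i).s = 0)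
  obtain ⟨t, ht, hl⟩ := hJ.lin
  have e5 : ∀ᶠ i in (𝒰 : Filter α), ∀ a ∈ cylW (M.cOf hp),
      1 / 2 ≤ (J.Θ (y i).s).2 a ∧ J.ν a (y i).s = 1 := by
    refine eventually_all.2 fun a => eventually_imp_distrib_left.2 fun ha => ?_
    obtain ⟨a', h1, h2⟩ := hJ.inf σ hσ s₀ (cl_dom hs₀) a ha.1
    have h3 : (J.Θ s₀).2 a = 1 := ha.1
    refine ((hΘ a).eventually (Ici_mem_nhds (by rw [h3]; norm_num))).and ?_
    filter_upwards [(((continuous_apply a').tendsto s₀).comp hs).eventually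
      (Ici_mem_nhds (show t < s₀ a' by rwa [h2]))] with i hi
    exact (hl a' a h1 _ hi).2 ha.2
  obtain ⟨T, hT, hT'⟩ := (hev.and (e1.and (e2.and (e3.and (e4.and e5))))).exists_mem
  have hr : range (Subtype.val : T → α) ∈ 𝒰 := by rw [Subtype.range_coe]; exact hT
  let 𝒱 : Ultrafilter T := 𝒰.comap Subtype.val_injective hr
  have hm : map Subtype.val (𝒱 : Filter T) = 𝒰 := map_comap_of_mem hr
  have hv : Tendsto Subtype.val (𝒱 : Filter T) 𝒰 := hm.le
  let F : Fam J T c (M.cOf hp) := ⟨𝒱, σ, fun j => q j, q₀, fun j => y j, s₀⟩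
  have hF : F.OK Adm :=
    { mem := hσ
      q₀ := hq₀
      q := fun j => (hT' j j.2).1.1
      cv := ⟨Jc, fun j => hJc j, fun w => (hq w).comp hv⟩
      sol := fun j => (hT' j j.2).1.2
      s := hs.comp hv
      cell := hs₀
      inf := rfl
      sub := hsub
      act := fun a e i hi j => (congrFun ((hT' i i.2).2.1.trans (hT' j j.2).2.1.symm) (a, e)).mp hi
      new := fun a ha => ⟨fun hc j => ?_, fun j => ((hT' j j.2).2.2.2.2.2 a ha).2⟩
      l := fun i j => (hT' i i.2).2.2.1.trans (hT' j j.2).2.2.1.symm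
      H := fun i j => (hT' i i.2).2.2.2.1.trans (hT' j j.2).2.2.2.1.symm
      co := ⟨Jc ∪ q₀.support, fun w hw => ?_, fun w hw i j => ?_⟩
      bd := ⟨S, C, fun j => hb σ hσ c _ _ (hT' j j.2).1.1 (hT' j j.2).1.2⟩ }
  · obtain ⟨y₀, h0, h1, h2⟩ := H T c _ F hF
    by_cases e : M.cOf hp = c
    · refine .inl ⟨e ▸ y₀, by subst e; exact h0, (h1 e).imp (fun k => hm ▸ str_map k) ?_⟩
      rintro ⟨k, ε, hε, k'⟩
      subst e
      exact ⟨k, ε, hε, by rw [← hm]; exact k'⟩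
    · refine .inr ⟨_, y₀, hsub.ssubset_of_ne fun e' => e (Subtype.ext e'.symm), h0, ?_⟩
      intro e' _ k1 k2
      have k3 := h2 e' k1 k2
      subst e'
      exact hm ▸ dg_map k3
  · have k := (hT' j j.2).1.2
    obtain ⟨a', h1, -⟩ := hJ.inf σ hσ s₀ (cl_dom hs₀) a ha.1
    have kp := hJ.par σ hσ _ (cl_dom k.cell)
    refine ⟨ha.2, ⟨kp, k.inf.ge⟩, fun b hb => (kp.1 b).2.lt_of_ne fun e => hb.1 (k.inf.le e),
      hJ.mem a' a h1 ha.2, ⟨hc, fun b hb => (M.cOf hp).2 ha.1 (hsub hb) ?_⟩,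
      ((hT' j j.2).2.2.2.2.2 a ha).1⟩
    rintro rfl
    exact hc hb
  · rw [Finset.mem_union, not_or] at hw
    have h0 := Finsupp.notMem_support_iff.1 hw.2
    exact ⟨h0, fun i => (hJc i w hw.1).trans h0⟩
  · have k := congrFun ((hT' i i.2).2.2.2.2.1.trans (hT' j j.2).2.2.2.2.1.symm) ⟨w, hw⟩
    exact ⟨(congrArg Prod.fst k).mp, fun x => (congrFun (congrArg Prod.snd k) x).mp⟩

end Crest.Agent.X212.Pat85
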