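import Crest.Agent.X212.Pat85.IsA
import Crest.Agent.X212.Eqv71.Job
import Crest.Agent.X212.Wrd81.Trf

/-!
# X212 / RF-ISO (helper85), part 2: strong limits and isomorphisms of objects of a job
-/

set_option autoImplicit false
set_option linter.unusedSectionVars false
open Set Filter Topology Function MeasureTheory
open scoped ContDiff Manifold

noncomputable section
namespace Crest.Agent.X212.Pat85

open An An.Job M Nd18 Cmp73 Eqv71

variable {Wi : Type} {X : Mf 4} {A κ lam : Type} [Fintype A] [Fintype κ] [Fintype lam]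
  [DecidableEq lam] {M : Mark X A κ} {W : World M} {N : ML M lam}
  {Λ : Lns W N} {A' h : Type} [Fintype A'] [DecidableEq A'] [Fintype h] {r n : ℕ}
  {J : Job Wi Λ A' h r n} {c : M.Cl} {σ : Cel A'} {q q' : Wi →₀ ℝ} {y y' : J.Obc c}
  {α : Type} {l : Filter α}

theorem adm_β (H : Sol σ q y) {a : A} (ha : a ∈ cylW c) (b : Bool) : (J.xs a).D.Adm (y.β a b) :=
  ⟨(H.crit a ha b).sol.toAdm, (H.crit a ha b).tmp⟩

theorem tight_H (H : Sol σ q y) (t : y.Tight) : y.H = J.unc c :=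
  H.sub.antisymm (sdiff_eq_empty.1 ((ncard_eq_zero (toFinite _)).1
    (Nat.le_zero.1 (H.drop.trans t.1.le))))

theorem tight_k (H : Sol σ q y) (t : y.Tight) {a : A} (ha : a ∈ cylW c) :
    y.β a false = y.β a true ∧ y.k a = 0 := brk_zero (H.brk a ha) (t.2 a ha)

theorem tight_en (H : Sol σ q y) (t : y.Tight) : y.en = 0 := by
  rw [Obc.en, t.1, Nat.cast_zero, zero_add]
  refine Finset.sum_eq_zero fun a _ => indicator_apply_eq_zero.2 fun ha => ?_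
  rw [(tight_k H t ha).1, (tight_k H t ha).2, sub_self, zero_div, add_zero]

variable (hJ : J.OK) (hσ : σ ∈ J.𝒦) (H : Sol σ q y)
include hJ hσ H

theorem act_of {a : A} (ha : a ∈ cylW c) (b : Bool) : Act J.m c a (some b) (J.Θ y.s) :=
  ⟨ha.2, hJ.memBr hσ H.ov, hJ.memO hσ H.ov, ha.1⟩

theorem fr_eq : (J.G c y.s).F.e = J.fr c y.s :=
  (W.L J.m c).F_e (Mark.mem_Ω _ (hJ.memO hσ H.ov))

theorem vcv_fr {s : α → A' → ℝ} (hs : Tendsto s l (𝓝 y.s)) (a : Option κ) :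
    Loc66.VCv l univ (fun i => J.fr c (s i) a) ((J.G c y.s).F.e a) := by
  rw [fr_eq hJ hσ H]
  exact vcv_of_vJ (U := univ) (X := fun p => (W.L J.m c).e p a)
    (fun x _ => ((continuousAt_fst (p := (_, x))).eventually (Mark.ev_Ω _ (hJ.memO hσ H.ov))).mono
      fun p hp => (W.L J.m c).sm _ _ (hp _) a) ((hJ.sm.continuous.tendsto _).comp hs)

theorem str_refl : Str l (fun _ => y) y := by
  have a := ad0 H.sol.toAdm
  refine ⟨tendsto_const_nhds, ⟨fun _ => y.x.m.p, fun _ => 1, ?_, fun k _ => ⟨fun _ => 1, ?_⟩⟩,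
    fun b d η hη => ?_, .of_forall fun _ => ⟨rfl, rfl, fun _ _ => .rfl⟩,
    fun _ _ => tendsto_const_nhds, tendsto_const_nhds, fun _ _ => tendsto_const_nhds⟩
  · rw [← fr_eq hJ hσ H]
    exact ulim_refl (Λ.B_ok _ _) (hJ.G_ok hσ H.ov) a
  · refine tendsto_const_nhds.congr fun _ => (Cnt93.mem_p a.ok (y.ψ k)).symm.trans
      (congrArg (fun T => Cnt93.LU T _) (ContinuousLinearMap.ext fun b => ?_))
    show _ = An.cs y.x.m.J ((1 : Circle) : ℂ) _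
    simp [An.cs]
  · by_cases ha : b ∈ cylW c
    · obtain ⟨T, hT⟩ := near_of_lim (adm_β H ha d) a (H.lim b d (act_of hJ hσ H ha d)) hη
      exact ⟨T, .of_forall fun _ _ => hT⟩
    · exact ⟨0, .of_forall fun _ k => (ha ⟨k.2.2.2, k.1⟩).elim⟩

variable (H' : Sol σ q' y') (e : Job.Iso y y')
include H' e

theorem iso_tf {π : Reg A} (k : y.TF π) : y'.TF π := by
  obtain ⟨s, x, _, ψ, β, ζ, _, j, m⟩ := y'
  obtain ⟨rfl, u, ξ, e, -⟩ := e
  obtain ⟨z, h1, h2⟩ := k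
  exact ⟨z, h1, norm_ne_zero_iff.1 ((ceq_norm (lg_refl (Λ.B_ok _ _) (hJ.G_ok hσ H.ov) isOpen_univ)
    (ad0 H.sol.toAdm) (ad0 H'.sol.toAdm) e (mem_univ z)).trans_ne (norm_ne_zero_iff.2 h2))⟩

theorem iso_ta {π : Reg A} (hπ : M.sys.Piece c.1 π) (k : y.TA π) : y'.TA π := by
  obtain ⟨s, x, _, ψ, β, ζ, _, j, m⟩ := y'
  obtain ⟨rfl, u, ξ, e, -⟩ := e
  have o := (Cyl58.isClopen_pc W.toCaps hπ).2
  have g := (lg_refl (Λ.B_ok _ _) (hJ.G_ok hσ H.ov) o).of_ceq (ad0 H.sol.toAdm) (ad0 H'.sol.toAdm)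
    (Wrd81.ceq_mono e (subset_univ _))
  exact k.imp (Wrd81.lm_lin g (inv_refl o)) fun k z hz => (g.Fg hz).trans (by rw [k z hz, map_zero])

theorem iso_kap (O : Set (W.Z c).M) : y'.kap O = y.kap O := by
  obtain ⟨s, x, _, ψ, β, ζ, _, j, m⟩ := y'
  obtain ⟨rfl, u, ξ, e, -⟩ := e
  have g := (lg_refl (Λ.B_ok _ _) (hJ.G_ok hσ H.ov) isOpen_univ).of_ceq (ad0 H.sol.toAdm)
    (ad0 H'.sol.toAdm) e
  exact integral_congr_ae (.of_forall fun z => g.kd (mem_univ z))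

theorem iso_stb {a : A} (ha : a ∈ cylW c) (b : Bool) :
    ∃ g ξ, Bki64.Stb (J.xs a).D (y.β a b) (y'.β a b) g ξ := by
  have k' := adm_β H' ha b
  obtain ⟨s, x, _, ψ, β, ζ, _, j, m⟩ := y'
  obtain ⟨rfl, u, ξ, e, -⟩ := e
  have := (show NeBot (bif b then atBot else atTop : Filter ℝ) by cases b; exacts [atTop_neBot, atBot_neBot])
  have t := act_of hJ hσ H ha b
  obtain ⟨g, hg⟩ := stb_of_lim (adm_β H ha b) k' (ad0 H.sol.toAdm) (isEnd_b b) (H.lim a b t)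
    (lim_pre (Λ.B_ok _ _) isOpen_univ (subset_univ _) k' (ad0 H.sol.toAdm) (ad0 H'.sol.toAdm) e
      (H'.lim a b t))
  exact ⟨g, _, hg⟩

theorem iso_eqv {a : A} (ha : a ∈ cylW c) (b : Bool) : (J.xs a).D.Eqv (y.β a b) (y'.β a b) :=
  let ⟨_, _, k⟩ := iso_stb hJ hσ H H' e ha b
  k.eqv (hJ.xs a).1.yd (adm_β H ha b) (adm_β H' ha b)

theorem iso_str (t : y.Tight) (t' : y'.Tight) {z : α → J.Obc c}
    (hz : ∀ᶠ i in l, Ad0 (z i).x (J.B c) (J.G c (z i).s)) (k : Str l z y) : Str l z y' := by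
  refine ⟨e.1 ▸ k.s, ?_, fun a b η hη => ?_, k.dis.mono fun i j => ⟨j.1.trans ((tight_H H t).trans
    (tight_H H' t').symm), j.2.1.trans (t.1.trans t'.1.symm), fun a ha =>
      (j.2.2 a ha).trans (iff_of_true (t.2 a ha) (t'.2 a ha))⟩, fun a ha => ?_, ?_, fun π hπ => ?_⟩
  · have sb := H'.sub
    have i := (tight_H H' t').trans (tight_H H t).symm
    obtain ⟨s, x, _, ψ, β, ζ, _, j, m⟩ := y'
    obtain ⟨rfl, g, ξ, e, f⟩ := e
    obtain ⟨u, θ, h1, h2⟩ := k.lim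
    have a' := ad0 H'.sol.toAdm
    refine ⟨_, _, ulim_post isOpen_univ (Λ.B_ok _ _) h1 (vcv_fr hJ hσ H k.s) (hz.mono fun _ j => j.ok)
      (ad0 H.sol.toAdm) a' e, fun o ho => ?_⟩
    obtain ⟨η, hη⟩ := f ⟨o, sb ho⟩
    exact hη ▸ clim_post (h2 o (i ▸ ho)) (e.m.J _ trivial) a'.ok.Jsq η
  · by_cases ha : a ∈ cylW c
    · obtain ⟨g, ξ, s⟩ := iso_stb hJ hσ H H' e ha b
      obtain ⟨η', h0, h1⟩ := near_post (I := (W.Z c).I) (B := J.B c) (r := r) (adm_β H ha b) (adm_β H' ha b) s hη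
      obtain ⟨T, hT⟩ := k.tail a b η' h0
      exact ⟨T, (hz.and hT).mono fun i j o t ht => h1 _ _ _ _ j.1 (j.2 o t ht)⟩
    · exact ⟨0, .of_forall fun _ k => (ha ⟨k.2.2.2, k.1⟩).elim⟩
  · rw [(tight_k H' t' ha).2, ← (tight_k H t ha).2]; exact k.k a ha
  · rw [tight_en H' t', ← tight_en H t]; exact k.en
  · rw [iso_kap hJ hσ H H' e]; exact k.kap π hπ

end Crest.Agent.X212.Pat85
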