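import Crest.Agent.X212.Pat85.L4u

/-!
# X212, VOL (helper85): the volume off the cylindrical necks is uniformly bounded
-/

set_option autoImplicit false
set_option linter.unusedSectionVars false
open Set Filter Topology Function MeasureTheory Module
open scoped ContDiff Manifold InnerProductSpace

noncomputable section
namespace Crest.Agent.X212.Pat85

open An Sob92 Cht98 Cyf70 M
open Met55 (Co atx FAt ofFrame rj)
open Ps86 (Nk)

variable {X : Mf 4} {A κ : Type} [Fintype A] [Fintype κ] {M : Mark X A κ} (W : World M)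
  (m : M.Cl) {c : M.Cl} {p : Prm A} {a : A}

theorem sm_rad {t : ℝ} (ht : t < 1) : ContDiff ℝ ∞ (rad t) := contDiff_iff_contDiffAt.2 fun s =>
  (contDiffAt_rad (p := (t, s)) (.inl ht)).comp s (f := fun s => (t, s)) (by fun_prop)

theorem fAt_nF (hp : M.pin a) {t : ℝ} (ht : t < 1) (q : (M.bn a).Y.M × ℝ) :
    FAt (M.nF a t) q := by
  refine ⟨fun i => ?_, Mark.sp_nf (.inl ht)⟩
  have h1 : ContDiff ℝ ∞ fun s => M.wt a t s i := by
    cases i
    · simp only [Mark.wt_none' hp]; exact contDiff_const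
    · simp only [Mark.wt_some' hp]; exact (sm_rad ht).inv fun s => (rad_pos (.inl ht)).ne'
  have h2 := Met55.VAt.smul (sm_snd h1 q) ((cylP (M.gY a).toPre).sm i q)
  exact h2

theorem μ_nF (hp : M.pin a) {t : ℝ} (ht : t < 1) : (ofFrame _ (fAt_nF hp ht)).μ =
    (cylP (M.gY a).toPre).μ.withDensity fun q => ENNReal.ofReal (rad t q.2 ^ 3) := by
  have r0 : ∀ s, 0 < rad t s := fun s => rad_pos (.inl ht)
  refine Met55.vol_eq_wt (Int54.isVol_cylP (M.gvol a)) (Int54.isVol_iff_rf.2 rfl)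
    (((sm_rad ht).continuous.comp continuous_snd).pow 3) fun q => ?_
  have e : LinearMap.det (((rad t q.2)⁻¹ • LinearMap.id).prodMap LinearMap.id :
      (M.bn a).Y.E × ℝ →ₗ[ℝ] (M.bn a).Y.E × ℝ) = (rad t q.2 ^ 3)⁻¹ := by
    rw [LinearMap.det_prodMap, LinearMap.det_smul, LinearMap.det_id, LinearMap.det_id,
      (M.bn a).Y.dim, mul_one, mul_one, inv_pow]
  have := Met55.rjb_map (v := atx (ce (M.gY a).e) q)
    (((rad t q.2)⁻¹ • LinearMap.id).prodMap LinearMap.id) (finBasis ℝ (_ × ℝ)) (finBasis ℝ (_ × ℝ))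
  rw [LinearMap.det_toMatrix, e, abs_of_pos (by have := r0 q.2; positivity), inv_inv] at this
  refine (congrArg _ (funext fun i => ?_)).trans this
  cases i
  · exact Prod.ext ((smul_zero _).trans (smul_zero _).symm) (by
      simp [ofFrame, Mark.nF, Mark.nf, Mark.wt_none' hp, ce])
  · exact Prod.ext (by simp [ofFrame, Mark.nF, Mark.nf, Mark.wt_some' hp, ce]) (smul_zero _)

theorem μ_band (hp : M.pin a) {t : ℝ} (ht : t < 1) (ht' : 1 / 2 ≤ t) :
    (ofFrame _ (fAt_nF hp ht)).μ (univ ×ˢ Ioo (-1) 1) ≤ 16 * (M.gY a).μ univ := by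
  have := (M.bn a).cpt
  have ms : MeasurableSet ((univ : Set (M.bn a).Y.M) ×ˢ Ioo (-1 : ℝ) 1) :=
    MeasurableSet.univ.prod measurableSet_Ioo
  rw [μ_nF hp ht, withDensity_apply _ ms]
  refine (setLIntegral_mono' ms (g := fun _ => 8) fun q hq => ?_).trans (le_of_eq ?_)
  · have : rad t q.2 ≤ 2 := abs_le_of_sq_le_sq' (by rw [rad_sq]; nlinarith [hq.2.1, hq.2.2])
      (by norm_num) |>.2
    exact ENNReal.ofReal_le_of_le_toReal ((pow_le_pow_left₀ (rad_pos (.inl ht)).le this 3).trans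
      (by norm_num))
  · rw [setLIntegral_const, cylP_μ, Measure.prod_prod, Real.volume_Ioo]
    norm_num; ring

/-- the volume of a pinched band -/
theorem Lg.vol (h : Lg M c p a) (hp : M.pin a) :
    (W.F m c p).μ (hZ W.toCaps c a ⁻¹' Ioo (-1) 1) ≤ 16 * (M.gY a).μ univ := by
  have ha := h.mem.resolve_left fun k => k.2 hp
  have ht : Mark.tv c.1 p.2 a < 1 := by rw [Mark.tv_fr ha]; exact h.O a ha
  have nk : ∀ q : (M.bn a).Y.M × ℝ, q.2 ∈ Ioo (-1 : ℝ) 1 → Nk M c p.2 a q := fun q hq =>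
    ⟨h.lt, abs_lt.2 hq, .inl ht⟩
  have ms : MeasurableSet ((univ : Set (M.bn a).Y.M) ×ˢ Ioo (-1 : ℝ) 1) :=
    MeasurableSet.univ.prod measurableSet_Ioo
  have ld := fun q (hq : q ∈ (univ : Set (M.bn a).Y.M) ×ˢ Ioo (-1 : ℝ) 1) => (nk q hq.2).ld W.toCaps
  have e := Int54.map_vol (F' := ofFrame _ (fAt_nF hp ht)) (F := (W.F m c p).toPre) (f := W.nj c a)
    ((W.Z c).dim.trans (Mark.finrank_cyl a).symm)
    ((W.L m c).F_vol p) (Int54.isVol_iff_rf.2 rfl) ms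
    (fun q hq => (ld q hq).mdifferentiableAt (by simp)) (fun q _ q' _ e => (M.bn a).oe.inj
      (W.inj (Mark.fr_not_mem ha ⟨_, rfl⟩) (Mark.fr_not_mem ha ⟨_, rfl⟩) e)) fun q hq => by
        rw [Ps86.F_e W m h.O]; exact (nk q hq.2).co W m
  refine (measure_mono (t := W.nj c a '' (univ ×ˢ Ioo (-1) 1)) fun z hz => ?_).trans ?_
  · obtain ⟨y, -, h2⟩ := exists_of_hZ W.toCaps h.mem ((abs_lt.2 hz).trans (by norm_num))
    exact ⟨(y, _), ⟨trivial, hz⟩, h2⟩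
  rw [← Measure.restrict_apply_univ, ← e, Measure.map_apply_of_aemeasurable
    (ContinuousOn.aemeasurable (fun q hq => (ld q hq).contMDiffAt.continuousAt.continuousWithinAt) ms)
    MeasurableSet.univ, preimage_univ, Measure.restrict_apply_univ]
  exact μ_band hp ht (Ps86.tv_mem h.lt).1

variable (c p) in
/-- the part off the literal cylindrical necks -/
def Tk : Set (W.Z c).M := {z | ∀ a, ¬M.pin a →
  (a ∈ c.1 ∨ a ∈ m.1 ∧ a ∈ M.sys.fr c.1 ∧ 1 / 2 ≤ p.2 a) → 1 ≤ |hZ W.toCaps c a z|}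

theorem vol_loc (c : M.Cl) (p₀ : Prm A) {t₀ : ℝ} (ht : t₀ < 1) : ∃ V : ℝ, ∀ᶠ p in 𝓝 p₀,
    Gd M c p₀ p → (∀ a, ¬M.pin a → a ∉ m.1 → p.2 a ≤ t₀ ∨ a ∈ c.1) →
      (W.F m c p).μ (Tk W m c p) ≤ ENNReal.ofReal V := by
  obtain ⟨Q, h1, h2, h3⟩ := exists_Q W.toCaps c p₀ one_pos (by norm_num)
  have hK := isCompact_thk W.toCaps c p₀ one_pos (by norm_num)
  obtain ⟨C, k0⟩ := bdd_fam h2 hK (f := fun s y => rj ((W.L m c).e s) y / rj (W.L m c).F0.e y)
    fun t ht x hx => (jAt_rj ((W.L m c).sm t x (h3 ⟨ht, hx⟩)) ((W.L m c).sp t x (h3 ⟨ht, hx⟩))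
      (W.L m c).F0.toPre).continuousAt
  have ev : ∀ᶠ p : Prm A in 𝓝 p₀, ∀ a, 1 ≤ p₀.2 a → t₀ < p.2 a := eventually_all.2 fun a => by
    by_cases h : 1 ≤ p₀.2 a
    · exact ((((continuous_apply a).comp continuous_snd).tendsto p₀).eventually
        (Ioi_mem_nhds (ht.trans_le h))).mono fun _ k _ => k
    · exact .of_forall fun _ k => (h k).elim
  refine ⟨(ENNReal.ofReal C * (W.L m c).F0.μ (thk W.toCaps c p₀ 1) +
    ∑ a, 16 * (M.gY a).μ univ).toReal, ?_⟩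
  filter_upwards [h1, ev] with p hp e h hm
  rw [ENNReal.ofReal_toReal (ENNReal.add_ne_top.2 ⟨ENNReal.mul_ne_top ENNReal.ofReal_ne_top
    hK.measure_ne_top, ENNReal.sum_ne_top.2 fun a _ => ENNReal.mul_ne_top (by simp)
      (have := (M.bn a).cpt; isCompact_univ.measure_ne_top)⟩)]
  refine (measure_mono (t := thk W.toCaps c p₀ 1 ∪ ⋃ a, {z | (M.pin a ∧ Lg M c p a) ∧
    hZ W.toCaps c a z ∈ Ioo (-1) 1}) fun z hz => or_iff_not_imp_left.2 fun k => ?_).trans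
      ((measure_union_le _ _).trans (add_le_add ?_ ((measure_iUnion_fintype_le _ _).trans
        (Finset.sum_le_sum fun a _ => ?_))))
  · simp only [thk, mem_ofPred_eq, not_forall, not_le] at k
    obtain ⟨a, ha, k⟩ := k
    have lt : M.Lt c.1 p.2 a := ha.elim (fun k => .inl k.1) fun k => h.2 _ k.1 k.2
    refine mem_iUnion.2 ⟨a, ⟨by_contra fun hp => k.not_ge (hz a hp (ha.imp And.left fun j => ?_)),
      Nw.mem ha, lt, h.1⟩, abs_lt.1 k⟩
    exact ⟨by_contra fun hm' => (hm a hp hm').elim (e a j.2).not_ge j.1.1, j.1,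
      (lt.resolve_left j.1.1).2.1.1⟩
  · rw [Prm93.vol_eq (W.L m c).vol ((W.L m c).F_vol p), withDensity_apply _ hK.measurableSet,
      ← setLIntegral_const]
    refine setLIntegral_mono' hK.measurableSet fun z hz => ENNReal.ofReal_le_ofReal ?_
    rw [Prm93.rd, Ps86.F_e W m h.1]
    exact (le_abs_self _).trans (k0 p hp z hz)
  · by_cases k : M.pin a ∧ Lg M c p a
    · exact (measure_mono fun z hz => hz.2).trans (k.2.vol W m k.1)
    · simp [k]

/-- **VOL** -/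
theorem volU {U : Set ℝ} (hU : IsCompact U) {t₀ : ℝ} (ht : t₀ < 1) : ∃ V : ℝ, ∀ m c p, p.1 ∈ U →
    p.2 ∈ M.sys.Par → p ∈ M.O c.1 → (∀ a, ¬M.pin a → a ∉ m.1 → p.2 a ≤ t₀ ∨ a ∈ c.1) →
      (W.F m c p).μ (Tk W m c p) ≤ ENNReal.ofReal V := by
  choose C hC using fun i : M.Cl × M.Cl => unif_of_loc (hU.prod (isCompact_Icc (a := (0 : A → ℝ))
    (b := 1))) (P := fun p C => p ∈ M.O i.2.1 → p.2 ∈ M.sys.Par →
      (∀ a, ¬M.pin a → a ∉ i.1.1 → p.2 a ≤ t₀ ∨ a ∈ i.2.1) →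
        (W.F i.1 i.2 p).μ (Tk W i.1 i.2 p) ≤ ENNReal.ofReal (C 0))
    (fun _ _ _ h k h1 h2 h3 => (h h1 h2 h3).trans (ENNReal.ofReal_le_ofReal (k 0))) fun p₀ _ =>
      let ⟨S, hS⟩ := vol_loc W i.1 i.2 p₀ ht
      ⟨fun _ => S, (hS.and (ev_gd i.2 p₀)).mono fun _ h h1 h2 => h.1 (h.2 h1 h2)⟩
  obtain ⟨S, k⟩ := Finite.bddAbove_range fun i => C i 0
  exact ⟨S, fun m c p h1 h2 h3 h4 => (hC (m, c) p ⟨h1, fun a => (h2.1 a).1, fun a => (h2.1 a).2⟩
    h3 h2 h4).trans (ENNReal.ofReal_le_ofReal (k ⟨_, rfl⟩))⟩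

end Crest.Agent.X212.Pat85
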