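import Crest.Agent.X212.Pat85.QB

/-!
# X212, PATCH (helper85), part 4: converging cocycles are cohomologous to the limit; patching
-/

set_option autoImplicit false
set_option linter.unusedSectionVars false

open Set Filter Topology Metric
open scoped ContDiff Manifold

noncomputable section

namespace Crest.Agent.X212.Pat85
open Cmp73

variable {α : Type} {E : Type} [NormedAddCommGroup E] [NormedSpace ℝ E] [FiniteDimensional ℝ E]
  {HM : Type} [TopologicalSpace HM] {I : ModelWithCorners ℝ E HM} [I.Boundaryless]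
  {M : Type} [TopologicalSpace M] [ChartedSpace HM M] [IsManifold I ∞ M]
  {𝔸 : Type} [NormedRing 𝔸] [NormedAlgebra ℝ 𝔸] [FiniteDimensional ℝ 𝔸]

namespace QB
variable (Q : QB I M 𝔸) {β : Type}

/-- a family of cocycles with bounded jets -/
structure Coc (l : Filter α) (U : β → Set M) (τ : α → β → β → M → 𝔸) : Prop where
  op : ∀ i, IsOpen (U i)
  mb : ∀ i j, MBOn I l (U i ∩ U j) fun n => τ n i j
  mem : ∀ i j, ∀ x ∈ U i ∩ U j, ∀ᶠ q : α × M in l ×ˢ 𝓝 x, τ q.1 i j q.2 ∈ Q.G q.2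
  mul : ∀ i j k, ∀ x ∈ U i ∩ U j ∩ U k, ∀ᶠ q : α × M in l ×ˢ 𝓝 x,
    τ q.1 i j q.2 * τ q.1 j k q.2 = τ q.1 i k q.2

/-- the limit cocycle `T` and the cochains `t n → e` with `t n j * τ n j k = T j k * t n k` -/
structure Lim (l : Filter α) (U : β → Set M) (Ω : Set M) (τ : α → β → β → M → 𝔸)
    (T : β → β → M → 𝔸) (t : α → β → M → 𝔸) : Prop where
  cv : ∀ i j, Cv I l (U i ∩ U j) (fun n => τ n i j) (T i j)
  sec : ∀ i j, Q.Sec (U i ∩ U j) (T i j)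
  mul : ∀ i j k, ∀ x ∈ U i ∩ U j ∩ U k, T i j x * T j k x = T i k x
  one : ∀ i, ∀ x ∈ U i, T i i x = Q.e x
  tcv : ∀ j, Cv I l (U j ∩ Ω) (fun n => t n j) Q.e
  tmem : ∀ j, ∀ x ∈ U j ∩ Ω, ∀ᶠ q : α × M in l ×ˢ 𝓝 x, t q.1 j q.2 ∈ Q.G q.2
  eq : ∀ j k, ∀ x ∈ U j ∩ U k ∩ Ω, ∀ᶠ q : α × M in l ×ˢ 𝓝 x,
    t q.1 j q.2 * τ q.1 j k q.2 = T j k q.2 * t q.1 k q.2

variable {Q} {U U' : β → Set M} {Ω Ω' : Set M} {χ : β → M → ℝ} {τ : α → β → β → M → 𝔸}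
  {T : β → β → M → 𝔸} {t : α → β → M → 𝔸}

/-- **COC** -/
theorem Coc.exists_lim {𝒰 : Ultrafilter α} (h : Q.Coc (𝒰 : Filter α) U τ) (hΩ : IsOpen Ω)
    (hχ : POU I χ U Ω) : ∃ T t, Q.Lim (𝒰 : Filter α) U Ω τ T t := by
  choose T hT using fun i j => (h.mb i j).exists_cv
  have hG : ∀ i j, Q.Sec (U i ∩ U j) (T i j) := fun i j x hx =>
    ⟨(hT i j).smoothAt ((h.op i).inter (h.op j)) hx, (hT i j).mem_closed hx (isClosed_G x)
      (eva (P := fun n y => τ n i j y ∈ Q.G y) (h.mem i j x hx))⟩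
  have hM : ∀ i j k, ∀ x ∈ U i ∩ U j ∩ U k, T i j x * T j k x = T i k x := fun i j k x hx =>
    tendsto_nhds_unique_of_eventuallyEq (((hT i j).pt x hx.1).mul ((hT j k).pt x ⟨hx.1.2, hx.2⟩))
      ((hT i k).pt x ⟨hx.1.1, hx.2⟩)
      (eva (P := fun n y => τ n i j y * τ n j k y = τ n i k y) (h.mul i j k x hx))
  have h1 : ∀ i, ∀ x ∈ U i, T i i x = Q.e x := fun i x hx =>
    eq_e (hG i i x ⟨hx, hx⟩).2 (hM i i i x ⟨⟨hx, hx⟩, hx⟩)
  let a : α → β → M → 𝔸 := fun n j y => ∑ᶠ i, χ i y • (T j i y * τ n i j y)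
  have ha : ∀ j, ∀ x ∈ U j ∩ Ω, (∃ O, x ∈ O ∧ Cv I (𝒰 : Filter α) O (fun n => a n j) Q.e) ∧
      ∀ᶠ q : α × M in (𝒰 : Filter α) ×ˢ 𝓝 x, a q.1 j q.2 ∈ Q.H q.2 := by
    intro j x hx
    obtain ⟨s, O, hO, hxO, hOΩ, hOU, hs, hs1⟩ := hχ.nbhd (𝔸 := 𝔸) h.op hΩ hx.2
    have hO' := hO.inter (h.op j)
    refine ⟨⟨O ∩ U j, ⟨hxO, hx.1⟩, ?_⟩, ?_⟩
    · refine (Cv.fsum s fun i hi => (Cv.fixed hO' fun y hy => hχ.sm i y (hOΩ hy.1)).smul
        ((Cv.fixed hO' fun y hy => (hG j i y ⟨hy.2, hOU i hi hy.1⟩).1).mul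
          ((hT i j).mono le_rfl fun y hy => ⟨hOU i hi hy.1, hy.2⟩))).congr' hO'
        (Eventually.of_forall fun n y hy => hs y hy.1 _) fun y hy => ?_
      rw [Finset.sum_congr rfl fun i hi => by
        rw [hM j i j y ⟨⟨hy.2, hOU i hi hy.1⟩, hy.2⟩, h1 j y hy.2], ← Finset.sum_smul, hs1 y hy.1,
        one_smul]
    · filter_upwards [s.eventually_all.2 fun i hi => h.mem i j x ⟨hOU i hi hxO, hx.1⟩,
        evo hO' ⟨hxO, hx.1⟩] with q h2 h3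
      simp only [a, hs _ h3.1]
      exact (Q.H q.2).sum_mem fun i hi => (Q.H q.2).smul_mem _
        (Q.mul_mem _ _ (hG j i _ ⟨h3.2, hOU i hi h3.1⟩).2.1 _ (h2 i hi).1)
  have hc : ∀ j, Cv I (𝒰 : Filter α) (U j ∩ Ω) (fun n => a n j) Q.e := fun j =>
    Cv.of_local fun x hx => (ha j x hx).1
  have hp : ∀ x, 0 < Q.ν (Q.e x) := fun x => by rw [ν_G (e_G x)]; exact one_pos
  refine ⟨T, fun n j y => Q.N (a n j y), hT, hG, hM, h1, fun j => ?_, fun j x hx => ?_,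
    fun j k x hx => ?_⟩
  · exact ((hc j).post fun x _ => N_smooth (hp x)).congr (fun _ _ => Eventually.of_forall
      fun _ => rfl) fun x _ => (N_of_G (e_G x)).symm
  · filter_upwards [(ha j x hx).2, ((hc j).tendsto hx).eventually (ev_pos (hp x))] with q h2 h3
      using N_G h2 h3
  · obtain ⟨s, O, hO, hxO, hOΩ, hOU, hs, hs1⟩ := hχ.nbhd (𝔸 := 𝔸) h.op hΩ hx.2
    filter_upwards [(ha j x ⟨hx.1.1, hx.2⟩).2, (ha k x ⟨hx.1.2, hx.2⟩).2, h.mem j k x hx.1,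
      s.eventually_all.2 fun i hi => h.mul i j k x ⟨⟨hOU i hi hxO, hx.1.1⟩, hx.1.2⟩,
      evo (hO.inter ((h.op j).inter (h.op k))) ⟨hxO, hx.1⟩] with q h2 h3 h4 h5 h6
    refine N_eq h2 h3 h4 (hG j k _ h6.2).2 ?_
    simp only [a, hs _ h6.1, Finset.sum_mul, Finset.mul_sum, smul_mul_assoc, mul_smul_comm]
    refine Finset.sum_congr rfl fun i hi => ?_
    rw [mul_assoc, h5 i hi, ← mul_assoc, hM j k i _ ⟨h6.2, hOU i hi h6.1⟩]

variable (Q) in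
/-- an abstract notion of a good family of gauges near a point -/
structure GS (l : Filter α) (Good : (α → M → 𝔸) → M → Prop) : Prop where
  sec : ∀ {g y}, Good g y → ∀ᶠ q : α × M in l ×ˢ 𝓝 y,
    ContMDiffAt I 𝓘(ℝ, 𝔸) ∞ (g q.1) q.2 ∧ g q.1 q.2 ∈ Q.G q.2
  bd : ∀ {g g' y}, Good g y → Good g' y → ∀ k, MB I l y k fun n z => g n z * Q.s (g' n z)
  act : ∀ {g t u y}, Good g y → (∀ k, MB I l y k t) →
    (∀ᶠ q : α × M in l ×ˢ 𝓝 y, t q.1 q.2 ∈ Q.G q.2 ∧ u q.1 q.2 = t q.1 q.2 * g q.1 q.2) → Good u y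

variable {l : Filter α} {Good : (α → M → 𝔸) → M → Prop} {g : β → α → M → 𝔸}

/-- the transition functions of good families -/
theorem GS.coc (hS : Q.GS l Good) (hU : ∀ i, IsOpen (U i)) (hg : ∀ i, ∀ x ∈ U i, Good (g i) x) :
    Q.Coc l U fun n i j y => g i n y * Q.s (g j n y) := by
  refine ⟨hU, fun i j k x hx => hS.bd (hg i x hx.1) (hg j x hx.2) k, fun i j x hx => ?_,
    fun i j k x hx => ?_⟩
  · filter_upwards [hS.sec (hg i x hx.1), hS.sec (hg j x hx.2)] with q h1 h2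
      using mul_G h1.2 (s_G h2.2)
  · filter_upwards [hS.sec (hg j x hx.1.2), hS.sec (hg k x hx.2)] with q h1 h2
    rw [mul_assoc, cancel h1.2 (s_G h2.2).1]

/-- **TRIV**: a trivialisation of the limit cocycle gives one good family -/
theorem GS.triv (hS : Q.GS l Good) (hg : ∀ i, ∀ x ∈ U i, Good (g i) x)
    (hL : Q.Lim l U Ω (fun n i j y => g i n y * Q.s (g j n y)) T t) (hU' : ∀ i, IsOpen (U' i))
    (hUU : ∀ i, U' i ⊆ U i) (hΩ' : IsOpen Ω') (hΩ : Ω' ⊆ Ω) (hχ : POU I χ U' Ω')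
    {h : β → M → 𝔸} (hh : ∀ i, Q.Sec (U' i) (h i))
    (hT : ∀ i j, ∀ x ∈ U' i ∩ U' j, T i j x * h j x = h i x) : ∃ u, ∀ x ∈ Ω', Good u x := by
  refine ⟨fun n y => ∑ᶠ j, χ j y • (Q.s (h j y) * t n j y * g j n y), fun x hx => ?_⟩
  obtain ⟨k, hk⟩ := hχ.cover hx
  obtain ⟨s, O, hO, hxO, hOΩ, hOU, hs, hs1⟩ := hχ.nbhd (𝔸 := 𝔸) hU' hΩ' hx
  have hk' : x ∈ U k ∩ Ω := ⟨hUU k hk, hΩ hx⟩
  refine hS.act (t := fun n y => Q.s (h k y) * t n k y) (hg k x hk'.1)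
    (fun m => ((hh k).s.mb (hU' k) hk l m).mul ((hL.tcv k).mb m x hk')) ?_
  filter_upwards [hL.tmem k x hk', hS.sec (hg k x hk'.1), evo (hO.inter (hU' k)) ⟨hxO, hk⟩,
    s.eventually_all.2 fun j hj => hS.sec (hg j x (hUU j (hOU j hj hxO))),
    s.eventually_all.2 fun j hj => hL.eq j k x ⟨⟨hUU j (hOU j hj hxO), hk'.1⟩, hk'.2⟩]
    with q h1 h2 h3 h4 h5
  refine ⟨mul_G (s_G (hh k _ h3.2).2) h1, ?_⟩
  rw [hs _ h3.1, Finset.sum_congr rfl (g := fun j => χ j q.2 •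
    (Q.s (h k q.2) * t q.1 k q.2 * g k q.1 q.2)) fun j hj => ?_, ← Finset.sum_smul, hs1 _ h3.1,
    one_smul]
  have h6 := hOU j hj h3.1
  have h7 : g j q.1 q.2 = g j q.1 q.2 * Q.s (g k q.1 q.2) * g k q.1 q.2 := by
    rw [mul_assoc, h2.2.2, mul_e (h4 j hj).2.1]
  congr 1
  rw [h7, ← mul_assoc, mul_assoc (Q.s _), h5 j hj, ← hT j k _ ⟨h6, h3.2⟩, Q.s_mul, mul_assoc (Q.s _),
    cancel (hL.sec j k _ ⟨hUU j h6, hUU k h3.2⟩).2 h1.1]

/-- **CPT**: one good family near a compact set -/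
theorem GS.cpt [T2Space M] [SigmaCompactSpace M] {𝒰 : Ultrafilter α}
    (hS : Q.GS (𝒰 : Filter α) Good) {K : Set M} (hK : IsCompact K)
    (hg : ∀ x ∈ K, ∃ g, ∀ᶠ y in 𝓝 x, Good g y) : ∃ u, ∀ᶠ y in 𝓝ˢ K, Good u y := by
  have : LocallyCompactSpace HM := I.locallyCompactSpace
  have : LocallyCompactSpace M := ChartedSpace.locallyCompactSpace HM M
  have h1 : ∀ x : K, ∃ g O C, IsOpen O ∧ IsCompact C ∧ x.1 ∈ interior C ∧ C ⊆ O ∧
      ∀ y ∈ O, Good g y := fun x => by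
    obtain ⟨g, hg⟩ := hg x.1 x.2
    obtain ⟨O, h1, h2, h3⟩ := eventually_nhds_iff.1 hg
    obtain ⟨C, h4, h5, h6⟩ := exists_compact_subset h2 h3
    exact ⟨g, O, C, h2, h4, h5, h6, h1⟩
  choose g O C hO hC hx hCO hg using h1
  obtain ⟨s, hs⟩ := hK.elim_finite_subcover (fun x => interior (C x)) (fun _ => isOpen_interior)
    fun x hx' => mem_iUnion.2 ⟨⟨x, hx'⟩, hx _⟩
  have hC' : IsCompact (⋃ i : s, C i) := isCompact_iUnion fun i => hC i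
  obtain ⟨K₂, h2c, h2i, h2s⟩ := exists_compact_between hC' (isOpen_iUnion fun i : s => hO i)
    (iUnion_mono fun i => hCO i)
  obtain ⟨K₃, h3c, h3i, h3s⟩ := exists_compact_between hK
    (isOpen_iUnion fun i : s => isOpen_interior (s := C i)) (fun y hy => by
      obtain ⟨i, hi, h⟩ := mem_iUnion₂.1 (hs hy)
      exact mem_iUnion.2 ⟨⟨i, hi⟩, h⟩)
  obtain ⟨χ, hχ⟩ := POU.exists_closed (I := I) h2c.isClosed (fun i : s => hO i) h2s
  obtain ⟨χ', hχ'⟩ := POU.exists_closed (I := I) h3c.isClosed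
    (fun i : s => isOpen_interior (s := C i)) h3s
  have hg' : ∀ i : s, ∀ y ∈ O i, Good (g i) y := fun i => hg i
  obtain ⟨T, t, hL⟩ := (hS.coc (fun i : s => hO i) hg').exists_lim isOpen_interior
    (hχ.mono interior_subset fun _ => inter_subset_left)
  have hCΩ : ∀ i : s, C i ⊆ interior K₂ := fun i => (subset_iUnion (fun i : s => C i) i).trans h2i
  have e1 : ∀ᶠ n in (𝒰 : Filter α), ∀ i : s, ∀ y ∈ C i, Q.Sec {y} fun z => t n i z * g i n z := by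
    refine eventually_all.2 fun i => ev_compact (hC i) fun y hy => ?_
    filter_upwards [hL.tmem i y ⟨hCO i hy, hCΩ i hy⟩, ((hL.tcv i).mb 0 y ⟨hCO i hy, hCΩ i hy⟩).smooth,
      hS.sec (hg i y (hCO i hy))] with q a b c
    exact Sec.mul (fun z hz => hz ▸ ⟨b, a⟩) fun z hz => hz ▸ c
  have e2 : ∀ᶠ n in (𝒰 : Filter α), ∀ i j : s, ∀ y ∈ C i ∩ C j,
      T i j y * (t n j y * g j n y) = t n i y * g i n y := by
    refine eventually_all.2 fun i => eventually_all.2 fun j =>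
      ev_compact ((hC i).inter (hC j)) fun y hy => ?_
    filter_upwards [hL.eq i j y ⟨⟨hCO i hy.1, hCO j hy.2⟩, hCΩ i hy.1⟩,
      hS.sec (hg i y (hCO i hy.1)), hS.sec (hg j y (hCO j hy.2))] with q a b c
    rw [← mul_assoc, ← a, mul_assoc, mul_assoc, c.2.2, mul_e b.2.1]
  obtain ⟨n, e3, e4⟩ := (e1.and e2).exists
  obtain ⟨u, hu⟩ := hS.triv hg' hL (U' := fun i : s => interior (C i))
    (fun _ => isOpen_interior) (fun i => interior_subset.trans (hCO i)) (Ω' := interior K₃)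
    isOpen_interior (interior_subset.trans (h3s.trans
      ((iUnion_mono fun i => interior_subset).trans h2i)))
    (hχ'.mono interior_subset fun _ => inter_subset_left) (h := fun i z => t n i z * g i n z)
    (fun i y hy => e3 i y (interior_subset hy) y rfl)
    fun i j y hy => e4 i j y ⟨interior_subset hy.1, interior_subset hy.2⟩
  exact ⟨u, Filter.mem_of_superset (isOpen_interior.mem_nhdsSet.2 h3i) hu⟩

/-- **END**, abstract form -/
theorem GS.chain {𝒰 : Ultrafilter α} (hS : Q.GS (𝒰 : Filter α) Good) {O O' : ℕ → Set M}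
    (hO : ∀ j, IsOpen (O j)) (hO' : ∀ j, IsOpen (O' j)) (hOO : ∀ j, O' j ⊆ O j)
    (hm : ∀ j, O j ⊆ O (j + 1)) (hm' : ∀ j, O' j ⊆ O' (j + 1)) (hΩ : IsOpen Ω)
    {χ : ℕ → M → ℝ} (hχ : POU I χ O' Ω) (hg : ∀ j, ∃ g, ∀ x ∈ O j, Good g x)
    (hE : ∀ j v, Q.Sec (O j) v → ∃ v', Q.Sec (O (j + 1)) v' ∧ ∀ x ∈ O' j, v' x = v x) :
    ∃ u, ∀ x ∈ Ω, Good u x := by
  choose g hg using hg
  obtain ⟨T, t, hL⟩ := (hS.coc hO hg).exists_lim hΩ
    (hχ.mono subset_rfl fun j => inter_subset_left.trans (hOO j))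
  have h1 : ∀ j (v : {v // Q.Sec (O j) v}), ∃ v' : {v // Q.Sec (O (j + 1)) v},
      ∀ x ∈ O' j, v'.1 x = T (j + 1) j x * v.1 x := fun j v => by
    obtain ⟨v', h1, h2⟩ := hE j _ (((hL.sec (j + 1) j).mono fun x hx => ⟨hm j hx, hx⟩).mul v.2)
    exact ⟨⟨v', h1⟩, h2⟩
  choose f hf using h1
  let h : ∀ j, {v // Q.Sec (O j) v} := fun j => Nat.rec ⟨Q.e, Sec.e _⟩ f j
  have hmo := monotone_nat_of_le_succ hm
  have hmo' := monotone_nat_of_le_succ hm'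
  have h2 : ∀ j i, j ≤ i → ∀ x ∈ O' j, T i j x * (h j).1 x = (h i).1 x := by
    intro j i hji x hx
    induction i, hji using Nat.le_induction with
    | base => rw [hL.one j x (hOO j hx), Q.e_mul x _ ((h j).2 x (hOO j hx)).2.1]
    | succ i hji ih =>
      have h3 := hOO i (hmo' hji hx)
      rw [← hL.mul (i + 1) i j x ⟨⟨hm i h3, h3⟩, hOO j hx⟩, mul_assoc, ih]
      exact (hf i (h i) x (hmo' hji hx)).symm
  refine hS.triv hg hL hO' hOO hΩ subset_rfl hχ (h := fun j => (h j).1)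
    (fun j => (h j).2.mono (hOO j)) fun i j x hx => ?_
  rcases le_total j i with hji | hij
  · exact h2 j i hji x hx.2
  · have h3 := hOO i hx.1
    rw [← h2 i j hij x hx.1, ← mul_assoc, hL.mul i j i x ⟨⟨h3, hOO j hx.2⟩, h3⟩, hL.one i x h3,
      Q.e_mul x _ ((h i).2 x h3).2.1]

end QB

end Crest.Agent.X212.Pat85
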