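import Crest.Agent.X212.Cmp73.Cov
import Crest.Agent.X212.Cmp73.Wt

/-!
# X212, PATCH (helper85): bounded covariant words along a filter, varying fibres

`DB I 𝓕 e A k f` : along the filter `𝓕` on `α × M` the sections `f n` are smooth and their covariant
words of length `≤ k` are bounded.  `iF l T x` : the iterated filter (first `n → l`, then `y → x`
inside `T`).
-/

set_option autoImplicit false
set_option linter.unusedSectionVars false
open Set Filter Topology Function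
open scoped ContDiff Manifold

noncomputable section
namespace Crest.Agent.X212.Pat85

open Cmp73 Sob92
open Wz78 (nab curv SA)

section filt
variable {α X Y : Type} [TopologicalSpace X] [TopologicalSpace Y]

/-- filters generated by sets with open fibres -/
def OB (𝓕 : Filter (α × X)) : Prop := ∀ D ∈ 𝓕, ∀ᶠ q in 𝓕, ∀ᶠ y in 𝓝 q.2, (q.1, y) ∈ D

theorem OB.ev {𝓕 : Filter (α × X)} (h : OB 𝓕) {p : α → X → Prop} (hp : ∀ᶠ q in 𝓕, p q.1 q.2) :
    ∀ᶠ q in 𝓕, ∀ᶠ y in 𝓝 q.2, p q.1 y := h _ hp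

theorem ob_prod (l : Filter α) (x : X) : OB (l ×ˢ 𝓝 x) := fun _ hD => by
  obtain ⟨pa, hpa, pb, hpb, H⟩ := eventually_prod_iff.1 hD
  filter_upwards [hpa.prod_mk hpb.eventually_nhds] with q hq using hq.2.mono fun _ hy => H hq.1 hy

theorem ob_bind {β : Type} (f : Filter β) {m : β → Filter (α × X)} (h : ∀ b, OB (m b)) :
    OB (f.bind m) := fun D hD =>
  eventually_bind.2 (Eventually.mono (mem_bind'.1 hD) fun b hb => h b D hb)

/-- the iterated filter -/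
def iF (l : Filter α) (T : Set X) (x : X) : Filter (α × X) := (𝓝[T] x).bind fun y => l ×ˢ 𝓝 y

variable {l : Filter α} {T T' : Set X} {x : X} {p : α × X → Prop}

theorem ev_iF : (∀ᶠ q in iF l T x, p q) ↔ ∀ᶠ y in 𝓝[T] x, ∀ᶠ q in l ×ˢ 𝓝 y, p q := eventually_bind

theorem ob_iF : OB (iF l T x) := ob_bind _ fun y => ob_prod l y

theorem ev_spread (h : ∀ᶠ q in l ×ˢ 𝓝 x, p q) : ∀ᶠ y in 𝓝 x, ∀ᶠ q in l ×ˢ 𝓝 y, p q := by
  obtain ⟨pa, hpa, pb, hpb, H⟩ := eventually_prod_iff.1 h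
  exact hpb.eventually_nhds.mono fun y hy => (hpa.prod_mk hy).mono fun q hq => H hq.1 hq.2

theorem iF_le : iF l T x ≤ l ×ˢ 𝓝 x := fun _ hD =>
  ev_iF.2 ((ev_spread hD).filter_mono nhdsWithin_le_nhds)

theorem le_iF (hx : x ∈ T) : l ×ˢ 𝓝 x ≤ iF l T x := fun _ hD =>
  (ev_iF.1 hD).self_of_nhdsWithin hx

theorem iF_eq (hx : x ∈ T) : iF l T x = l ×ˢ 𝓝 x := le_antisymm iF_le (le_iF hx)

theorem iF_mono (h : T ⊆ T') : iF l T x ≤ iF l T' x := fun _ hD =>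
  ev_iF.2 ((ev_iF.1 hD).filter_mono (nhdsWithin_mono x h))

theorem ev_iF_of (h : ∀ y ∈ T, ∀ᶠ q in l ×ˢ 𝓝 y, p q) : ∀ᶠ q in iF l T x, p q :=
  ev_iF.2 (eventually_nhdsWithin_of_forall h)

theorem ev_at {p : α → X → Prop} (h : ∀ᶠ q in l ×ˢ 𝓝 x, p q.1 q.2) : ∀ᶠ n in l, p n x :=
  h.curry.mono fun _ hi => hi.self_of_nhds

theorem tendsto_iF {ψ : X → Y} {T₁ : Set Y} (h0 : ContinuousAt ψ x)
    (h : ∀ᶠ y in 𝓝[T] x, ContinuousAt ψ y ∧ ψ y ∈ T₁) :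
    Tendsto (Prod.map id ψ) (iF l T x) (iF l T₁ (ψ x)) := fun D hD => by
  have h1 : Tendsto ψ (𝓝[T] x) (𝓝[T₁] (ψ x)) :=
    tendsto_nhdsWithin_iff.2 ⟨h0.tendsto.mono_left nhdsWithin_le_nhds, h.mono fun _ a => a.2⟩
  refine ev_iF.2 ?_
  filter_upwards [h, h1.eventually (ev_iF.1 hD)] with y a b
  exact (tendsto_id.prodMap a.1.tendsto).eventually b

end filt

variable {E : Type} [NormedAddCommGroup E] [NormedSpace ℝ E] {HM : Type} [TopologicalSpace HM]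
  {I : ModelWithCorners ℝ E HM} {M : Type} [TopologicalSpace M] [ChartedSpace HM M]
  [IsManifold I ∞ M] {ι : Type} [Fintype ι] {α : Type}
  {U V W : α → Type} [∀ n, NormedAddCommGroup (U n)] [∀ n, NormedSpace ℝ (U n)]
  [∀ n, NormedAddCommGroup (V n)] [∀ n, NormedSpace ℝ (V n)]
  [∀ n, NormedAddCommGroup (W n)] [∀ n, NormedSpace ℝ (W n)]

variable (I) in
/-- smooth and bounded along `𝓕` -/
def D0 (𝓕 : Filter (α × M)) (f : ∀ n, M → V n) : Prop :=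
  (∀ᶠ q in 𝓕, SA I (f q.1) q.2) ∧ ∃ K, ∀ᶠ q in 𝓕, ‖f q.1 q.2‖ ≤ K

variable (I) in
/-- covariant words of length `≤ k` are bounded along `𝓕` -/
def DB (𝓕 : Filter (α × M)) (e : α → ι → (x : M) → TangentSpace I x)
    (A : ∀ n, ι → M → V n →L[ℝ] V n) : ℕ → (∀ n, M → V n) → Prop
  | 0, f => D0 I 𝓕 f
  | k + 1, f => D0 I 𝓕 f ∧ ∀ a, DB 𝓕 e A k fun n => nab I (e n) (A n) a (f n)

/-- the trivial connection -/
abbrev z0 (ι M : Type) {α : Type} (V : α → Type) [∀ n, NormedAddCommGroup (V n)]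
    [∀ n, NormedSpace ℝ (V n)] : ∀ n, ι → M → V n →L[ℝ] V n := fun _ _ _ => 0

variable {𝓕 𝓖 : Filter (α × M)} {e e' : α → ι → (x : M) → TangentSpace I x}
  {A A' : ∀ n, ι → M → V n →L[ℝ] V n} {B : ∀ n, ι → M → W n →L[ℝ] W n}
  {C : ∀ n, ι → M → U n →L[ℝ] U n} {f g : ∀ n, M → V n} {k : ℕ}

theorem D0.congr (ho : OB 𝓕) (h : D0 I 𝓕 f) (hg : ∀ᶠ q in 𝓕, g q.1 q.2 = f q.1 q.2) : D0 I 𝓕 g :=
  ⟨(h.1.and (ho.ev (p := fun n y => g n y = f n y) hg)).mono fun _ hq =>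
    hq.1.congr_of_eventuallyEq hq.2, h.2.imp fun _ hK => (hK.and hg).mono fun _ hq => hq.2 ▸ hq.1⟩

theorem D0.add (h : D0 I 𝓕 f) (h' : D0 I 𝓕 g) : D0 I 𝓕 fun n x => f n x + g n x :=
  let ⟨K, hK⟩ := h.2; let ⟨K', hK'⟩ := h'.2
  ⟨(h.1.and h'.1).mono fun _ hq => hq.1.add hq.2, K + K', (hK.and hK').mono fun _ hq =>
    (norm_add_le _ _).trans (add_le_add hq.1 hq.2)⟩

theorem D0.app {T : ∀ n, M → V n →L[ℝ] W n} (h : D0 I 𝓕 T) (h' : D0 I 𝓕 f) :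
    D0 I 𝓕 fun n x => T n x (f n x) :=
  let ⟨K, hK⟩ := h.2; let ⟨K', hK'⟩ := h'.2
  ⟨(h.1.and h'.1).mono fun _ hq => hq.1.app hq.2, K * K', (hK.and hK').mono fun _ hq =>
    (ContinuousLinearMap.le_opNorm _ _).trans
      (mul_le_mul hq.1 hq.2 (norm_nonneg _) ((norm_nonneg _).trans hq.1))⟩

namespace DB

theorem d0 : ∀ {k : ℕ}, DB I 𝓕 e A k f → D0 I 𝓕 f
  | 0, h => h
  | _ + 1, h => h.1

theorem sm (h : DB I 𝓕 e A k f) : ∀ᶠ q in 𝓕, SA I (f q.1) q.2 := h.d0.1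

theorem pred : ∀ {k : ℕ} {f : ∀ n, M → V n}, DB I 𝓕 e A (k + 1) f → DB I 𝓕 e A k f
  | 0, _, h => h.1
  | _ + 1, _, h => ⟨h.1, fun a => pred (h.2 a)⟩

theorem of_le (h : DB I 𝓕 e A k f) {j : ℕ} (hj : j ≤ k) : DB I 𝓕 e A j f := by
  induction hj with
  | refl => exact h
  | step _ ih => exact ih h.pred

theorem mono (hG : 𝓖 ≤ 𝓕) : ∀ {k : ℕ} {f : ∀ n, M → V n}, DB I 𝓕 e A k f → DB I 𝓖 e A k f
  | 0, _, h => ⟨hG h.1, h.2.imp fun _ a => hG a⟩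
  | _ + 1, _, h => ⟨⟨hG h.1.1, h.1.2.imp fun _ a => hG a⟩, fun a => mono hG (h.2 a)⟩

/-- change of the data on a set of the filter -/
theorem congr' (ho : OB 𝓕) (he : ∀ᶠ q in 𝓕, ∀ a, e' q.1 a q.2 = e q.1 a q.2)
    (hA : ∀ᶠ q in 𝓕, ∀ a, A' q.1 a q.2 = A q.1 a q.2) : ∀ {k : ℕ} {f g : ∀ n, M → V n},
    DB I 𝓕 e A k f → (∀ᶠ q in 𝓕, g q.1 q.2 = f q.1 q.2) → DB I 𝓕 e' A' k g
  | 0, _, _, h, hg => D0.congr ho h hg
  | _ + 1, f, g, h, hg => ⟨h.1.congr ho hg, fun a => congr' ho he hA (h.2 a) (by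
      filter_upwards [he, hA, ho.ev (p := fun n y => g n y = f n y) hg] with q h1 h2 h3
      rw [Wz78.nab_congr a h3]
      simp only [nab, dv, h1 a, h2 a])⟩

theorem congr (ho : OB 𝓕) (h : DB I 𝓕 e A k f) (hg : ∀ᶠ q in 𝓕, g q.1 q.2 = f q.1 q.2) :
    DB I 𝓕 e A k g := congr' ho (.of_forall fun _ _ => rfl) (.of_forall fun _ _ => rfl) h hg

theorem zero : ∀ k : ℕ, DB I 𝓕 e A k fun _ _ => 0
  | 0 => ⟨.of_forall fun _ => contMDiffAt_const, 0, by simp⟩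
  | k + 1 => ⟨⟨.of_forall fun _ => contMDiffAt_const, 0, by simp⟩, fun a => by
      simpa only [nab_const0] using zero k⟩

theorem add (ho : OB 𝓕) : ∀ {k : ℕ} {f g : ∀ n, M → V n}, DB I 𝓕 e A k f → DB I 𝓕 e A k g →
    DB I 𝓕 e A k fun n x => f n x + g n x
  | 0, _, _, h, h' => D0.add h h'
  | _ + 1, _, _, h, h' => ⟨h.1.add h'.1, fun a => (add ho (h.2 a) (h'.2 a)).congr ho
      ((h.sm.and h'.sm).mono fun _ hq => Wz78.nab_add a hq.1 hq.2)⟩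

theorem fsum (ho : OB 𝓕) {κ : Type*} (s : Finset κ) {w : κ → ∀ n, M → V n}
    (h : ∀ i ∈ s, DB I 𝓕 e A k (w i)) : DB I 𝓕 e A k fun n x => ∑ i ∈ s, w i n x := by
  classical
  induction s using Finset.induction_on with
  | empty => simpa using zero k
  | insert a s ha ih =>
    simp only [Finset.sum_insert ha]
    exact add ho (h a (by simp)) (ih fun i hi => h i (by simp [hi]))

/-- bounded parallel sections -/
theorem par (ho : OB 𝓕) (h0 : D0 I 𝓕 f) (h : ∀ᶠ q in 𝓕, ∀ a, nab I (e q.1) (A q.1) a (f q.1) q.2 = 0) :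
    ∀ k, DB I 𝓕 e A k f
  | 0 => h0
  | k + 1 => ⟨h0, fun a => (zero k).congr ho (h.mono fun _ hq => hq a)⟩

/-- the product rule -/
theorem app (ho : OB 𝓕) : ∀ {k : ℕ} {T : ∀ n, M → V n →L[ℝ] W n} {f : ∀ n, M → V n},
    DB I 𝓕 e (fun n => hom (A n) (B n)) k T → DB I 𝓕 e A k f →
    DB I 𝓕 e B k fun n x => T n x (f n x)
  | 0, _, _, h, h' => D0.app h h'
  | _ + 1, _, _, h, h' => ⟨h.1.app h'.1, fun a =>
      (add ho (app ho (h.2 a) h'.pred) (app ho h.pred (h'.2 a))).congr ho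
        ((h.sm.and h'.sm).mono fun _ hq => nab_hom a hq.1 hq.2)⟩

/-- a bounded parallel map -/
theorem map (ho : OB 𝓕) {T : ∀ n, M → V n →L[ℝ] W n} (h0 : D0 I 𝓕 T)
    (h : ∀ᶠ q in 𝓕, ∀ a, dv I (e q.1 a) (T q.1) q.2 +
      (B q.1 a q.2 ∘L T q.1 q.2 - T q.1 q.2 ∘L A q.1 a q.2) = 0) (hf : DB I 𝓕 e A k f) :
    DB I 𝓕 e B k fun n x => T n x (f n x) := app ho (par ho h0 h k) hf

/-- constant maps which intertwine the connections -/
theorem cmap (ho : OB 𝓕) (T : ∀ n, V n →L[ℝ] W n) {K : ℝ} (h0 : ∀ n, ‖T n‖ ≤ K)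
    (h : ∀ n a x v, B n a x (T n v) = T n (A n a x v)) (hf : DB I 𝓕 e A k f) :
    DB I 𝓕 e B k fun n x => T n (f n x) :=
  map ho (T := fun n _ => T n) ⟨.of_forall fun _ => contMDiffAt_const, K, .of_forall fun _ => h0 _⟩
    (.of_forall fun q a => by ext v; simp [dv_cst, h]) hf

theorem neg (ho : OB 𝓕) (hf : DB I 𝓕 e A k f) : DB I 𝓕 e A k fun n x => -f n x :=
  cmap ho (fun n => -ContinuousLinearMap.id ℝ (V n)) (K := 1)
    (fun _ => by rw [norm_neg]; exact ContinuousLinearMap.norm_id_le) (fun _ _ _ _ => by simp) hf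

theorem sub (ho : OB 𝓕) (h : DB I 𝓕 e A k f) (h' : DB I 𝓕 e A k g) :
    DB I 𝓕 e A k fun n x => f n x - g n x := by
  simpa only [sub_eq_add_neg] using add ho h (neg ho h')

/-- composition of fields of maps -/
theorem comp (ho : OB 𝓕) {S : ∀ n, M → V n →L[ℝ] W n} {T : ∀ n, M → U n →L[ℝ] V n}
    (hS : DB I 𝓕 e (fun n => hom (A n) (B n)) k S) (hT : DB I 𝓕 e (fun n => hom (C n) (A n)) k T) :
    DB I 𝓕 e (fun n => hom (C n) (B n)) k fun n x => S n x ∘L T n x :=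
  app ho (cmap ho (B := fun n => hom (hom (C n) (A n)) (hom (C n) (B n)))
    (fun n => ContinuousLinearMap.compL ℝ (U n) (V n) (W n)) (K := 1)
    (fun _ => ContinuousLinearMap.norm_compL_le _ _ _ _)
    (fun _ _ _ _ => by ext; simp [hom_apply]) hS) hT

theorem smul (ho : OB 𝓕) {φ : α → M → ℝ} (hφ : DB I 𝓕 e (z0 ι M fun _ => ℝ) k φ)
    (hf : DB I 𝓕 e A k f) : DB I 𝓕 e A k fun n x => φ n x • f n x :=
  app ho (cmap ho (B := fun n => hom (A n) (A n))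
    (fun n => ContinuousLinearMap.lsmul ℝ ℝ (E := V n)) (K := 1)
    (fun _ => ContinuousLinearMap.opNorm_lsmul_le) (fun _ _ _ _ => by ext; simp [hom_apply]) hφ) hf

/-- change of the connection -/
theorem twist (ho : OB 𝓕) : ∀ {k : ℕ} {f : ∀ n, M → V n},
    (∀ j < k, ∀ a, DB I 𝓕 e (fun n => hom (A' n) (A' n)) j fun n x => A' n a x - A n a x) →
    DB I 𝓕 e A k f → DB I 𝓕 e A' k f
  | 0, _, _, h => h
  | k + 1, f, hA, h => ⟨h.1, fun a => by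
      have hA' := fun j (hj : j < k) => hA j (hj.trans k.lt_succ_self)
      refine (add ho (twist ho hA' (h.2 a)) (app ho (hA k k.lt_succ_self a)
        (twist ho hA' h.pred))).congr ho (.of_forall fun q => ?_)
      simp only [nab, _root_.sub_apply]; abel⟩

theorem hom0 {T : ∀ n, M → V n →L[ℝ] W n} :
    DB I 𝓕 e (fun n => hom (z0 ι M V n) (z0 ι M W n)) k T ↔
      DB I 𝓕 e (z0 ι M fun n => V n →L[ℝ] W n) k T := by
  have : (fun n => hom (z0 ι M V n) (z0 ι M W n)) = z0 ι M fun n => V n →L[ℝ] W n := by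
    funext n a x; ext T v; simp [hom_apply]
  rw [this]

/-- passage to the trivial connection -/
theorem plain (ho : OB 𝓕)
    (hA : ∀ j < k, ∀ a, DB I 𝓕 e (z0 ι M fun n => V n →L[ℝ] V n) j fun n => A n a)
    (h : DB I 𝓕 e A k f) : DB I 𝓕 e (z0 ι M V) k f :=
  twist ho (fun j hj a => hom0.2 ((neg ho (hA j hj a)).congr ho
    (.of_forall fun _ => zero_sub _))) h

theorem z_comp (ho : OB 𝓕) {S : ∀ n, M → V n →L[ℝ] W n} {T : ∀ n, M → U n →L[ℝ] V n}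
    (hS : DB I 𝓕 e (z0 ι M fun n => V n →L[ℝ] W n) k S)
    (hT : DB I 𝓕 e (z0 ι M fun n => U n →L[ℝ] V n) k T) :
    DB I 𝓕 e (z0 ι M fun n => U n →L[ℝ] W n) k fun n x => S n x ∘L T n x :=
  hom0.1 (comp ho (hom0.2 hS) (hom0.2 hT))

theorem plain_hom (ho : OB 𝓕) : ∀ {k : ℕ} {T : ∀ n, M → V n →L[ℝ] W n},
    (∀ j < k, ∀ a, DB I 𝓕 e (z0 ι M fun n => V n →L[ℝ] V n) j fun n => A n a) →
    (∀ j < k, ∀ a, DB I 𝓕 e (z0 ι M fun n => W n →L[ℝ] W n) j fun n => B n a) →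
    DB I 𝓕 e (fun n => hom (A n) (B n)) k T → DB I 𝓕 e (z0 ι M fun n => V n →L[ℝ] W n) k T
  | 0, _, _, _, h => h
  | k + 1, T, hA, hB, h => ⟨h.1, fun a => by
      have hA' := fun j (hj : j < k) => hA j (hj.trans k.lt_succ_self)
      have hB' := fun j (hj : j < k) => hB j (hj.trans k.lt_succ_self)
      have h1 := plain_hom ho hA' hB' h.pred
      refine (sub ho (plain_hom ho hA' hB' (h.2 a)) (sub ho (z_comp ho (hB k k.lt_succ_self a) h1)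
        (z_comp ho h1 (hA k k.lt_succ_self a)))).congr ho (.of_forall fun q => ?_)
      simp only [nab, hom_apply, _root_.zero_apply, add_zero, add_sub_cancel_right]⟩

/-- from bounds of words -/
theorem of_words (he : ∀ᶠ q in 𝓕, ∀ a, ContMDiffAt I I.tangent ∞
      (fun x => (⟨x, e q.1 a x⟩ : TangentBundle I M)) q.2)
    (hA : ∀ᶠ q in 𝓕, ∀ a, SA I (A q.1 a) q.2) : ∀ {k : ℕ} {f : ∀ n, M → V n},
    (∀ᶠ q in 𝓕, SA I (f q.1) q.2) → (∀ v : List ι, v.length ≤ k →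
      ∃ K, ∀ᶠ q in 𝓕, ‖Dw I (e q.1) (A q.1) v (f q.1) q.2‖ ≤ K) → DB I 𝓕 e A k f
  | 0, _, hf, h => ⟨hf, h [] le_rfl⟩
  | _ + 1, _, hf, h => ⟨⟨hf, h [] (Nat.zero_le _)⟩, fun a => of_words he hA
      (by filter_upwards [he, hA, hf] with q h1 h2 h3
          exact (dv_smoothAt (h1 a) h3).add ((h2 a).app h3))
      fun v hv => h (a :: v) (Nat.succ_le_succ hv)⟩

theorem words : ∀ (v : List ι) {f : ∀ n, M → V n}, DB I 𝓕 e A v.length f →
    D0 I 𝓕 fun n => Dw I (e n) (A n) v (f n)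
  | [], _, h => h
  | a :: v, _, h => words v (h.2 a)

end DB

section pull
variable {E' : Type} [NormedAddCommGroup E'] [NormedSpace ℝ E'] {HM' : Type} [TopologicalSpace HM']
  {I' : ModelWithCorners ℝ E' HM'}

theorem dv_rel {M' : Type} [TopologicalSpace M'] [ChartedSpace HM' M'] {G : Type}
    [NormedAddCommGroup G] [NormedSpace ℝ G] {ψ : M → M'} {X : (x : M) → TangentSpace I x}
    {X' : (x : M') → TangentSpace I' x} {x : M} (hψ : ContMDiffAt I I' ∞ ψ x)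
    (h : mfderiv I I' ψ x (X x) = X' (ψ x)) {u : M' → G} (hu : SA I' u (ψ x)) :
    dv I X (fun y => u (ψ y)) x = dv I' X' u (ψ x) := by
  unfold dv
  rw [show (fun y => u (ψ y)) = u ∘ ψ from rfl,
    mfderiv_comp x (hu.mdifferentiableAt (by simp)) (hψ.mdifferentiableAt (by simp)), ← h]; rfl

/-- pull-back along a map which relates the frames -/
theorem DB.pull {M' : Type} [TopologicalSpace M'] [ChartedSpace HM' M'] [IsManifold I' ∞ M']
    (ho : OB 𝓕) {𝓕' : Filter (α × M')} {ψ : M → M'} (ht : Tendsto (Prod.map id ψ) 𝓕 𝓕')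
    {e' : α → ι → (x : M') → TangentSpace I' x} {A' : ∀ n, ι → M' → V n →L[ℝ] V n}
    (hψ : ∀ᶠ q in 𝓕, ContMDiffAt I I' ∞ ψ q.2 ∧
      ∀ a, mfderiv I I' ψ q.2 (e q.1 a q.2) = e' q.1 a (ψ q.2)) : ∀ {k : ℕ} {f : ∀ n, M' → V n},
    DB I' 𝓕' e' A' k f → DB I 𝓕 e (fun n a x => A' n a (ψ x)) k fun n x => f n (ψ x) := by
  have h0 : ∀ {f : ∀ n, M' → V n}, D0 I' 𝓕' f → D0 I 𝓕 fun n x => f n (ψ x) := fun h =>
    ⟨((ht.eventually h.1).and hψ).mono fun q hq => hq.1.comp q.2 hq.2.1,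
      h.2.imp fun _ hK => ht.eventually hK⟩
  intro k
  induction k with
  | zero => exact h0
  | succ k ih =>
    refine fun h => ⟨h0 h.1, fun a => (ih (h.2 a)).congr ho ?_⟩
    filter_upwards [ht.eventually h.sm, hψ] with q h1 h2
    exact congrArg (· + _) (dv_rel h2.1 (h2.2 a) h1)

/-- from bounds on a family of manifolds -/
theorem DB.of_rel {X : α → Type} [∀ n, TopologicalSpace (X n)] [∀ n, ChartedSpace HM' (X n)]
    [∀ n, IsManifold I' ∞ (X n)] (ho : OB 𝓕) {ψ : ∀ n, M → X n}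
    {e' : ∀ n, ι → (x : X n) → TangentSpace I' x} (se : ∀ n, SmV I' (e' n))
    {A' : ∀ n, ι → X n → V n →L[ℝ] V n} (sA : ∀ n a, An.Sm I' (A' n a))
    (hψ : ∀ᶠ q in 𝓕, ContMDiffAt I I' ∞ (ψ q.1) q.2 ∧
      ∀ a, mfderiv I I' (ψ q.1) q.2 (e q.1 a q.2) = e' q.1 a (ψ q.1 q.2)) :
    ∀ {k : ℕ} {f : ∀ n, X n → V n}, (∀ n, An.Sm I' (f n)) → (∀ v : List ι, v.length ≤ k →
      ∃ K, ∀ᶠ q in 𝓕, ‖Dw I' (e' q.1) (A' q.1) v (f q.1) (ψ q.1 q.2)‖ ≤ K) →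
    DB I 𝓕 e (fun n a x => A' n a (ψ n x)) k fun n x => f n (ψ n x) := by
  have h0 : ∀ {f : ∀ n, X n → V n}, (∀ n, An.Sm I' (f n)) →
      ∀ᶠ q in 𝓕, SA I (fun x => f q.1 (ψ q.1 x)) q.2 := fun h =>
    hψ.mono fun q hq => (h q.1 _).comp q.2 hq.1
  intro k
  induction k with
  | zero => exact fun hf h => ⟨h0 hf, h [] le_rfl⟩
  | succ k ih =>
    refine fun hf h => ⟨⟨h0 hf, h [] (Nat.zero_le _)⟩, fun a => (ih
      (fun n => sm_nab (se n) (sA n) (hf n) a) fun v hv =>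
        h (a :: v) (Nat.succ_le_succ hv)).congr ho ?_⟩
    filter_upwards [hψ] with q h2
    simp only [nab]
    rw [dv_rel h2.1 (h2.2 a) (hf q.1 _)]

end pull

end Crest.Agent.X212.Pat85
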