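import Crest.Agent.X212.Pat85.Coc

/-!
# X212, PATCH (helper85), part 5: one good family on an end, on a cylinder, on a punctured ball
-/

set_option autoImplicit false
set_option linter.unusedSectionVars false

open Set Filter Topology Metric
open scoped ContDiff Manifold

noncomputable section

namespace Crest.Agent.X212.Pat85
open Cmp73 Real

variable {α : Type} {E : Type} [NormedAddCommGroup E] [NormedSpace ℝ E] [FiniteDimensional ℝ E]
  {HM : Type} [TopologicalSpace HM] {I : ModelWithCorners ℝ E HM} [I.Boundaryless]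
  {M : Type} [TopologicalSpace M] [ChartedSpace HM M] [IsManifold I ∞ M]
  {𝔸 : Type} [NormedRing 𝔸] [NormedAlgebra ℝ 𝔸] [FiniteDimensional ℝ 𝔸]

variable (I) in
/-- an exhaustion function `τ` of `Ω` with inward slides `S t` onto the level `t` -/
structure Slide (Ω : Set M) (τ : M → ℝ) (S : ℝ → M → M) : Prop where
  op : IsOpen Ω
  sτ : ∀ x ∈ Ω, ContMDiffAt I 𝓘(ℝ, ℝ) ∞ τ x
  nn : ∀ x ∈ Ω, 0 ≤ τ x
  sS : ∀ x ∈ Ω, ∀ t, 1 ≤ t → t ≤ τ x →
    ContMDiffAt (𝓘(ℝ, ℝ).prod I) I ∞ (fun p : ℝ × M => S p.1 p.2) (t, x)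
  mem : ∀ x ∈ Ω, ∀ t, 1 ≤ t → t ≤ τ x → S t x ∈ Ω ∧ τ (S t x) = t
  self : ∀ x ∈ Ω, 0 < τ x → S (τ x) x = x

/-- the partition of unity of an exhaustion function -/
theorem pou_fun {Ω : Set M} {τ : M → ℝ} (hτ : ∀ x ∈ Ω, ContMDiffAt I 𝓘(ℝ, ℝ) ∞ τ x)
    (h0 : ∀ x ∈ Ω, 0 ≤ τ x) :
    ∃ χ : ℕ → M → ℝ, POU I χ (fun j => {x | x ∈ Ω ∧ τ x < j + 1}) Ω := by
  classical
  let ψ : ℕ → M → ℝ := fun j x => smoothTransition (j - 1 - τ x)
  have hs : ∀ j, ∀ x ∈ Ω, ContMDiffAt I 𝓘(ℝ, ℝ) ∞ (ψ j) x := fun j x hx =>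
    smoothTransition.contDiffAt.contMDiffAt.comp x (contMDiffAt_const.sub (hτ x hx))
  have h1 : ∀ (j : ℕ) x, τ x ≤ j - 2 → ψ j x = 1 := fun j x h =>
    smoothTransition.one_of_one_le (by linarith)
  have h2 : ∀ (j : ℕ) x, j - 1 ≤ τ x → ψ j x = 0 := fun j x h =>
    smoothTransition.zero_of_nonpos (by linarith)
  refine ⟨fun j x => ψ (j + 1) x - ψ j x, fun j x hx => (hs _ x hx).sub (hs _ x hx),
    fun x hx => ?_, fun x hx => ?_⟩
  · obtain ⟨n, hn⟩ := exists_nat_ge (τ x + 3)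
    refine ⟨(Finset.range n).filter fun j => τ x < j + 1,
      fun j hj => ⟨hx, (Finset.mem_filter.1 hj).2⟩, ?_⟩
    filter_upwards [(hτ x hx).continuousAt.eventually
      (Ioo_mem_nhds (sub_one_lt (τ x)) (lt_add_one (τ x)))] with y hy j hj
    by_cases h : τ x < j + 1
    · have h3 : (n : ℝ) ≤ j := by
        exact_mod_cast not_lt.1 fun h4 => hj (Finset.mem_filter.2 ⟨Finset.mem_range.2 h4, h⟩)
      rw [h1 _ y (by push_cast; linarith [hy.2]), h1 _ y (by linarith [hy.2]), sub_self]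
    · rw [h2 _ y (by push_cast; linarith [hy.1]), h2 _ y (by linarith [hy.1]), sub_self]
  · obtain ⟨n, hn⟩ := exists_nat_ge (τ x + 2)
    rw [finsum_eq_sum_of_support_subset (s := Finset.range n), Finset.sum_range_sub (fun j => ψ j x),
      h1 n x (by linarith), h2 0 x (by push_cast; linarith [h0 x hx]), sub_zero]
    intro j hj
    by_contra h
    have h3 : (n : ℝ) ≤ j := by exact_mod_cast not_lt.1 fun h4 => h (by simpa using h4)
    exact hj (by simp only; rw [h1 _ x (by push_cast; linarith), h1 _ x (by linarith), sub_self])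

namespace QB
variable (Q : QB I M 𝔸)

/-- a smooth projector onto `H`, and a bound of the unit spheres -/
structure Proj (pr : M → 𝔸 →L[ℝ] 𝔸) : Prop where
  sm : ContMDiff I 𝓘(ℝ, 𝔸 →L[ℝ] 𝔸) ∞ pr
  mem : ∀ x q, pr x q ∈ Q.H x
  fix : ∀ x, ∀ q ∈ Q.H x, pr x q = q
  bd : ∃ C, ∀ x, ∀ q ∈ Q.G x, ‖q‖ ≤ C

variable {Q} {pr : M → 𝔸 →L[ℝ] 𝔸} {Good : (α → M → 𝔸) → M → Prop} {𝒰 : Ultrafilter α}

/-- extension of unit sections along a squeezing map -/
theorem Proj.ext (hp0 : Q.Proj pr) {O₁ O₂ : Set M} {R : M → M}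
    (hR : ∀ x ∈ O₂, ContMDiffAt I I ∞ R x ∧ R x ∈ O₁ ∧ ∀ q ∈ Q.G (R x), 0 < Q.ν (pr x q))
    {v : M → 𝔸} (hv : Q.Sec O₁ v) :
    ∃ v', Q.Sec O₂ v' ∧ ∀ x ∈ O₁, R x = x → v' x = v x := by
  refine ⟨fun x => Q.N (pr x (v (R x))), fun x hx => ?_, fun x hx h => ?_⟩
  · obtain ⟨h1, h2, h3⟩ := hR x hx
    have h4 := h3 _ (hv _ h2).2
    exact ⟨(N_smoothAt h4).contMDiffAt.comp x ((hp0.sm x).clm_apply ((hv _ h2).1.comp x h1)),
      N_G (hp0.mem _ _) h4⟩
  · simp only [h, hp0.fix x _ (hv x hx).2.1, N_of_G (hv x hx).2]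

/-- near a point the projector does not kill the units of the nearby fibres -/
theorem Proj.near (hp0 : Q.Proj pr) (s : M) :
    ∃ O ∈ 𝓝 s, ∀ x ∈ O, ∀ y ∈ O, ∀ q ∈ Q.G y, 0 < Q.ν (pr x q) := by
  have := FiniteDimensional.proper_real 𝔸
  obtain ⟨C, hC⟩ := hp0.bd
  have hA : IsCompact (closedBall (0 : 𝔸) C ∩ {q | Q.ν q = 1}) :=
    (isCompact_closedBall _ _).inter_right (isClosed_eq Q.sν.continuous continuous_const)
  obtain ⟨δ, hδ, hW⟩ := hA.exists_thickening_subset_open (t := {q | 0 < Q.ν q})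
    (isOpen_lt continuous_const Q.sν.continuous) fun q hq => by simp [show Q.ν q = 1 from hq.2]
  have hε : 0 < δ / (2 * (|C| + 1)) := by positivity
  refine ⟨_, (hp0.sm s).continuousAt.eventually (ball_mem_nhds _ hε), fun x hx y hy q hq => hW
    (mem_thickening_iff.2 ⟨q, ⟨mem_closedBall_zero_iff.2 (hC y q hq), ν_G hq⟩, ?_⟩)⟩
  have h1 : dist (pr x) (pr y) < δ / (|C| + 1) := by
    refine (dist_triangle_right _ _ (pr s)).trans_lt ((add_lt_add hx hy).trans_eq ?_)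
    field_simp
    norm_num
  have h2 : pr x q - q = (pr x - pr y) q := by simp [hp0.fix y q hq.1]
  rw [dist_eq_norm, h2]
  rw [dist_eq_norm, lt_div_iff₀ (by positivity)] at h1
  refine ((pr x - pr y).le_opNorm q).trans_lt (lt_of_le_of_lt ?_ h1)
  exact mul_le_mul_of_nonneg_left (((hC y q hq).trans (le_abs_self C)).trans (by linarith))
    (norm_nonneg _)

variable [T2Space M] [SigmaCompactSpace M]

/-- **END** -/
theorem GS.slide (hS : Q.GS (𝒰 : Filter α) Good) (hp0 : Q.Proj pr) {Ω : Set M} {τ : M → ℝ}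
    {S : ℝ → M → M} (h : Slide I Ω τ S)
    (hT : ∀ x ∈ Ω, ∀ t, 1 ≤ t → t ≤ τ x → ∀ q ∈ Q.G (S t x), 0 < Q.ν (pr x q))
    (hK : ∀ c : ℝ, ∃ K, IsCompact K ∧ (∀ x ∈ Ω, τ x < c → x ∈ K) ∧
      ∀ x ∈ K, ∃ g, ∀ᶠ y in 𝓝 x, Good g y) : ∃ u, ∀ x ∈ Ω, Good u x := by
  classical
  have ho : ∀ c : ℝ, IsOpen {x | x ∈ Ω ∧ τ x < c} := fun c =>
    ContinuousOn.isOpen_inter_preimage (fun x hx => (h.sτ x hx).continuousAt.continuousWithinAt)
      h.op isOpen_Iio
  obtain ⟨χ, hχ⟩ := pou_fun h.sτ h.nn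
  refine hS.chain (O := fun j => {x | x ∈ Ω ∧ τ x < j + 2}) (fun j => ho _) (fun j => ho _)
    (fun j x hx => ⟨hx.1, by linarith [hx.2]⟩)
    (fun j x hx => ⟨hx.1, by push_cast; linarith [hx.2]⟩)
    (fun j x hx => ⟨hx.1, by push_cast; linarith [hx.2]⟩) h.op hχ (fun j => ?_) fun j v hv => ?_
  · obtain ⟨K, h1, h2, h3⟩ := hK (j + 2)
    obtain ⟨u, hu⟩ := hS.cpt h1 h3
    exact ⟨u, fun x hx => hu.self_of_nhdsSet x (h2 x hx.1 hx.2)⟩
  · let b : ℝ → ℝ := fun t => t + smoothTransition (t - (j + 1)) * (j + 1 - t)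
    have hb : ContDiff ℝ ∞ b := contDiff_id.add
      ((smoothTransition.contDiff.comp (contDiff_id.sub contDiff_const)).mul
        (contDiff_const.sub contDiff_id))
    have hj : (0 : ℝ) ≤ j := j.cast_nonneg
    have b1 : ∀ t : ℝ, t ≤ j + 1 → b t = t := fun t ht => by
      simp [b, smoothTransition.zero_of_nonpos (sub_nonpos.2 ht)]
    have b2 : ∀ t : ℝ, j + 1 ≤ t → 1 ≤ b t ∧ b t ≤ t ∧ b t < j + 2 := fun t ht => by
      have h1 := smoothTransition.nonneg (t - (j + 1))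
      have h2 := smoothTransition.le_one (t - (j + 1))
      refine ⟨by simp only [b]; nlinarith, by simp only [b]; nlinarith, ?_⟩
      rcases lt_or_ge t (j + 2) with h3 | h3
      · simp only [b]; nlinarith
      · simp only [b, smoothTransition.one_of_one_le (show 1 ≤ t - (j + 1) by linarith)]; linarith
    let R : M → M := fun x => if 0 < τ x then S (b (τ x)) x else x
    have r1 : ∀ x ∈ Ω, τ x < j + 1 → R x = x := fun x hx h1 => by
      simp only [R]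
      split_ifs with h2
      · rw [b1 _ h1.le, h.self x hx h2]
      · rfl
    refine (hp0.ext (R := R) (O₂ := {x | x ∈ Ω ∧ τ x < (j + 1 : ℕ) + 2})
      (fun x hx => ?_) hv).imp fun v' h1 =>
        ⟨h1.1, fun x hx => h1.2 x ⟨hx.1, by linarith [hx.2]⟩ (r1 x hx.1 hx.2)⟩
    rcases lt_or_ge (τ x) (j + 1) with h3 | h3
    · refine ⟨contMDiffAt_id.congr_of_eventuallyEq ?_, ?_⟩
      · filter_upwards [(ho _).mem_nhds ⟨hx.1, h3⟩] with y hy using r1 y hy.1 hy.2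
      · rw [r1 x hx.1 h3]
        exact ⟨⟨hx.1, by linarith⟩, fun q hq => by rw [hp0.fix x q hq.1, ν_G hq]; exact one_pos⟩
    · obtain ⟨c1, c2, c3⟩ := b2 _ h3
      have h4 : 0 < τ x := by linarith
      have h5 : ContMDiffAt I (𝓘(ℝ, ℝ).prod I) ∞ (fun y => (b (τ y), y)) x :=
        (hb.contMDiff.contMDiffAt.comp x (h.sτ x hx.1)).prodMk contMDiffAt_id
      refine ⟨(ContMDiffAt.comp x (f := fun y => (b (τ y), y)) (h.sS x hx.1 _ c1 c2)
        h5).congr_of_eventuallyEq ?_, ?_⟩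
      · filter_upwards [(h.sτ x hx.1).continuousAt.eventually (lt_mem_nhds h4)] with y hy
          using if_pos hy
      · rw [show R x = S (b (τ x)) x from if_pos h4]
        exact ⟨⟨(h.mem x hx.1 _ c1 c2).1, (h.mem x hx.1 _ c1 c2).2.trans_lt c3⟩,
          hT x hx.1 _ c1 c2⟩

section prod
variable {E' : Type} [NormedAddCommGroup E'] [NormedSpace ℝ E']
  {HM' : Type} [TopologicalSpace HM'] {J : ModelWithCorners ℝ E' HM'}
  {Y : Type} [TopologicalSpace Y] [ChartedSpace HM' Y] [CompactSpace Y]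

/-- **one good family on a product end** `j (Y × (0, ∞))`; `k` is the inverse of `j` -/
theorem GS.end_prod (hS : Q.GS (𝒰 : Filter α) Good) (hp0 : Q.Proj pr) {j : Y × ℝ → M}
    {k : M → Y × ℝ} (hj : ∀ p : Y × ℝ, 0 ≤ p.2 → ContMDiffAt (J.prod 𝓘(ℝ, ℝ)) I ∞ j p)
    (hk : ∀ p : Y × ℝ, 0 < p.2 → ContMDiffAt I (J.prod 𝓘(ℝ, ℝ)) ∞ k (j p) ∧ k (j p) = p)
    (ho : IsOpen (j '' (univ ×ˢ Ioi 0)))
    (hH : ∀ y s t, 0 < s → 0 < t → Q.H (j (y, s)) = Q.H (j (y, t)) ∧ Q.e (j (y, s)) = Q.e (j (y, t)))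
    (hg : ∀ p : Y × ℝ, 0 ≤ p.2 → ∃ g, ∀ᶠ y in 𝓝 (j p), Good g y) :
    ∃ u, ∀ p : Y × ℝ, 0 < p.2 → Good u (j p) := by
  have hsl : Slide I (j '' (univ ×ˢ Ioi 0)) (fun x => (k x).2) fun t x => j ((k x).1, t) := by
    refine ⟨ho, ?_, ?_, ?_, ?_, ?_⟩
    · rintro _ ⟨p, hp, rfl⟩
      exact contMDiffAt_snd.comp _ (hk p hp.2).1
    · rintro _ ⟨p, hp, rfl⟩
      rw [(hk p hp.2).2]
      exact le_of_lt hp.2
    · rintro _ ⟨p, hp, rfl⟩ t h1 _
      exact (hj ((k (j p)).1, t) (by linarith)).comp (t, j p)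
        ((contMDiffAt_fst.comp _ ((hk p hp.2).1.comp (t, j p) contMDiffAt_snd)).prodMk
          contMDiffAt_fst)
    · rintro _ ⟨p, hp, rfl⟩ t h1 _
      have h2 : (0 : ℝ) < t := by linarith
      exact ⟨⟨(_, t), ⟨mem_univ _, h2⟩, rfl⟩, by rw [(hk (_, t) h2).2]⟩
    · rintro _ ⟨p, hp, rfl⟩ _
      rw [(hk p hp.2).2]
  refine (hS.slide hp0 hsl ?_ fun c => ⟨j '' (univ ×ˢ Icc 0 c),
    (isCompact_univ.prod isCompact_Icc).image_of_continuousOn fun p hp =>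
      (hj p hp.2.1).continuousAt.continuousWithinAt, ?_, ?_⟩).imp
    fun u hu p hp => hu _ ⟨p, ⟨mem_univ _, hp⟩, rfl⟩
  · rintro _ ⟨p, hp, rfl⟩ t h1 _ q hq
    rw [(hk p hp.2).2] at hq
    have h2 : q ∈ Q.H (j p) := (hH p.1 t p.2 (by linarith) hp.2).1 ▸ hq.1
    rw [hp0.fix _ q h2, ν_G hq]
    exact one_pos
  · rintro _ ⟨p, hp, rfl⟩ h1
    rw [(hk p hp.2).2] at h1
    exact ⟨p, ⟨mem_univ _, le_of_lt hp.2, h1.le⟩, rfl⟩
  · rintro _ ⟨p, hp, rfl⟩
    exact hg p hp.2.1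

end prod

/-- **one good family on a whole cylinder** -/
theorem GS.cyl {𝔸 : Type} [NormedRing 𝔸] [NormedAlgebra ℝ 𝔸] [FiniteDimensional ℝ 𝔸]
    [CompactSpace M] {Q : QB (I.prod 𝓘(ℝ, ℝ)) (M × ℝ) 𝔸} {pr : M × ℝ → 𝔸 →L[ℝ] 𝔸}
    {Good : (α → M × ℝ → 𝔸) → M × ℝ → Prop} (hS : Q.GS (𝒰 : Filter α) Good) (hp0 : Q.Proj pr)
    (hH : ∀ y s t, Q.H (y, s) = Q.H (y, t))
    (hg : ∀ p, ∃ g, ∀ᶠ y in 𝓝 p, Good g y) : ∃ u, ∀ p, Good u p := by
  have hsl : Slide (I.prod 𝓘(ℝ, ℝ)) (univ : Set (M × ℝ)) (fun x => x.2 ^ 2)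
      fun t x => (x.1, √(t / x.2 ^ 2) * x.2) := by
    refine ⟨isOpen_univ, fun x _ => contMDiffAt_snd.pow 2, fun x _ => sq_nonneg _,
      fun x _ t h1 h2 => ?_, fun x _ t h1 h2 => ⟨mem_univ _, ?_⟩, fun x _ h => ?_⟩
    · have h3 : 0 < x.2 ^ 2 := by linarith
      have h4 : ContDiffAt ℝ ∞ (fun p : ℝ × ℝ => √(p.1 / p.2 ^ 2) * p.2) (t, x.2) :=
        ((contDiffAt_fst.div (contDiffAt_snd.pow 2) h3.ne').sqrt
          (div_pos (by linarith) h3).ne').mul contDiffAt_snd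
      exact (contMDiffAt_fst.comp _ contMDiffAt_snd).prodMk (h4.contMDiffAt.comp (t, x)
        (contMDiffAt_fst.prodMk_space (contMDiffAt_snd.comp _ contMDiffAt_snd)))
    · have h3 : 0 < x.2 ^ 2 := by linarith
      simp only
      rw [mul_pow, sq_sqrt (div_pos (by linarith) h3).le, div_mul_cancel₀ _ h3.ne']
    · rw [div_self h.ne', sqrt_one, one_mul]
  refine (hS.slide hp0 hsl (fun x _ t _ _ q hq => ?_) fun c =>
    ⟨univ ×ˢ Icc (-(|c| + 1)) (|c| + 1), isCompact_univ.prod isCompact_Icc,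
      fun x _ h => ⟨mem_univ _, abs_le.1 ?_⟩, fun x _ => hg x⟩).imp
    fun u hu p => hu p (mem_univ _)
  · have h2 : q ∈ Q.H x := hH x.1 _ x.2 ▸ hq.1
    rw [hp0.fix _ q h2, ν_G hq]
    exact one_pos
  · nlinarith [le_abs_self c, sq_abs x.2, abs_nonneg x.2, abs_nonneg c]

/-- **PUNC**: one good family on a punctured neighbourhood -/
theorem GS.punc (hS : Q.GS (𝒰 : Filter α) Good) (hp0 : Q.Proj pr) {s : M}
    (hg : ∀ᶠ x in 𝓝[≠] s, ∃ g, ∀ᶠ y in 𝓝 x, Good g y) : ∃ u, ∀ᶠ x in 𝓝[≠] s, Good u x := by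
  obtain ⟨O, hO, hOp⟩ := hp0.near s
  set φ := extChartAt I s with hφ
  set c := φ s with hc
  have hs := mem_chart_source HM s
  obtain ⟨r, hr, hB⟩ := Euclidean.nhds_basis_closedBall.eventually_iff.1
    ((ev_target (I := I) hs).and ((tend_symm (I := I) hs).eventually
      ((eventually_nhdsWithin_iff.1 hg).and hO)))
  let n : E → ℝ := fun z => ‖toEuclidean (z - c)‖
  have nB : ∀ z, n z ≤ r → z ∈ Euclidean.closedBall c r := fun z hz => by
    simpa [n, Euclidean.closedBall, Euclidean.dist, dist_eq_norm] using hz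
  have nc : Continuous n := (toEuclidean.continuous.comp (continuous_id.sub continuous_const)).norm
  have n0 : ∀ z, n z = 0 ↔ z = c := fun z => by
    simp only [n, norm_eq_zero, EmbeddingLike.map_eq_zero_iff, sub_eq_zero]
  have ns : ∀ z, 0 < n z → ContDiffAt ℝ ∞ n z := fun z hz =>
    (toEuclidean.contDiff.contDiffAt.comp z (contDiffAt_id.sub contDiffAt_const)).norm ℝ
      (norm_pos_iff.1 hz)
  have nm : ∀ (a : ℝ) z, 0 ≤ a → n (c + a • (z - c)) = a * n z := fun a z ha => by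
    simp only [n, add_sub_cancel_left, map_smul, norm_smul, Real.norm_of_nonneg ha]
  let Ω : Set M := φ.source ∩ φ ⁻¹' (n ⁻¹' Ioo 0 r)
  have hΩ : IsOpen Ω := (continuousOn_extChartAt s).isOpen_inter_preimage
    (isOpen_extChartAt_source s) (isOpen_Ioo.preimage nc)
  have sφ : ∀ x ∈ φ.source, ContMDiffAt I 𝓘(ℝ, E) ∞ φ x := fun x hx =>
    contMDiffAt_extChartAt' (by rwa [← extChartAt_source I])
  have sψ : ∀ z ∈ φ.target, ContMDiffAt 𝓘(ℝ, E) I ∞ φ.symm z := fun z hz =>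
    (contMDiffOn_extChartAt_symm s).contMDiffAt (extChartAt_target_mem_nhds' hz)
  let P : ℝ → E → E := fun t z => c + (r / n z / (t + 1)) • (z - c)
  have nP : ∀ t z, 1 ≤ t → 0 < n z → n (P t z) = r / (t + 1) := fun t z ht hz => by
    rw [nm _ _ (by positivity)]
    field_simp
  have Pr : ∀ t : ℝ, 1 ≤ t → r / (t + 1) < r := fun t ht => div_lt_self hr (by linarith)
  have Pt : ∀ t z, 1 ≤ t → 0 < n z → P t z ∈ φ.target := fun t z ht hz =>
    (hB (nB _ ((nP t z ht hz).trans_lt (Pr t ht)).le)).1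
  have hsl : Slide I Ω (fun x => r / n (φ x) - 1) fun t x => φ.symm (P t (φ x)) := by
    refine ⟨hΩ, fun x hx => ?_, fun x hx => ?_, fun x hx t h1 _ => ?_, fun x hx t h1 _ => ?_,
      fun x hx _ => ?_⟩
    · exact ((contDiffAt_const.div (ns _ hx.2.1) (ne_of_gt hx.2.1)).sub
        contDiffAt_const).contMDiffAt.comp x (sφ x hx.1)
    · exact sub_nonneg.2 ((one_le_div hx.2.1).2 hx.2.2.le)
    · have h2 : ContDiffAt ℝ ∞ (fun p : ℝ × E => P p.1 p.2) (t, φ x) :=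
        contDiffAt_const.add ((((contDiffAt_const.div (ns _ hx.2.1) (ne_of_gt hx.2.1)).comp (t, φ x)
          contDiffAt_snd).div (contDiffAt_fst.add contDiffAt_const)
            (by simp only; linarith)).smul (contDiffAt_snd.sub contDiffAt_const))
      have h3 : ContMDiffAt (𝓘(ℝ, ℝ).prod I) 𝓘(ℝ, ℝ × E) ∞ (fun p : ℝ × M => (p.1, φ p.2)) (t, x) :=
        contMDiffAt_fst.prodMk_space ((sφ x hx.1).comp (t, x) contMDiffAt_snd)
      have h4 := h2.contMDiffAt.comp (t, x) h3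
      exact (sψ _ (Pt t _ h1 hx.2.1)).comp (t, x) h4
    · have h2 := Pt t _ h1 hx.2.1
      have h3 := nP t _ h1 hx.2.1
      refine ⟨⟨φ.map_target h2, ?_⟩, ?_⟩
      · simp only [mem_preimage, φ.right_inv h2, h3]
        exact ⟨by positivity, Pr t h1⟩
      · simp only [φ.right_inv h2, h3]
        field_simp
        ring
    · have h2 : 0 < n (φ x) := hx.2.1
      simp only [P, sub_add_cancel]
      rw [div_self (by positivity), one_smul, add_sub_cancel, φ.left_inv hx.1]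
  have hΩO : ∀ x ∈ Ω, x ∈ O := fun x hx => by
    have := (hB (nB _ hx.2.2.le)).2.2
    rwa [φ.left_inv hx.1] at this
  refine (hS.slide hp0 hsl
    (fun x hx t h1 h2 => hOp x (hΩO x hx) _ (hΩO _ (hsl.mem x hx t h1 h2).1)) fun a =>
    ⟨φ.symm '' (Euclidean.closedBall c r ∩ n ⁻¹' Ici (r / (|a| + 1))),
      (Euclidean.isCompact_closedBall.inter_right (isClosed_Ici.preimage nc)).image_of_continuousOn
        ((continuousOn_extChartAt_symm s).mono fun z hz => (hB hz.1).1), fun x hx h => ?_,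
      ?_⟩).imp fun u hu => eventually_nhdsWithin_iff.2 ?_
  · refine ⟨φ x, ⟨nB _ hx.2.2.le, ?_⟩, φ.left_inv hx.1⟩
    have h2 : 0 < n (φ x) := hx.2.1
    rw [sub_lt_iff_lt_add, div_lt_iff₀ h2] at h
    rw [mem_preimage, mem_Ici, div_le_iff₀ (by positivity)]
    nlinarith [le_abs_self a]
  · rintro _ ⟨z, hz, rfl⟩
    refine (hB hz.1).2.1 fun h => ?_
    have h1 : z = c := by rw [← φ.right_inv (hB hz.1).1, h]
    have h2 : r / (|a| + 1) ≤ n z := hz.2
    rw [(n0 z).2 h1] at h2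
    exact absurd h2 (not_le.2 (by positivity))
  · have h1 : ∀ᶠ x in 𝓝 s, n (φ x) < r := by
      have := (nc.tendsto c).comp (tend_chart (I := I) hs)
      rw [(n0 c).2 rfl] at this
      exact this.eventually (gt_mem_nhds hr)
    filter_upwards [h1, extChartAt_source_mem_nhds (I := I) s] with x h2 h3 h4
    refine hu x ⟨h3, lt_of_le_of_ne (norm_nonneg _) fun h5 => h4 ?_, h2⟩
    exact φ.injOn h3 (mem_extChartAt_source s) ((n0 _).1 h5.symm)

end QB

end Crest.Agent.X212.Pat85
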