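import Crest.Agent.X212.Pat85.Lm
import Crest.Agent.X212.Wz78.Int

/-!
# X212, PATCH (helper85): Uhlenbeck compactness for modules with bounded curvature jets

`Fam.lim` : a family of modules with connections, defined off the closed countable set `S`, whose
curvature jets are bounded near every point, converges off `S` to a module on all of `M`.
-/

set_option autoImplicit false
set_option linter.unusedSectionVars false
open Set Filter Topology Function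
open scoped ContDiff Manifold InnerProductSpace

noncomputable section
namespace Crest.Agent.X212.Pat85

open An Cmp73 Sob92
open Wz78 (SA curv)
open Pj41 (OKOn ConnOn Iso0 Par0 CIso cjL)
open Std94 (hs Pix PMx Itx PM Kl)

variable {E : Type} [NormedAddCommGroup E] [NormedSpace ℝ E] [FiniteDimensional ℝ E]
  [MeasurableSpace E] [BorelSpace E]
  {HM : Type} [TopologicalSpace HM] {I : ModelWithCorners ℝ E HM} [I.Boundaryless]
  {M : Type} [TopologicalSpace M] [ChartedSpace HM M] [IsManifold I ∞ M] [MeasurableSpace M]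
  {ι lam α : Type} [Fintype ι] [Fintype lam] {x : M}
  {E' : Type} [NormedAddCommGroup E'] [InnerProductSpace ℝ E'] [FiniteDimensional ℝ E']

section gen
variable {l : Filter α} {U U' Ω Ω' : Set M}
  {F V L : Type} [NormedAddCommGroup F] [InnerProductSpace ℝ F] [FiniteDimensional ℝ F]
  [NormedAddCommGroup V] [InnerProductSpace ℝ V] [FiniteDimensional ℝ V]
  [NormedAddCommGroup L] [InnerProductSpace ℝ L] [FiniteDimensional ℝ L]

theorem dense_inter (hU : IsOpen U') (hΩ : IsOpen Ω) (h : U ⊆ closure Ω) (h' : U' ⊆ closure Ω') :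
    U ∩ U' ⊆ closure (Ω ∩ Ω') := fun _ hx =>
  closure_minimal ((inter_subset_inter_right _ h').trans hΩ.inter_closure) isClosed_closure
    (hU.closure_inter ⟨h hx.1, hx.2⟩)

theorem LM.cv_pi {J : α → F →L[ℝ] F} {ρ A : α → ι → M → F →L[ℝ] F}
    {j : α → M → L →L[ℝ] F →L[ℝ] F} {J₀ : F →L[ℝ] F} {ρ₀ A₀ : ι → M → F →L[ℝ] F}
    {j₀ : M → L →L[ℝ] F →L[ℝ] F} (h : LM I l U Ω J ρ j A J₀ ρ₀ j₀ A₀) (J' : V →L[ℝ] V)
    {ρ' : ι → M → V →L[ℝ] V} {j' : M → L →L[ℝ] V →L[ℝ] V} (sρ : ∀ a y, SA I (ρ' a) y)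
    (sj : ∀ y, SA I j' y) {v : α → M → F →L[ℝ] V} {v₀ : M → F →L[ℝ] V} (hv : EX I l U Ω v v₀) :
    EX I l U Ω (fun n y => Std94.Pi (J n) (fun a => ρ n a y) (j n y) J' (fun a => ρ' a y) (j' y)
      (v n y)) fun y => Std94.Pi J₀ (fun a => ρ₀ a y) (j₀ y) J' (fun a => ρ' a y) (j' y) (v₀ y) := by
  have := (exK I l U Ω).app (Kl.Pi (ρ := fun q a => oj (fun n => ρ n a) (ρ₀ a) q)
    (ρ' := fun q a => oj (fun _ => ρ' a) (ρ' a) q) h.J.kl (fun a => (h.ρ a).kl) h.j.kl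
    ((exK I l U Ω).const J') (fun a => (EX.fixed' (sρ a)).kl) (EX.fixed' sj).kl) hv.kl
  dsimp only [exK, oj, Option.elim] at this
  exact this

theorem cv_nrm {y : α → M → F →L[ℝ] V} {a : M → F →L[ℝ] V} (h : EX I l Ω Ω y a)
    (h1 : ∀ x ∈ Ω, hs (a x) (a x) = 16) :
    Cv I l Ω (fun n x => (√(hs (y n x) (y n x) / 16))⁻¹ • y n x) a ∧
      ∀ x ∈ Ω, ∀ᶠ q in l ×ˢ 𝓝 x, 0 < hs (y q.1 q.2) (y q.1 q.2) / 16 := by
  have h2 := Kl.hs h.kl h.kl
  dsimp only [exK, oj, Option.elim] at h2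
  refine ⟨((h2.cv.post (Φ := fun t => (√(t / 16))⁻¹) fun x hx => ?_).smul h.cv).congr
    (fun _ _ => .of_forall fun _ => rfl) fun x hx => by simp [h1 x hx], fun x hx =>
      ((h2.cv.tendsto hx).div_const 16).eventually (lt_mem_nhds (by simp [h1 x hx]))⟩
  filter_upwards [lt_mem_nhds (a := (0 : ℝ)) (b := hs (a x) (a x)) (by simp [h1 x hx])] with t ht
  have : 0 < t / 16 := by positivity
  exact ((contDiffAt_id.div_const 16).sqrt this.ne').inv (Real.sqrt_pos.2 this).ne'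

theorem nrm_eq {V' : Type} [NormedAddCommGroup V'] [InnerProductSpace ℝ V'] [FiniteDimensional ℝ V']
    {v : V →L[ℝ] V'} {g : F →L[ℝ] V} {y : F →L[ℝ] V'} (e1 : v ∘L g = y) (e2 : v ∘L g ∘L ad g = v)
    (n : 0 < hs y y / 16) : (√(hs v v / 16))⁻¹ • v = ((√(hs y y / 16))⁻¹ • y) ∘L ad g ∧
      0 < hs v v / 16 := by
  subst e1
  rw [hs_comp e2] at n ⊢
  exact ⟨by rw [ContinuousLinearMap.smul_comp, ContinuousLinearMap.comp_assoc, e2], n⟩

theorem Fra.pg {e : ι → (x : M) → TangentSpace I x} {W : ι → M → V →L[ℝ] V} {p : M → V →L[ℝ] V}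
    {A : ι → M → F →L[ℝ] F} {g : M → F →L[ℝ] V} (h : Fra I e W p A g x) : p x ∘L g x = g x := by
  rw [← h.rg, ContinuousLinearMap.comp_assoc, h.iso]; rfl

theorem Fra.dA {V' : Type} [NormedAddCommGroup V'] [InnerProductSpace ℝ V'] [FiniteDimensional ℝ V']
    {e : ι → (x : M) → TangentSpace I x} {W : ι → M → V →L[ℝ] V} {p : M → V →L[ℝ] V}
    {A : ι → M → F →L[ℝ] F} {g : M → F →L[ℝ] V} (h : Fra I e W p A g x) {w : M → F →L[ℝ] V'}
    (sw : SA I w x) {u : M → V →L[ℝ] V'} (hu : ∀ᶠ y in 𝓝 x, u y = w y ∘L ad (g y))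
    (W' : M → V' →L[ℝ] V') (a : ι) :
    cov I (e a) (W a) W' u x ∘L ad (u x) = cov I (e a) (A a) W' w x ∘L ad (w x) := by
  rw [cov_congr hu, cov_comp (A a) sw (sa_ad h.sg), h.par_ad, hu.self_of_nhds, ad_comp, ad_ad,
    ContinuousLinearMap.comp_zero, add_zero, ContinuousLinearMap.comp_assoc,
    ← ContinuousLinearMap.comp_assoc (ad (g x)), h.iso]
  rfl

end gen

variable (I) in
/-- families of modules with bounded curvature jets off `S` -/
structure Fam (l : Filter α) (S : Set M) (B : Base M ι lam) (G₀ : Geo I M ι lam)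
    (H : α → Geo I M ι lam) (m : α → Md M ι lam) (W : ∀ n, (m n).Cn) : Prop where
  hB : B.OK I
  P₀ : G₀.F.P = B.P
  P : ∀ n, (H n).F.P = B.P
  vc : VC I l (fun n => (H n).F.e) G₀.F.e
  Gam : ∀ a b k, Cv I l univ (fun n => (H n).F.Gam a b k) (G₀.F.Gam a b k)
  a : ∀ a, Cv I l univ (fun n => (H n).a a) (G₀.a a)
  loc : ∀ x ∉ S, ∀ᶠ q in l ×ˢ 𝓝 x,
    OKOn I B (m q.1) {q.2} ∧ ConnOn B (H q.1) (m q.1) (W q.1) {q.2}
  crv : ∀ a b, ∃ R : ∀ n, M → (m n).V →L[ℝ] (m n).V,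
    (∀ k x, DB I (iF l Sᶜ x) (fun n => (H n).F.e) (fun n => hom (W n) (W n)) k R) ∧
      ∀ x ∉ S, ∀ᶠ q in l ×ˢ 𝓝 x, R q.1 q.2 ∘L (m q.1).p q.2 =
        curv I (H q.1).F.e (H q.1).F.c (W q.1) a b q.2 ∘L (m q.1).p q.2
  ρ : ∀ b k x, DB I (iF l Sᶜ x) (fun n => (H n).F.e) (fun n => hom (W n) (W n)) k
    fun n => (m n).ρ b
  j : ∀ s k x, DB I (iF l Sᶜ x) (fun n => (H n).F.e) (fun n => hom (W n) (W n)) k
    fun n x => (m n).j x s

/-- frames on a chart and the limits of the structures -/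
structure Lo (m : α → Md M ι lam) where
  U : Set M
  Ω : Set M
  g : ∀ n, M → CL (Eu (Fin 16)) (m n).V
  A : α → ι → M → En (Fin 16)
  J : α → En (Fin 16)
  J₀ : En (Fin 16)
  ρ₀ : ι → M → En (Fin 16)
  j₀ : M → CL (Eu lam) (En (Fin 16))
  A₀ : ι → M → En (Fin 16)

variable {𝒰 : Ultrafilter α} {S : Set M} {B : Base M ι lam} {G₀ : Geo I M ι lam}
  {H : α → Geo I M ι lam} {m : α → Md M ι lam} {W : ∀ n, (m n).Cn}

abbrev Lo.mn (d : Lo m) (n : α) : Md M ι lam := fm (m n) (d.g n) (d.J n)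
abbrev Lo.m₀ (d : Lo m) : Md M ι lam := lm d.J₀ d.ρ₀ d.j₀

variable (𝒰 S H W) in
structure Lo.OK (E' : Type) [NormedAddCommGroup E'] [InnerProductSpace ℝ E'] (d : Lo m) : Prop where
  fr : Frs I 𝒰 (fun n => (H n).F.e) (V := fun n => (m n).V) W (fun n => (m n).p) (fun n => (m n).J)
    E' d.U d.Ω d.g d.A d.J
  sub : d.Ω ⊆ Sᶜ
  lm : LM I 𝒰 d.U d.Ω d.J (fun n => (d.mn n).ρ) (fun n => (d.mn n).j) d.A d.J₀ d.ρ₀ d.j₀ d.A₀

/-- the normalised projection onto the intertwiners -/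
def nz (m m' : Md M ι lam) (v : M → CL m.V m'.V) (x : M) : CL m.V m'.V :=
  (√(hs (Pix m m' x (v x)) (Pix m m' x (v x)) / 16))⁻¹ • Pix m m' x (v x)

theorem pc_of {G : Geo I M ι lam} (hG : G.F.P = B.P) {m : Md M ι lam} {W : m.Cn}
    (h : OKOn I B m {x}) (k : ConnOn B G m W {x}) : Pc I G.F.e W m.p m.J 16 x := by
  refine ⟨fun a => k.sm a x rfl, h.sp x rfl, fun a => skew_iff.2 (k.sk a x rfl), fun s hs => ?_,
    symm_iff.2 (h.psym x rfl), h.pidem x rfl, by rw [h.prk x rfl]; norm_num,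
    fun a => (add_sub_assoc _ _ _).trans (k.par a x rfl), fun a => k.J a x rfl, h.Jp x rfl⟩
  have h1 := G.F.P_ker x s hs
  rw [Finset.sum_congr rfl fun a _ => congrArg (s a • ·) (k.proj a x rfl).symm]
  simp only [← hG, Finset.smul_sum, smul_smul]
  rw [Finset.sum_comm]
  refine Finset.sum_eq_zero fun b _ => ?_
  rw [← Finset.sum_smul, ← zero_smul ℝ (W b x), ← h1 b]
  exact congrArg (· • _) (Finset.sum_congr rfl fun a _ => by rw [mul_comm, G.F.P_symm])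

theorem pix_frame (hB : B.OK I) {m m' : Md M ι lam} {g : M → CL (Eu (Fin 16)) m.V}
    {J : En (Fin 16)} (c : OKOn I B m {x}) (b : OKOn I B (fm m g J) {x})
    (i : Iso0 I m (fm m g J) {x} fun y => ad (g y)) (rg : g x ∘L ad (g x) = m.p x)
    (H' : PMx B m' x) (v : CL m.V m'.V) :
    Pix m m' x v ∘L g x = Pix (fm m g J) m' x (v ∘L g x) ∧
      Pix m m' x v ∘L g x ∘L ad (g x) = Pix m m' x v := by
  have i := i.symm c b
  simp only [ad_pj, ad_ad] at i
  have e := pi_comp (J' := m'.J) (ρ' := fun a => m'.ρ a x) (j' := m'.j x) (ρ := fun a => m.ρ a x)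
    (ρ₁ := fun a => (fm m g J).ρ a x) (i.J x rfl) (i.ρ x rfl) (i.j x rfl) v
  refine ⟨e, ?_⟩
  rw [rg]
  have k := Std94.itx_Pix hB (Std94.pmx_on c rfl) H' v
  generalize Pix m m' x v = A at k
  exact ContinuousLinearMap.ext k.pr

namespace Fam
variable (h : Fam I 𝒰 S B G₀ H m W)
include h

theorem dat : Dat I (V := fun n => (m n).V) 𝒰 S (fun n => (H n).F.e) G₀.F.e W (fun n => (m n).p)
    (fun n => (m n).J) 16 :=
  ⟨h.vc, fun x hx => (h.loc x hx).mono fun q a => pc_of (h.P q.1) a.1 a.2,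
    _, _, fun n => Wz78.frm (H n).F, h.crv⟩

theorem pt {U Ω : Set M} {g : ∀ n, M → CL (Eu (Fin 16)) (m n).V} {A : α → ι → M → En (Fin 16)}
    {J : α → En (Fin 16)} (fr : Frs I 𝒰 (fun n => (H n).F.e) (V := fun n => (m n).V) W
      (fun n => (m n).p) (fun n => (m n).J) E' U Ω g A J) (sub : Ω ⊆ Sᶜ) (y : M) (hy : y ∈ Ω) :
    ∀ᶠ q in (𝒰 : Filter α) ×ˢ 𝓝 y, OKOn I B (fm (m q.1) (g q.1) (J q.1)) {q.2} ∧
      ConnOn B (H q.1) (fm (m q.1) (g q.1) (J q.1)) (A q.1) {q.2} ∧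
      Iso0 I (m q.1) (fm (m q.1) (g q.1) (J q.1)) {q.2} fun y => ad (g q.1 y) :=
  ((ob_prod _ y).ev (p := fun n y => (OKOn I B (m n) {y} ∧ ConnOn B (H n) (m n) (W n) {y}) ∧
    Fra I (H n).F.e (W n) (m n).p (A n) (g n) y ∧ (m n).J ∘L g n y = g n y ∘L J n)
    ((h.loc y (sub hy)).and ((fr.fra y hy).and (fr.hJ y hy)))).mono fun q a => frame_md (h.P q.1) a

theorem lo {U Ω : Set M} {g : ∀ n, M → CL (Eu (Fin 16)) (m n).V} {A : α → ι → M → En (Fin 16)}
    {J : α → En (Fin 16)} (fr : Frs I 𝒰 (fun n => (H n).F.e) (V := fun n => (m n).V) W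
      (fun n => (m n).p) (fun n => (m n).J) E' U Ω g A J) (sub : Ω ⊆ Sᶜ) :
    ∃ d : Lo m, d.OK 𝒰 S H W E' ∧ d.U = U ∧ d.Ω = Ω := by
  have en : ∀ {T : ∀ n, M → (m n).V →L[ℝ] (m n).V}, (∀ k x, DB I (iF 𝒰 Sᶜ x) (fun n => (H n).F.e)
      (fun n => hom (W n) (W n)) k T) → ∃ T₀, EX I 𝒰 U Ω
        (fun n x => ad (g n x) ∘L T n x ∘L g n x) T₀ := fun hT =>
    fr.tch.ext h.vc fun k x hx => DB.endo (p := fun n => (m n).p) ob_iF (ev_iF_of fr.fra) (fun j _ => fr.db x hx j)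
      ((hT k x).mono (iF_mono sub))
  choose ρ₀ hρ using fun b => en (h.ρ b)
  choose j₁ hj using fun s => en (h.j s)
  obtain ⟨j₀, hj'⟩ := EX.of_apply (A := fun n => (fm (m n) (g n) (J n)).j) fun s =>
    (hj s).congr fun _ _ => .of_forall fun q => by
      simp only [ContinuousLinearMap.comp_apply, Pj41.cjL_apply, ad_pj, ad_ad]
  choose A₀ hA using fun a => fr.tch.ext h.vc fun k x hx => fr.db x hx k a
  obtain ⟨y, hy⟩ := fr.ne
  have hJ := ultra_lim 𝒰 (c := J) (C := 1) ((ev_at (p := fun n y =>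
    OKOn I B (fm (m n) (g n) (J n)) {y}) ((h.pt fr sub y hy).mono fun _ a => a.1)).mono
      fun n a => norm_iso_le (by
        rw [skew_iff.2 a.Jsk, ContinuousLinearMap.neg_comp, neg_eq_iff_eq_neg]; exact a.Jsq))
  exact ⟨⟨U, Ω, g, A, J, _, ρ₀, j₀, A₀⟩, ⟨fr, sub, .consts hJ, hρ, hj', hA⟩, rfl, rfl⟩

variable {d d' : Lo m} (k : d.OK 𝒰 S H W E')
include k

theorem ok₀ : OKOn I B d.m₀ d.U :=
  let ⟨_, hy⟩ := k.fr.ne
  okOn_pm (k.fr.tch.sub hy) (fun a => (k.lm.ρ a).sm) k.lm.j.sm fun _ hx =>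
    k.lm.pm k.fr.tch.dense hx h.hB.sP h.hB.sl fun y hy =>
      (h.pt k.fr k.sub y hy).mono fun _ a => Std94.pmx_on a.1 rfl

theorem conn₀ : ConnOn B G₀ d.m₀ d.A₀ d.U :=
  conn_pc (fun a => (k.lm.A a).sm) fun _ hx =>
    k.lm.pc k.fr.tch.dense hx k.fr.tch.op h.vc h.hB.sP h.Gam h.a fun y hy =>
      (h.pt k.fr k.sub y hy).mono fun _ a => pc_conn a.2.1 rfl

theorem tr (k' : d'.OK 𝒰 S H W E') : ∃ t, EX I 𝒰 (d.U ∩ d'.U) (d.Ω ∩ d'.Ω)
    (fun n x => ad (d.g n x) ∘L d'.g n x) t ∧ Iso0 I d'.m₀ d.m₀ (d.U ∩ d'.U) t ∧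
      Par0 G₀.F (m := d'.m₀) (m' := d.m₀) d'.A₀ d.A₀ (d.U ∩ d'.U) t := by
  obtain ⟨t, ht⟩ := k.fr.tch.ext₂ k'.fr.tch h.vc fun j x hx => DB.trans (k := j)
    (V := fun n => (m n).V) (W := W) (p := fun n => (m n).p) (g := d.g) (g' := d'.g) ob_iF
    (ev_iF_of fun y hy => k.fr.fra y hy.1) (ev_iF_of fun y hy => k'.fr.fra y hy.2)
    (fun j a => (k.fr.db x hx.1 j a).mono (iF_mono inter_subset_left))
    fun j a => (k'.fr.db x hx.2 j a).mono (iF_mono inter_subset_right)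
  have a := k.lm.mono (inter_subset_left (t := d'.U)) (inter_subset_left (t := d'.Ω))
  have a' := k'.lm.mono (inter_subset_right (s := d.U)) (inter_subset_right (s := d.Ω))
  have hd := k.fr.tch.dense₂ k'.fr.tch
  refine ⟨t, ht, iso_pi ht.sm fun x hx => a'.pi hd hx a ht fun y hy => ?_, fun x hx =>
    a'.par hd hx (k.fr.tch.op.inter k'.fr.tch.op) h.vc a ht fun y hy => ?_⟩
  · filter_upwards [h.pt k.fr k.sub y hy.1, h.pt k'.fr k'.sub y hy.2, h.loc y (k.sub hy.1)]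
      with q b b' c
    have := pi_iso ((b'.2.2.symm c.1 b'.1).trans b.2.2) rfl
    simpa only [ad_pj, ad_ad] using this
  · filter_upwards [k.fr.fra y hy.1, k'.fr.fra y hy.2] with q b b' c
    rw [cov_comp (W q.1 c) (sa_ad b.sg) b'.sg, b.par_ad, b'.par]
    simp

/-- the gauge transformations over one chart -/
theorem gauge {m' : Md M ι lam} (ok : m'.OK I B) {W' : m'.Cn} (sW : ∀ a, Sm I (W' a))
    {a : M → CL d.m₀.V m'.V} (ha : Iso0 I d.m₀ m' d.U a) (hp : Par0 G₀.F d.A₀ W' d.U a)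
    {v : ∀ n, M → CL (m n).V m'.V} (hv : Cv I 𝒰 d.Ω (fun n x => v n x ∘L d.g n x) a) :
    (∀ x ∈ d.Ω, ∀ᶠ q in (𝒰 : Filter α) ×ˢ 𝓝 x,
      Iso0 I (m q.1) m' {q.2} (nz (m q.1) m' (v q.1))) ∧ ∀ b, Cv I 𝒰 d.Ω (fun n x =>
        cov I ((H n).F.e b) (W n b) (W' b) (nz (m n) m' (v n)) x ∘L ad (nz (m n) m' (v n) x))
          fun _ => 0 := by
  have s := k.fr.tch.sub
  have op := k.fr.tch.op
  have p0 := fun x (hx : x ∈ d.Ω) => Std94.pmx_on (h.ok₀ k) (s hx)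
  have y1 : EX I 𝒰 d.Ω d.Ω (fun n x => Pix (d.mn n) m' x (v n x ∘L d.g n x)) a :=
    ((k.lm.mono s subset_rfl).cv_pi m'.J ok.sρ ok.sj ⟨fun x hx => ha.su x (s hx), hv⟩).congr_lim
      op subset_rfl fun x hx => (Std94.Pix_of_itx h.hB (p0 x hx) (Std94.pmx ok x)
        (itx_of_iso ha (s hx))).symm
  obtain ⟨w1, w2⟩ := cv_nrm y1 fun x hx => Std94.hs_of_iso (p0 x hx)
    (by rw [← Pj41.ad_trn]; exact (ha.iso x (s hx)).src)
  set w : α → M → CL d.m₀.V m'.V := fun n x => (√(hs (Pix (d.mn n) m' x (v n x ∘L d.g n x))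
    (Pix (d.mn n) m' x (v n x ∘L d.g n x)) / 16))⁻¹ • Pix (d.mn n) m' x (v n x ∘L d.g n x)
  have key : ∀ x ∈ d.Ω, ∀ᶠ q in (𝒰 : Filter α) ×ˢ 𝓝 x,
      nz (m q.1) m' (v q.1) q.2 = w q.1 q.2 ∘L ad (d.g q.1 q.2) ∧
        0 < hs (Pix (m q.1) m' q.2 (v q.1 q.2)) (Pix (m q.1) m' q.2 (v q.1 q.2)) / 16 := by
    intro x hx
    filter_upwards [h.pt k.fr k.sub x hx, h.loc x (k.sub hx), k.fr.fra x hx, w2 x hx]
      with q b c f n
    have e := pix_frame h.hB c.1 b.1 b.2.2 f.rg (Std94.pmx ok q.2) (v q.1 q.2)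
    exact nrm_eq e.1 e.2 n
  have key' := fun x hx => (ob_prod _ x).ev
    (p := fun n y => nz (m n) m' (v n) y = w n y ∘L ad (d.g n y)) ((key x hx).mono fun _ a => a.1)
  refine ⟨fun x hx => ?_, fun b => ?_⟩
  · filter_upwards [key x hx, key' x hx, h.loc x (k.sub hx), k.fr.fra x hx, (w1.mb 0 x hx).smooth]
      with q e e' c f sw
    have c1 := Std94.pmx_on c.1 rfl
    exact iso0_nrm h.hB c1 (Std94.pmx ok _) (v := fun y => Pix (m q.1) m' y (v q.1 y))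
      (Std94.itx_Pix h.hB c1 (Std94.pmx ok _) _) e.2 rfl
      ((sa_comp sw (sa_ad f.sg)).congr_of_eventuallyEq e')
  · refine ((((h.vc.dv op w1 b).add ((Cv.fixed' (sW b)).clm_comp w1)).sub
      (w1.clm_comp (k.lm.A b).cv)).clm_comp (w1.clm ad)).congr (fun x hx => ?_) fun x hx => ?_
    · filter_upwards [key' x hx, k.fr.fra x hx, (w1.mb 0 x hx).smooth] with q e f sw
      exact f.dA sw e (W' b) b
    · rw [show dv I (G₀.F.e b) a x + W' b x ∘L a x - a x ∘L d.A₀ b x = 0 from hp x (s hx) b,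
        ContinuousLinearMap.zero_comp]

end Fam

/-- **compactness modulo gauge** -/
theorem Fam.lim [T2Space M] [SecondCountableTopology M] (h : Fam I 𝒰 S B G₀ H m W)
    (hS : IsClosed S) (hc : S.Countable) (hM : CvxOn I E' (univ : Set M))
    (hd : 3 < Module.finrank ℝ E') :
    ∃ (m' : Md M ι lam) (W' : m'.Cn) (u : ∀ n, M → CL (m n).V m'.V), m'.OK I B ∧
      m'.IsConn B G₀ W' ∧ (∀ x ∉ S, ∀ᶠ q in (𝒰 : Filter α) ×ˢ 𝓝 x, Iso0 I (m q.1) m' {q.2} (u q.1)) ∧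
      ∀ b, Cv I 𝒰 Sᶜ (fun n x => cov I ((H n).F.e b) (W n b) (W' b) (u n) x ∘L ad (u n x))
        fun _ => 0 := by
  obtain ⟨K, _, U, Ω, g, A, J, h1, h2, h3⟩ :=
    h.dat.atlas (F := Eu (Fin 16)) hS hc hM hd (by simp)
  choose d k e1 e2 using fun i => h.lo (h1 i).1 (h1 i).2
  simp only [← e1] at h2
  simp only [← e2] at h3
  clear e1 e2 h1
  choose t t1 t2 t3 using fun i j => h.tr (k i) (k j)
  have c := fun i => (k i).fr.tch
  have := Manifold.locallyCompact_of_finiteDimensional (M := M) I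
  obtain ⟨m', a, W', _, ok, cn, -, a1, a2⟩ := Pj41.cfg_glue (Oi := fun i => (d i).U)
    (mi := fun i => (d i).m₀) (u := t) ⟨fun i => (c i).opU, h2, fun i => h.ok₀ (k i), t2,
      fun i j l x hi hj hl => (((t1 i j).mono inter_subset_left inter_subset_left).comp
        ((t1 j l).mono (inter_subset_inter_left _ inter_subset_right)
          (inter_subset_inter_left _ inter_subset_right))).eq
        ((t1 i l).mono (inter_subset_inter_left _ inter_subset_left)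
          (inter_subset_inter_left _ inter_subset_left)) ⟨⟨hi, hj⟩, hl⟩
        (dense_inter (c l).opU ((c i).op.inter (c j).op) ((c i).dense₂ (c j)) (c l).dense
          ⟨⟨hi, hj⟩, hl⟩) fun y hy =>
        (((k j).fr.fra y hy.1.2).and ((k l).fr.fra y hy.2)).mono fun q b => by
          rw [ContinuousLinearMap.comp_assoc, ← ContinuousLinearMap.comp_assoc ((d j).g _ _),
            b.1.rg, b.2.pg]⟩
    h.P₀ (fun i => h.conn₀ (k i)) t3 (Φi := fun _ _ => 0) (fun _ _ _ => contMDiffAt_const)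
    fun _ _ _ _ _ => map_zero _
  obtain ⟨χ, hχ⟩ := exists_sqOn (I := I) hS.isOpen_compl (fun i => (c i).op) h3
  have key := fun i => h.gauge (k i) ok cn.cc.sm (a1 i).1 (a1 i).2.1
    (v := fun n x => ∑ j, (χ j x * χ j x) • (a j x ∘L ad ((d j).g n x))) (by
      refine (Cv.sum (v := fun j x => (χ j x * χ j x) • a i x) (w := fun j n x =>
        (χ j x * χ j x) • (a j x ∘L ad ((d j).g n x) ∘L (d i).g n x)) fun j =>
          Cv.of_local fun x hx => ⟨{x}, rfl, ?_⟩).congr (fun _ _ => .of_forall fun q => ?_)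
            fun x hx => ?_
      · by_cases hj : x ∈ (d j).Ω
        · have o := (c j).op.inter (c i).op
          have s := Cv.fixed (l := (𝒰 : Filter α)) o fun y hy => hχ.sm j y ((k j).sub hy.1)
          refine (((s.mul s).smul ((Cv.fixed o fun y hy => (a1 j).1.su y ((c j).sub hy.1)).clm_comp
            (t1 j i).cv)).mono le_rfl (singleton_subset_iff.2 ⟨hj, hx⟩)).congr
            (fun _ _ => .of_forall fun _ => rfl) ?_
          rintro _ rfl
          rw [(a2 j i _ ((c j).sub hj) ((c i).sub hx)).2]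
        · have z := hχ.supp j x ((k i).sub hx) hj
          refine (Cv.const 0).congr ?_ ?_
          · rintro _ rfl
            exact (tendsto_snd.eventually z).mono fun q hq => by simp [hq]
          · rintro _ rfl
            simp [z.self_of_nhds]
      · simp only [ContinuousLinearMap.finsetSum_comp, ContinuousLinearMap.smul_comp,
          ContinuousLinearMap.comp_assoc]
      · simp only [← Finset.sum_smul, ← sq, hχ.sq x ((k i).sub hx), one_smul])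
  exact ⟨m', W', _, ok, cn, fun x hx => let ⟨i, hi⟩ := h3 x hx; (key i).1 x hi,
    fun b => Cv.of_local fun x hx => let ⟨i, hi⟩ := h3 x hx; ⟨_, hi, (key i).2 b⟩⟩

end Crest.Agent.X212.Pat85
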