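import Crest.Agent.X212.Cyl58.PsW
import Crest.Agent.X212.Sep15.Hh
import Crest.Agent.X212.Lw78.Ops

/-!
# X212, EN-HDG (helper85): the Green operator on one-forms
-/

set_option autoImplicit false
set_option linter.unusedSectionVars false
set_option linter.unusedSimpArgs false
open Set Filter Function MeasureTheory Module
open scoped ContDiff Manifold InnerProductSpace

noncomputable section
namespace Crest.Agent.X212.Pat85

open An An.Pre Sob92 Ell97 Rdc90 Cyl58 Sw Sep15.S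
open Map77 (P2 f2 s2 i1 i2)

section abs
variable {H : Type} [NormedAddCommGroup H] [InnerProductSpace ℝ H] {x y : H}

theorem le_add_orth (h : ⟪x, y⟫_ℝ = 0) : ‖x‖ ≤ ‖x + y‖ :=
  (abs_le_of_sq_le_sq' (by rw [norm_add_sq_real, h]; nlinarith [sq_nonneg ‖y‖]) (norm_nonneg _)).2

/-- the coefficient of the projection to a line -/
def prL (w : H) : H →ₗ[ℝ] ℝ := (‖w‖ ^ 2)⁻¹ • innerₗ H w

theorem prL_apply (w x : H) : prL w x = (‖w‖ ^ 2)⁻¹ * ⟪w, x⟫_ℝ := rfl

theorem orth_prL (w x : H) : ⟪x - prL w x • w, w⟫_ℝ = 0 := by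
  rw [inner_sub_left, real_inner_smul_left, real_inner_self_eq_norm_sq, prL_apply, real_inner_comm]
  by_cases h : w = 0
  · simp [h]
  · have := norm_ne_zero_iff.2 h
    field_simp; ring

theorem abs_prL (w x : H) : |prL w x| ≤ ‖w‖⁻¹ * ‖x‖ := by
  rw [prL_apply, abs_mul, abs_of_nonneg (by positivity)]
  refine (mul_le_mul_of_nonneg_left (abs_real_inner_le_norm _ _) (by positivity)).trans_eq ?_
  by_cases h : ‖w‖ = 0
  · simp [h]
  · field_simp

end abs

section gen
variable {E : Type} [NormedAddCommGroup E] [NormedSpace ℝ E] [FiniteDimensional ℝ E]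
  [MeasurableSpace E] [BorelSpace E]
  {HM : Type} [TopologicalSpace HM] {I : ModelWithCorners ℝ E HM} [I.Boundaryless]
  {M : Type} [TopologicalSpace M] [ChartedSpace HM M] [IsManifold I ∞ M]
  [MeasurableSpace M] {ι : Type} [Fintype ι]
  {V W : Type} [NormedAddCommGroup V] [InnerProductSpace ℝ V] [FiniteDimensional ℝ V]
  [NormedAddCommGroup W] [InnerProductSpace ℝ W] [FiniteDimensional ℝ W]
  [T2Space M] [BorelSpace M] [SecondCountableTopology M] [CompactSpace M]
  {F : Fr I M ι} {C C' : ℕ → ℝ}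

/-- the elliptic estimate orthogonally to the kernel -/
theorem hodO {A : Op M ι V W} (hF : F.Tame C) (hA : A.Good F C') (hc : A.CliffL F) :
    ∃ K, 0 ≤ K ∧ ∀ u : Sec I A.p, (∀ h : Sec I A.p, A.app F h.1 = 0 →
      ⟪F.toH 0 _ u, F.toH 0 _ h⟫_ℝ = 0) → F.nrm 1 u.1 ≤ K * F.nrm 0 (A.app F u.1) := by
  obtain ⟨K₀, p0, h0⟩ := hod hF hA hc 0
  obtain ⟨K, p, hK⟩ := gardS hF hA hc 0
  refine ⟨K * (1 + K₀), by positivity, fun u hu => (hK u).trans ?_⟩
  obtain ⟨h, e1, e2⟩ := h0 u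
  have := le_add_orth (y := -F.toH 0 _ h) (by rw [inner_neg_right, hu h e1, neg_zero])
  rw [← sub_eq_add_neg, ← map_sub, norm_toH, norm_toH] at this
  rw [mul_assoc]
  exact mul_le_mul_of_nonneg_left (by linarith [this.trans ((nrm_mono zero_le_one _).trans e2)]) p

variable (F)

/-- the differential -/
def dL : Sec I (triv M ℝ) →ₗ[ℝ] Sec I (P1 F) where
  toFun χ := dS F χ.2.1
  map_add' χ χ' := Subtype.ext (funext fun x => PiLp.ext fun k =>
    congrFun (F.D_add χ.2.1 χ'.2.1 k) x)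
  map_smul' r χ := Subtype.ext (funext fun x => PiLp.ext fun k => congrFun (F.D_smul χ.2.1 r k) x)

/-- the components -/
def jL : Sec I (P1 F) →ₗ[ℝ] ι → M → ℝ where
  toFun a k x := a.1 x k
  map_add' _ _ := rfl
  map_smul' _ _ := rfl

theorem jL_inj : Injective (jL F) := fun _ _ h =>
  Subtype.ext (funext fun x => PiLp.ext fun k => congrFun (congrFun h k) x)

theorem sm_jL (a : Sec I (P1 F)) (k : ι) : Sm I (jL F a k) := sm_comp a.2.1 k

/-- the divergence -/
def vL : Sec I (P1 F) →ₗ[ℝ] M → ℝ where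
  toFun a := Lw78.dv1 F (jL F a)
  map_add' a b := funext fun x => by
    simp only [Lw78.dv1, map_add, Pi.add_apply, F.D_add (sm_jL F a _) (sm_jL F b _), mul_add,
      Finset.sum_add_distrib]; ring
  map_smul' r a := funext fun x => by
    simp only [Lw78.dv1, map_smul, Pi.smul_apply, F.D_smul (sm_jL F a _), smul_eq_mul,
      RingHom.id_apply, Finset.mul_sum, mul_add, mul_left_comm r]

/-- the exterior derivative -/
def eL : Sec I (P1 F) →ₗ[ℝ] M → Fm (ι × ι) ℝ where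
  toFun a := Lw78.da F (jL F a)
  map_add' a b := funext fun x => PiLp.ext fun s => by
    simp only [Lw78.da, map_add, Pi.add_apply, F.D_add (sm_jL F a _) (sm_jL F b _), mul_add,
      Finset.sum_add_distrib, PiLp.add_apply]; ring
  map_smul' r a := funext fun x => PiLp.ext fun s => by
    simp only [Lw78.da, map_smul, Pi.smul_apply, F.D_smul (sm_jL F a _), smul_eq_mul,
      RingHom.id_apply, Finset.mul_sum, mul_sub, mul_left_comm r, PiLp.smul_apply]

theorem app1' (a : Sec I (P1 F)) (x : M) :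
    (A1 F).app F a.1 x = i1 _ _ (vL F a x) + i2 _ _ ((√2)⁻¹ • eL F a x) := app1 F a x

variable {F}

theorem eL_GG {w : Sec I (P1 F)} (h : w ∈ GG F) : eL F w = 0 := funext fun x => PiLp.ext fun s => by
  obtain ⟨u, hu, e⟩ := h
  have := d1_om F hu s.1 s.2 x
  rwa [← show jL F w = om F u from funext fun k => funext (e k)] at this

theorem dL_mem (χ : Sec I (triv M ℝ)) : dL F χ ∈ GG F := one_smul ℝ (dL F χ) ▸ dS_mem F χ.2.1 1

theorem ip_dL (χ : Sec I (triv M ℝ)) {b : Sec I (P1 F)} (hb : vL F b = 0) :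
    ⟪F.toH 0 _ b, F.toH 0 _ (dL F χ)⟫_ℝ = 0 := by
  rw [inner_toH, ← Wz78.integral_dvg (F := F) (f := fun k x => χ.1 x * jL F b k x)
    (fun k => χ.2.1.mul (sm_jL F b k)) fun _ => hcs]
  refine integral_congr_ae (.of_forall fun x => ?_)
  have := congrArg (χ.1 x * ·) (congrFun hb x)
  simp only [vL, Lw78.dv1, LinearMap.coe_mk, AddHom.coe_mk, Finset.mul_sum, Pi.zero_apply, mul_zero,
    mul_add, Finset.sum_add_distrib, Pre.D_def] at this
  simp only [Wz78.dvg, fun k => Met55.dv_mul (X := F.e k) (χ.2.1 x) (sm_jL F b k x),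
    Finset.sum_add_distrib, mul_left_comm _ (χ.1 x), add_assoc, this, add_zero, PiLp.inner_apply]
  rfl

theorem dL_eq_zero {χ : Sec I (triv M ℝ)} (h : vL F (dL F χ) = 0) : dL F χ = 0 :=
  toH_inj F 0 _ ((inner_self_eq_zero.1 (ip_dL χ h)).trans (map_zero _).symm)

theorem nrm_le_sum (a : Sec I (P1 F)) : F.nrm 0 a.1 ≤ ∑ k, F.nrm 0 (jL F a k) := by
  refine nrm_le_of_sq (Finset.sum_nonneg fun _ _ => nrm_nonneg _ _) (le_trans (le_of_eq ?_)
    (Finset.sum_sq_le_sq_sum_of_nonneg fun _ _ => nrm_nonneg _ _))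
  simp only [nrm_sq, N2, n2, PiLp.norm_sq_eq_of_L2]
  exact integral_finsetSum _ fun k _ =>
    ((sm_jL F a k).continuous.norm.fun_pow 2).integrable_of_hasCompactSupport hcs

theorem sum_nrm_le (k : ℕ) (a : Sec I (P1 F)) :
    ∑ i, F.nrm k (jL F a i) ≤ Fintype.card ι * F.nrm k a.1 := by
  rw [← nsmul_eq_mul, ← Finset.card_univ]
  exact Finset.sum_le_card_nsmul _ _ _ fun i _ => nrm_pj _ k a.2.1 i

variable [PreconnectedSpace M]

theorem const_of_dL {χ : Sec I (triv M ℝ)} (h : dL F χ = 0) (x y : M) : χ.1 x = χ.1 y :=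
  const_of_D F.toPre χ.2.1 (fun a x => congrFun (congrFun (congrArg (jL F) h) a) x) x y

/-- the Green operator -/
theorem exists_G (hF : F.Tame C) : ∃ (G : Sec I (P1 F) →ₗ[ℝ] Sec I (triv M ℝ)) (K : ℝ), 0 ≤ K ∧
    ∀ a, vL F (a - dL F (G a)) = 0 ∧ F.nrm 1 (G a).1 ≤ K * F.nrm 0 a.1 := by
  obtain ⟨C', hA⟩ := (hq F).good0 hF
  obtain ⟨K, p, hK⟩ := hodO hF hA (hq F).cliff0
  have ap : ∀ χ : Sec I (triv M ℝ), (d0 F (fun _ _ => 0) (triv M ℝ) (P1 F)).app F χ.1 =
      (dL F χ).1 := fun χ => funext fun x => ((hq F).app0 χ.2.1 (fun _ => rfl) x).trans (by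
        simp only [Wz78.nab_zero]; exact (dS F χ.2.1).2.2.2 x)
  obtain ⟨g, hg⟩ := ((dL F).coprod (vL F).ker.subtype).exists_rightInverse_of_surjective
    (LinearMap.range_eq_top.2 fun a => by
      obtain ⟨χ, h, k⟩ := coul0 hF a
      exact ⟨(⟨χ, mem_triv h hcs⟩, ⟨a - dS F h, funext k⟩), add_sub_cancel (dS F h) a⟩)
  let o : Sec I (triv M ℝ) := ⟨fun _ => 1, mem_triv contMDiff_const hcs⟩
  have d1 : dL F o = 0 := jL_inj F (funext fun k => congrFun (funext fun _ => dv_const _) k)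
  let g1 := LinearMap.fst ℝ _ _ ∘ₗ g
  refine ⟨g1 - (prL (F.toH 0 _ o) ∘ₗ F.toH 0 _ ∘ₗ g1).smulRight o, K, p, fun a => ?_⟩
  have e1 : vL F (a - dL F (g1 a)) = 0 := by
    rw [show a - dL F (g1 a) = (g a).2 from sub_eq_of_eq_add' (LinearMap.congr_fun hg a).symm]
    exact (g a).2.2
  set χ := (g1 - (prL (F.toH 0 _ o) ∘ₗ F.toH 0 _ ∘ₗ g1).smulRight o) a with hχ
  have e2 : dL F χ = dL F (g1 a) := by simp [hχ, d1]
  refine ⟨e2 ▸ e1, (hK χ fun h hh => ?_).trans (mul_le_mul_of_nonneg_left ?_ p)⟩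
  · have k := const_of_dL (Subtype.ext ((ap h).symm.trans hh))
    rcases isEmpty_or_nonempty M with _ | ⟨⟨x⟩⟩
    · rw [Subsingleton.elim h 0, map_zero, inner_zero_right]
    rw [show h = h.1 x • o from Subtype.ext (funext fun y => (k y x).trans (mul_one _).symm)]
    show ⟪F.toH 0 (triv M ℝ) χ, F.toH 0 (triv M ℝ) (h.1 x • o)⟫_ℝ = 0
    rw [map_smul, inner_smul_right, hχ, LinearMap.sub_apply, LinearMap.smulRight_apply, map_sub,
      map_smul]
    exact mul_eq_zero_of_right _ (orth_prL _ _)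
  · have := le_add_orth ((real_inner_comm _ _).trans (ip_dL (g1 a) e1))
    rwa [← map_add, add_sub_cancel, norm_toH, norm_toH, ← e2, ← ap] at this

omit [PreconnectedSpace M] in
theorem gau_zpow {u : M → ℂ} (hu : Gau I u) (n : ℤ) : Gau I (fun x => u x ^ n) ∧
    ∀ k x, om F (fun x => u x ^ n) k x = n * om F u k x := by
  have h0 : ∀ x, u x ≠ 0 := fun x h => by simpa [h] using hu.2 x
  induction n using Int.induction_on with
  | zero => exact ⟨⟨by simpa using contMDiff_const, by simp⟩, fun k x => by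
      simp [om, D_def, dv_const]⟩
  | succ n ih =>
    simp only [zpow_add_one₀ (h0 _)]
    exact ⟨(gau_mul F ih.1 hu).1, fun k x => by
      rw [(gau_mul F ih.1 hu).2, ih.2]; push_cast; ring⟩
  | pred n ih =>
    simp only [zpow_sub_one₀ (h0 _), fun x => inv_eq_of_mul_eq_one_right (mul_star_one (hu.2 x))]
    exact ⟨(gau_mul F ih.1 (gau_star F hu).1).1, fun k x => by
      rw [(gau_mul F ih.1 (gau_star F hu).1).2, ih.2, (gau_star F hu).2]; push_cast; ring⟩

end gen

end Crest.Agent.X212.Pat85
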