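import Crest.Agent.X212.Pat85.HdA
import Crest.Agent.X212.End23.Nek

/-!
# X212, EN-HDG (helper85): the Hodge decomposition of one-forms on the cross-section
-/

set_option autoImplicit false
set_option linter.unusedSectionVars false
open Set Filter Function MeasureTheory Module
open scoped ContDiff Manifold InnerProductSpace

noncomputable section
namespace Crest.Agent.X212.Pat85

open An An.Pre Sob92 Ell97 Rdc90 Cyl58 Sw Sep15.S
open Map77 (P2 f2 s2 i1 i2)

open End23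

variable {κ lam ν : Type} [Fintype κ] [Fintype lam] [Fintype ν] [DecidableEq ν]

/-- **EN-HDG** -/
theorem hdgStmt : HdgStmt κ lam ν := fun e u H hu => by
  obtain ⟨C, hF⟩ := tame3 e
  obtain ⟨G, K, p, hG⟩ := exists_G hF
  obtain ⟨C', hA⟩ := good1 e.D.F hF
  obtain ⟨K', p', hK⟩ := hodO hF hA (cliff1 e.D.F)
  obtain ⟨r, hr⟩ := (jL e.D.F).exists_leftInverse_of_injective (LinearMap.ker_eq_bot.2 (jL_inj _))
  replace hr : ∀ a, r (jL e.D.F a) = a := LinearMap.congr_fun hr
  let o := sec1 e.D.F (sm_om e.D.F hu.1) (om_P e.D.F hu.1)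
  let η := o - dL e.D.F (G o)
  let T := e.D.F.toH 0 (P1 e.D.F)
  have cl : ∀ h, eL e.D.F h = 0 → e.Clo (jL e.D.F h) := fun h hh => ⟨sm_jL _ h, fun k y =>
    (idx_ap ..).symm.trans (congrArg (· k) (h.2.2.2 y)), fun i j y =>
      sub_eq_zero.1 (congrArg (· (i, j)) (congrFun hh y))⟩
  have eη : eL e.D.F η = 0 := eL_GG (sub_mem ⟨u, hu.1, fun _ _ => rfl⟩ (dL_mem _))
  have n0 : (0 : ℝ) ≤ Fintype.card κ := Nat.cast_nonneg _
  refine ⟨⟨Submodule.subtype _ ∘ₗ G ∘ₗ r, prL (T η) ∘ₗ T ∘ₗ r, jL _ η,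
    K + ‖T η‖⁻¹ + Fintype.card κ + Fintype.card κ * K', by positivity, cl η eη,
    ⟨⟨_, (G o).2.1, rfl⟩, or_iff_not_imp_left.2 fun k => ?_⟩, fun a _ => (G _).2.1,
    fun χ hχ => ?_, fun a ha => ?_⟩⟩
  · have : ‖T η‖ ≠ 0 := fun h => k (by
      obtain h := norm_eq_zero.1 h
      exact ⟨by rw [toH_inj _ _ _ (h.trans (map_zero _).symm), map_zero], by
        ext; simp [h, prL_apply]⟩)
    simp only [LinearMap.comp_apply, hr, prL_apply, real_inner_self_eq_norm_sq]
    field_simp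
  · let χ' : Sec e.Y.I (triv e.Y.M ℝ) := ⟨χ, mem_triv hχ hcs⟩
    rw [show End23.d0 e χ = jL _ (dL _ χ') from rfl]
    simp only [LinearMap.comp_apply, hr, prL_apply]
    obtain ⟨x⟩ : Nonempty e.Y.M := inferInstance
    refine ⟨mul_eq_zero_of_right _ (ip_dL χ' (hG o).1), (G (dL _ χ')).1 x - χ x, fun y => ?_⟩
    have := const_of_dL (dL_eq_zero ((map_sub (dL e.D.F) _ _).symm ▸ (hG (dL _ χ')).1)) x y
    exact (show χ x - _ = χ y - _ from this) |> fun h => by
      simp only [Submodule.subtype_apply]; linarith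
  obtain ⟨b, rfl⟩ : ∃ b, jL e.D.F b = a := ⟨sa ha, rfl⟩
  simp only [LinearMap.comp_apply, hr, Submodule.subtype_apply]
  set w := b - dL _ (G b) - prL (T η) (T b) • η with hw
  rw [show jL e.D.F b - End23.d0 e (G b).1 - prL (T η) (T b) • jL e.D.F η = jL _ w from rfl]
  have v0 : vL _ w = 0 := by rw [hw, map_sub, map_smul, (hG b).1, (hG o).1, smul_zero, sub_zero]
  have o1 : ⟪T w, T η⟫_ℝ = 0 := by
    rw [hw, sub_right_comm, map_sub, inner_sub_left, map_sub, map_smul, orth_prL, real_inner_comm,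
      ip_dL _ (hG o).1, sub_zero]
  have o2 : ⟪T w, T o⟫_ℝ = 0 := by
    rw [← sub_add_cancel o (dL _ (G o)), map_add, inner_add_right, o1, ip_dL _ v0, add_zero]
  have l0 : e.D.F.nrm 0 w.1 ≤ e.D.F.nrm 0 b.1 := by
    have := le_add_orth (x := T w) (y := T (dL _ (G b) + prL (T η) (T b) • η)) (by
      rw [map_add, map_smul, inner_add_right, inner_smul_right, o1, ip_dL _ v0]; simp)
    rwa [← map_add, hw, sub_sub, sub_add_cancel, ← sub_sub, ← hw, norm_toH, norm_toH] at this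
  have l1 := nrm_le_sum b
  have q0 := nrm_nonneg (F := e.D.F.toPre) 0 b.1
  have q1 := nrm_nonneg (F := e.D.F.toPre) 0 (eL _ b)
  have q2 : 0 ≤ ‖T η‖⁻¹ := by positivity
  have q3 := mul_nonneg n0 p'
  have l2 := hK w fun h hh => by
    obtain ⟨n, u', hu', sp⟩ := H.sp
    obtain ⟨χ, s, hχ, k⟩ := sp _ (cl h (funext fun x => by
      simpa using congrArg (s2 _ _) ((app1' _ h x).symm.trans (congrFun hh x))))
    choose m ξ hξ k' using fun i => hu.2 _ (hu' i)
    rw [show h = dL _ ⟨χ, mem_triv hχ hcs⟩ +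
      ∑ i, s i • ((m i : ℝ) • o + dL _ ⟨ξ i, mem_triv (hξ i) hcs⟩) from
        jL_inj _ (funext fun j => funext fun y => (k j y).trans ?_)]
    · simp only [map_add, map_sum, map_smul, inner_add_right, inner_sum, inner_smul_right,
        ip_dL _ v0, show ⟪e.D.F.toH 0 _ w, e.D.F.toH 0 _ o⟫_ℝ = 0 from o2]
      simp
    simp only [map_add, map_sum, map_smul, Pi.add_apply, Finset.sum_apply, Pi.smul_apply]
    refine congrArg _ (Finset.sum_congr rfl fun i _ => congrArg _ ?_)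
    have := (gau_mul e.D.F (gau_zpow (F := e.D.F) hu.1 (m i)).1 (gau_exp e.D.F (hξ i)).1).2 j y
    rw [(gau_zpow hu.1 _).2, (gau_exp _ (hξ i)).2] at this
    exact (congrArg (fun f => om e.D.F f j y) (funext (k' i))).trans this
  have l3 : e.D.F.nrm 0 ((A1 e.D.F).app e.D.F w.1) ≤ 1 * e.D.F.nrm 0 (eL _ b) := by
    have e1 : eL _ w = eL _ b := by
      rw [hw, map_sub, map_sub, map_smul, eη, eL_GG (dL_mem _), smul_zero, sub_zero, sub_zero]
    refine nrm0_le _ ?_ zero_le_one fun x => ?_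
    · exact (show Sm e.Y.I (eL _ b) from fun x => sa_lp fun s => ((e.D.F.sm_D (sm_jL _ b _) _ x).sub
        (e.D.F.sm_D (sm_jL _ b _) _ x)).sub (Wz78.SA.sum _ fun k _ =>
          Wz78.SA.mul (e.D.F.c_sm _ _ _ x) (sm_jL _ b _ x))).continuous
    rw [app1', v0, e1, Pi.zero_apply, map_zero, zero_add]
    refine (WithLp.norm_toLp_snd ..).trans_le ?_
    show ‖(√2)⁻¹ • eL e.D.F b x‖ ≤ _
    rw [norm_smul, norm_inv, Real.norm_of_nonneg (Real.sqrt_nonneg _)]
    exact mul_le_mul_of_nonneg_right (inv_le_one_of_one_le₀ (Real.one_le_sqrt.2 one_le_two))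
      (norm_nonneg _)
  refine ⟨(hG b).2.trans (mul_le_mul (by linarith) l1 q0 (by positivity)),
    (abs_prL _ _).trans (mul_le_mul (by linarith) ((norm_toH _ _ _ _).trans_le l1) (norm_nonneg _)
      (by positivity)), (sum_nrm_le 0 w).trans (mul_le_mul (by linarith) (l0.trans l1)
        (nrm_nonneg _ _) (by positivity)), (sum_nrm_le 1 w).trans ?_⟩
  refine (mul_le_mul_of_nonneg_left (l2.trans (mul_le_mul_of_nonneg_left l3 p')) n0).trans ?_
  rw [one_mul, ← mul_assoc]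
  exact mul_le_mul_of_nonneg_right (by linarith) q1

end Crest.Agent.X212.Pat85
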