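import Crest.Agent.X212.End3.Dec
import Crest.Agent.X212.Grp76.Gm
import Crest.Agent.X212.Qab60.End

/-!
# X212 / NT-R HSA (helper85), part 1: abelian variations in a family
-/

set_option autoImplicit false
set_option linter.unusedSectionVars false
noncomputable section
open scoped Manifold ContDiff Topology InnerProductSpace
open MeasureTheory Set Function Filter
open Crest.Agent.R208.F (Ext)

namespace Crest.Agent.X212.Pat85
open An Sob92 Prm93 Mod61 Qab60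
open Grp76 (Nice hs_iff)
open Num57 (V1 V2)
open Wz78 (idx_apply)
open Dr59 (dM)

variable {E : Type} [NormedAddCommGroup E] [NormedSpace ℝ E] [FiniteDimensional ℝ E]
  [MeasurableSpace E] [BorelSpace E]
  {HM : Type} [TopologicalSpace HM] {I : ModelWithCorners ℝ E HM} [I.Boundaryless]
  {M : Type} [TopologicalSpace M] [ChartedSpace HM M] [IsManifold I ∞ M]
  [MeasurableSpace M] [T2Space M] [BorelSpace M] [SecondCountableTopology M]
  {ι : Type} [Fintype ι] {lam : Type} [Fintype lam]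
  {T : Type} [NormedAddCommGroup T] [NormedSpace ℝ T]
  {𝔉 : Fam I M ι lam T} (h : 𝔉.OK) {t : T} (ht : t ∈ 𝔉.Q) {Ω : Set M}

theorem tn_apply {α V : Type} [NormedAddCommGroup V] [NormedSpace ℝ V] (u : Fm α ℝ) (ξ : V)
    (a : α) : tn u ξ a = u a • ξ := rfl

variable (𝔉 Ω) in
/-- the bundle `T₀ ⊗ g` over `Ω` -/
abbrev pΩ (m : Md M ι lam) (x : M) : CL (Fm ι m.A) (Fm ι m.A) :=
  idx (fun a b => 𝔉.B.P a b x) (Ω.indicator m.pg x)

include h

/-- a parallel unit section is bounded with all derivatives -/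
theorem cb_xi {o : Ref 𝔉} {r : ℕ} (y : Pnt o r) (hΩ : IsClopen Ω) {ξ : M → o.m.A}
    (R : Loc8.Rd (𝔉.G y.t).F o.m (o.W y.t y.α) Ω ξ) : 𝔉.F0.Cb ξ := by
  have w : ∀ a, 𝔉.F0.Cb (o.W y.t y.α a) := fun a => by
    have := Cb_clm (Map77.oa a) (Map77.cb_uy h y)
    simp only [Map77.uy, Map77.oa_base] at this
    exact this
  have := cb_ind_of_ode (F := 𝔉.F0.toPre) (v := ξ) (C := 4)
    (L := fun a x => -∑ b, 𝔉.Si y.t x a b • Wz78.adcL (o.W y.t y.α b x)) hΩ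
    (fun x hx => ((R.sm x hx).of_le (by simp)).contMDiffWithinAt) (fun x hx a => ?_)
    (fun a => Cb_neg (Cb_sum _ fun b _ => Cb_smul ((h.sSi a b).cb _ y.ht) (Cb_clm _ (w b))))
    fun x hx => ?_
  · rwa [indicator_eq_self.2 fun x hx => by_contra fun k => hx (R.off x k)] at this
  · rw [(Map77.mix_inv h y.ht).D, neg_apply, sum_apply, ← Finset.sum_neg_distrib]
    exact Finset.sum_congr rfl fun b _ => (congrArg (𝔉.Si y.t x a b • ·)
      (eq_neg_of_add_eq_zero_left (R.par x hx b))).trans (smul_neg _ _)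
  · exact (abs_le_of_sq_le_sq' ((Abel74.norm_sq o.ok (R.mem x hx) (R.sq x hx)).trans
      (by norm_num)).le (by norm_num)).2

include ht

/-- square integrability for the frame at `t` -/
theorem memLp_G {N : Type} [NormedAddCommGroup N] [NormedSpace ℝ N] {u : M → N}
    (hu : Nice 𝔉.F0.toPre u) : MemLp u 2 (𝔉.G t).F.μ := by
  obtain ⟨ρ, h1, h2⟩ := h.dens
  obtain ⟨C, hC⟩ := h1.cb t ht
  refine MemLp.of_measure_le_smul (c := ENNReal.ofReal (C 0)) ENNReal.ofReal_ne_top ?_ (hu.2 0)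
  rw [(h2 t ht).2, ← withDensity_const]
  exact withDensity_mono (.of_forall fun x => ENNReal.ofReal_le_ofReal
    ((le_abs_self _).trans (CB_bound (hC.2 0) x)))

theorem nice_D {N : Type} [NormedAddCommGroup N] [NormedSpace ℝ N] {u : M → N}
    (hu : Nice 𝔉.F0.toPre u) (a : ι) : Nice 𝔉.F0.toPre ((𝔉.G t).F.D a u) := by
  rw [(h.mix t ht).D]
  exact .sum _ fun b => .bil (ContinuousLinearMap.lsmul ℝ ℝ) ((h.sS a b).cb t ht) (hu.D b)

theorem nice_dd {u : M → V1 ι} (hu : Nice 𝔉.F0.toPre u) : Nice 𝔉.F0.toPre (dd (𝔉.G t).F u) := by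
  have k : ∀ a, Nice 𝔉.F0.toPre fun x => u x a := fun a => hu.clm (Grp76.pj ℝ a)
  refine .fm fun s => ?_
  simp only [dd_apply hu.sm]
  exact ((nice_D h ht (k _) _).sub (nice_D h ht (k _) _)).sub (.sum _ fun b =>
    .bil (ContinuousLinearMap.mul ℝ ℝ) ((h.sc _ _ b).cb t ht) (k b))

variable {m : Md M ι lam} {ξ : M → m.A} (hξ : 𝔉.F0.Cb ξ) (mem : ∀ x ∈ Ω, ξ x ∈ m.gS x)
  (off : Off Ω ξ)
include hξ mem off

/-- `u ⊗ ξ` as a variation -/
theorem hs_tn {u : M → V1 ι} (hu : Nice 𝔉.F0.toPre u) :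
    (fun x => idx (𝔉.Si t x) (.id ℝ _) (tn (u x) (ξ x))) ∈ Hs 𝔉.F0.toPre (pΩ 𝔉 Ω m) := by
  refine (hs_iff h).2 ⟨.app (Std94.Kl.idx (K := Std94.cbK 𝔉.F0.toPre)
    (fun a b => (h.sSi a b).cb t ht) (Cb_const _)) (.fm fun a => .bil'
      (ContinuousLinearMap.lsmul ℝ ℝ) (hu.clm (Grp76.pj ℝ a)) hξ), fun x => PiLp.ext fun a => ?_⟩
  have k : Ω.indicator m.pg x (ξ x) = ξ x := by
    by_cases hx : x ∈ Ω
    · rw [indicator_of_mem hx, Wz78.pg_of_mem (mem x hx)]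
    · rw [off x hx, map_zero]
  simp only [idx_apply, ContinuousLinearMap.id_apply, tn_apply, map_sum, map_smul, k,
    Finset.smul_sum, smul_smul]
  rw [Finset.sum_comm]
  simp only [← mul_assoc, ← Finset.sum_smul, ← Finset.sum_mul, h.PSi t ht]

omit hξ mem off in
theorem S_Si (a : M → Ext E) (x : M) : idx (𝔉.S t x) (.id ℝ _)
    (idx (𝔉.Si t x) (.id ℝ _) (tn (c1 (𝔉.G t).F a x) (ξ x))) = tn (c1 (𝔉.G t).F a x) (ξ x) := by
  refine PiLp.ext fun i => ?_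
  conv_rhs => rw [tn_apply, ← hp_c1 a x, Num57.hp, Num57.p1_apply, (h.G t ht).P]
  simp only [idx_apply, ContinuousLinearMap.id_apply, tn_apply, Finset.smul_sum, smul_smul]
  rw [Finset.sum_comm]
  simp only [← mul_assoc, ← Finset.sum_smul, ← Finset.sum_mul, h.SSi t ht]

/-- **the abelian part of a variation** -/
theorem hs_split (nm : ∀ x ∈ Ω, ⟪ξ x, ξ x⟫_ℝ = 16) {α : M → Fm ι m.A}
    (hα : α ∈ Hs 𝔉.F0.toPre (pΩ 𝔉 Ω m)) : ∃ a, ∃ α' ∈ Hs 𝔉.F0.toPre (pΩ 𝔉 Ω m),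
      Fo I 1 a ∧ Off Ω a ∧ MemLp (c1 (𝔉.G t).F a) 2 (𝔉.G t).F.μ ∧ Sq (𝔉.G t).F (dM I a) ∧
      (∀ z, idx (𝔉.S t z) (.id ℝ _) (α' z) = tn (c1 (𝔉.G t).F a z) (ξ z)) ∧
      ∀ z j, ⟪(α - α') z j, ξ z⟫_ℝ = 0 := by
  obtain ⟨n, pr⟩ := (hs_iff h).1 hα
  let u : M → V1 ι := fun x => WithLp.toLp 2 fun j => ∑ b, 𝔉.S t x j b * (⟪α x b, ξ x⟫_ℝ / 16)
  have hu : Nice 𝔉.F0.toPre u := .fm fun j => .sum _ fun b =>
    .bil (ContinuousLinearMap.mul ℝ ℝ) ((h.sS j b).cb t ht) (by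
      simp only [div_eq_inv_mul]
      exact ((n.clm (Grp76.pj _ b)).bil' (innerSL ℝ) hξ).clm
        ((16 : ℝ)⁻¹ • ContinuousLinearMap.id ℝ ℝ))
  have hp : ∀ x, Num57.hp (𝔉.G t).F x (u x) = u x := fun x => PiLp.ext fun j => by
    rw [Num57.hp, Num57.p1_apply, (h.G t ht).P]
    simp only [u, Finset.mul_sum]
    rw [Finset.sum_comm]
    simp only [← mul_assoc, ← Finset.sum_mul, h.PS t ht]
  have e : c1 (𝔉.G t).F (g1 (𝔉.G t).F u) = u := funext fun x => (c1_g1 u x).trans (hp x)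
  refine ⟨g1 (𝔉.G t).F u, _, hs_tn h ht hξ mem off hu, fo_g1 hu.sm, fun x hx => g1_of_zero
    (PiLp.ext fun j => by simp [u, off x hx]), e.symm ▸ memLp_G h ht hu, ?_,
    fun z => by simpa only [e] using S_Si h ht (g1 (𝔉.G t).F u) z, fun z j => ?_⟩
  · rw [Sq, c2_dM_g1 hu.sm hp]
    exact memLp_G h ht (nice_dd h ht hu)
  · by_cases hz : z ∈ Ω
    · have k : ∑ b, 𝔉.B.P j b z * ⟪α z b, ξ z⟫_ℝ = ⟪α z j, ξ z⟫_ℝ := by
        conv_rhs => rw [← pr z, idx_apply, indicator_of_mem hz, sum_inner]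
        simp only [real_inner_smul_left, Wz78.inner_pg, Wz78.pg_of_mem (mem z hz)]
      simp only [Pi.sub_apply, PiLp.sub_apply, inner_sub_left, idx_apply, tn_apply, sum_inner,
        ContinuousLinearMap.id_apply, real_inner_smul_left, nm z hz, u, Finset.sum_mul,
        Finset.mul_sum, mul_assoc, div_mul_cancel₀ _ (show (16 : ℝ) ≠ 0 by norm_num)]
      rw [Finset.sum_comm, ← k, sub_eq_zero]
      simp only [← mul_assoc, ← Finset.sum_mul, h.SiS t ht]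
    · rw [off z hz, inner_zero_right]

end Crest.Agent.X212.Pat85
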