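import Crest.Agent.X212.Cht98.Nek
import Crest.Agent.X212.Int54.Cyl
import Crest.Agent.X212.Eqv71.Rot

/-!
# X212, L4U (helper85): the `L⁴` inequality along isometries and conformal changes of cylinders
-/

set_option autoImplicit false
set_option linter.unusedSectionVars false
open Set Filter Topology Function MeasureTheory Module
open scoped ContDiff Manifold InnerProductSpace

noncomputable section
namespace Crest.Agent.X212.Pat85

open An Sob92 Cht98 Cyf70
open Met55 (Co atx VF FAt ofFrame rj rjb)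
open Dr59 (mf)

variable {E : Type} [NormedAddCommGroup E] [NormedSpace ℝ E] [FiniteDimensional ℝ E]
  [MeasurableSpace E] [BorelSpace E]
  {HM : Type} [TopologicalSpace HM] {I : ModelWithCorners ℝ E HM} [I.Boundaryless]
  {M : Type} [TopologicalSpace M] [ChartedSpace HM M] [IsManifold I ∞ M]
  [MeasurableSpace M] [BorelSpace M] [T2Space M] [SecondCountableTopology M]
  {ι κ : Type} [Fintype ι] [Fintype κ]
  {E' : Type} [NormedAddCommGroup E'] [NormedSpace ℝ E'] [FiniteDimensional ℝ E']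
  [MeasurableSpace E'] [BorelSpace E']
  {HM' : Type} [TopologicalSpace HM'] {I' : ModelWithCorners ℝ E' HM'} [I'.Boundaryless]
  {M' : Type} [TopologicalSpace M'] [ChartedSpace HM' M'] [IsManifold I' ∞ M']
  [MeasurableSpace M'] [BorelSpace M'] [T2Space M'] [SecondCountableTopology M']

theorem cpw {N : Type} [TopologicalSpace N] {f : N → ℝ} (h : Continuous f) (n : ℕ) :
    Continuous fun x => f x ^ n := h.pow n

theorem ip_one (F : Pre I M ι) {f : M → ℝ} (hf : Sm I f) (hc : HasCompactSupport f) :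
    F.ip 1 f f = ∫ x, f x ^ 2 ∂F.μ + ∫ x, ∑ a, F.D a f x ^ 2 ∂F.μ := by
  rw [integral_finsetSum _ fun a _ => (cpw (F.sm_D hf a).continuous 2).integrable_of_hasCompactSupport
    ((F.hcs_D hc a).mono fun x hx h => hx (by simp [h]))]
  simp only [Pre.ip, real_inner_self_eq_norm_sq, Real.norm_eq_abs, sq_abs]

theorem co_sq {φ : M → M'} {x : M} {k : ι → VF I M} {e : κ → VF I' M'}
    (hφ : MDifferentiableAt I I' φ x) (h : Co (fun i => mf I I' φ x (atx k x i)) (atx e (φ x)))
    {f : M' → ℝ} (hf : MDifferentiableAt I' 𝓘(ℝ, ℝ) f (φ x)) :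
    ∑ a, dv I' (e a) f (φ x) ^ 2 = ∑ i, dv I (k i) (fun y => f (φ y)) x ^ 2 := by
  simp only [sq]
  simp only [Eqv71.dv_comp_map hφ hf]
  exact (h (mf I' 𝓘(ℝ, ℝ) f (φ x) : E' →L[ℝ] ℝ) (mf I' 𝓘(ℝ, ℝ) f (φ x) : E' →L[ℝ] ℝ)).symm

/-- the `L⁴` inequality along an isometry -/
theorem l4On_co {F : Pre I M ι} {F' : Pre I' M' κ} (hF : F.IsVol) (hF' : F'.IsVol)
    (hd : finrank ℝ E' = finrank ℝ E) {φ : OpenPartialHomeomorph M M'}
    (h1 : ContMDiffOn I I' ∞ φ φ.source)
    (hc : ∀ x ∈ φ.source, Co (fun a => mf I I' φ x (atx F.e x a)) (atx F'.e (φ x))) {S : ℝ}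
    (H : L4On F univ S) : L4On F' φ.target S := fun f hf hfc hs => by
  have hμ := Int54.map_vol_ph hd hF' hF h1 hc
  have ha : Adm φ (tsupport f) := Adm.of_isCompact hfc.isCompact hs
  have sm : ∀ x ∈ φ.source, ContMDiffAt I I' ∞ φ x := fun x hx =>
    h1.contMDiffAt (φ.open_source.mem_nhds hx)
  have s1 : Sm I (pull φ f) := fun x => by
    by_cases hx : x ∈ φ.source
    · exact ((hf _).comp x (sm x hx)).congr_of_eventuallyEq (pull_eventuallyEq hx f)
    · exact contMDiffAt_const.congr_of_eventuallyEq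
        (notMem_tsupport_iff_eventuallyEq.1 fun h' => hx (ha.tsupport_pull h').1)
  have key : ∀ {g : M' → ℝ} {g' : M → ℝ}, Continuous g → (∀ y ∉ tsupport f, g y = 0) →
      (∀ x ∉ tsupport (pull φ f), g' x = 0) → (∀ x ∈ φ.source, g' x = g (φ x)) →
      ∫ x, g' x ∂F.μ = ∫ y, g y ∂F'.μ := fun {g g'} hg h0 h0' e => by
    rw [← setIntegral_eq_integral_of_forall_compl_eq_zero (s := φ.target) (μ := F'.μ)
      fun y hy => h0 y fun k => hy (hs k), ← hμ,
      integral_map (φ.continuousOn.aemeasurable φ.open_source.measurableSet) hg.aestronglyMeasurable,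
      ← setIntegral_eq_integral_of_forall_compl_eq_zero (s := φ.source) (μ := F.μ)
        fun x hx => h0' x fun k => hx (ha.tsupport_pull k).1]
    exact setIntegral_congr_fun φ.open_source.measurableSet e
  have h5 := H _ s1 (hcs_pull hfc hs) (subset_univ _)
  have z : ∀ {N : Type} [TopologicalSpace N] {u : N → ℝ} (n : ℕ), ∀ y ∉ tsupport u, u y ^ (n + 1) = 0 :=
    fun n y hy => by simp [image_eq_zero_of_notMem_tsupport hy]
  rwa [ip_one F s1 (hcs_pull hfc hs), key (cpw hf.continuous 4) (z 3) (z 3) fun x hx => by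
      rw [pull_of_mem hx], key (cpw hf.continuous 2) (z 1) (z 1) fun x hx => by rw [pull_of_mem hx],
    key (g := fun y => ∑ a, F'.D a f y ^ 2)
      (continuous_finsetSum _ fun a _ => cpw (F'.sm_D hf a).continuous 2)
      (fun y hy => by simp [Pre.D_def, dv_eq_zero_of_notMem hy])
      (fun y hy => by simp [Pre.D_def, dv_eq_zero_of_notMem hy]) fun x hx => by
        simp only [Pre.D_def, dv_congr (pull_eventuallyEq hx f)]
        exact (co_sq ((sm x hx).mdifferentiableAt (by simp)) (hc x hx)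
          ((hf _).mdifferentiableAt (by simp))).symm, ← ip_one F' hf hfc] at h5

section conf
variable [CompactSpace M] (F : Fr I M ι) {ρ h : ℝ → ℝ}

/-- the conformally changed frame of the cylinder -/
def cfe (ρ : ℝ → ℝ) (i : Option ι) : VF (IC I) (M × ℝ) := fun q => (ρ q.2)⁻¹ • ce F.e i q

theorem cfe_fAt (hρ : ContDiff ℝ ∞ ρ) (h0 : ∀ t, 0 < ρ t) (q : M × ℝ) : FAt (cfe F ρ) q :=
  ⟨fun i => Met55.VAt.smul (sm_snd (hρ.inv fun t => (h0 t).ne') q) ((cylP F.toPre).sm i q),
    (Met55.pre_sp (cylP F.toPre) q).of_range fun i =>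
      ⟨ρ q.2, i, (smul_inv_smul₀ (h0 _).ne' (atx (ce F.e) q i)).symm⟩⟩

/-- **conformal invariance and Hardy's inequality** -/
theorem l4_conf (hF : F.IsVol) (hd : finrank ℝ E = 3) (hρ : ContDiff ℝ ∞ ρ) (h0 : ∀ t, 0 < ρ t)
    (hh : ContDiff ℝ ∞ h) (b1 : ∀ t, deriv ρ t ^ 2 ≤ ρ t ^ 2) (b2 : ∀ t, |h t| ≤ ρ t ^ 2)
    (b3 : ∀ t, ρ t ^ 2 ≤ deriv h t + ρ t ^ 4) {S : ℝ} (H : L4On (cylP F.toPre) univ S) :
    L4On (ofFrame (cfe F ρ) (cfe_fAt F hρ h0)) univ (14 * |S|) := fun f hf hc _ => by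
  set G := ofFrame (cfe F ρ) (cfe_fAt F hρ h0)
  set Z := cylP F.toPre
  have sρ : Sm (IC I) fun q : M × ℝ => ρ q.2 := sm_snd hρ
  have hμ : G.μ = Z.μ.withDensity fun q => ENNReal.ofReal (ρ q.2 ^ 4) := by
    refine Met55.vol_eq_wt (Int54.isVol_cylP hF) (Int54.isVol_iff_rf.2 rfl) (cpw sρ.continuous 4)
      fun q => ?_
    have e : LinearMap.det ((ρ q.2)⁻¹ • LinearMap.id : E × ℝ →ₗ[ℝ] E × ℝ) = (ρ q.2 ^ 4)⁻¹ := by
      rw [LinearMap.det_smul, LinearMap.det_id, finrank_prod, hd, finrank_self, mul_one, inv_pow]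
    have := Met55.rjb_map (v := atx Z.e q) ((ρ q.2)⁻¹ • LinearMap.id) (finBasis ℝ (E × ℝ))
      (finBasis ℝ (E × ℝ))
    rwa [LinearMap.det_toMatrix, e, abs_of_pos (by have := h0 q.2; positivity), inv_inv] at this
  have hi : ∀ g : M × ℝ → ℝ, ∫ q, g q ∂G.μ = ∫ q, ρ q.2 ^ 4 * g q ∂Z.μ := fun g => by
    rw [hμ, Met55.integral_wt _ (cpw sρ.continuous 4) fun q => by positivity]; rfl
  have su : Sm (IC I) fun q : M × ℝ => ρ q.2 * f q := sρ.mul hf
  have h5 := H _ su hc.mul_left (subset_univ _)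
  have it : ∀ {w g : M × ℝ → ℝ}, Continuous w → Continuous g → HasCompactSupport g →
      Integrable (fun q => w q * g q) Z.μ := fun hw hg k =>
    (hw.mul hg).integrable_of_hasCompactSupport k.mul_left
  have cf := cpw hf.continuous 2
  have c2 : HasCompactSupport fun q => f q ^ 2 := hc.mono fun x hx h => hx (by simp [h])
  have cD := continuous_finsetSum Finset.univ fun a _ => cpw (Z.sm_D hf a).continuous 2
  have c3 : HasCompactSupport fun q => ∑ a, Z.D a f q ^ 2 := HasCompactSupport.intro hc.isCompact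
    fun y hy => by simp [Pre.D_def, dv_eq_zero_of_notMem hy]
  have i1 := it (cpw sρ.continuous 2) cf c2
  have i2 := it (cpw sρ.continuous 4) cf c2
  have i3 := it (cpw sρ.continuous 2) cD c3
  have sh : Sm (IC I) fun q : M × ℝ => h q.2 * f q ^ 2 := (sm_snd hh).mul (hf.pow 2)
  have e0 : ∫ q, Z.D none (fun q => h q.2 * f q ^ 2) q ∂Z.μ = 0 := by
    simpa [cyl, cd] using (cyl F).ibp none _ sh c2.mul_left
  have i0 : Integrable (Z.D none fun q => h q.2 * f q ^ 2) Z.μ :=
    (Z.sm_D sh none).continuous.integrable_of_hasCompactSupport (Z.hcs_D c2.mul_left none)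
  have le : ∀ q, Z.D none f q ^ 2 ≤ ∑ a, Z.D a f q ^ 2 := fun q =>
    Finset.single_le_sum (f := fun a => Z.D a f q ^ 2) (fun _ _ => sq_nonneg _) (Finset.mem_univ _)
  have hardy := integral_mono i1 (((i2.const_mul 2).add (i3.const_mul 4)).add (i0.const_mul 2))
    fun q => by
      have e1 : Z.D none (fun q => h q.2 * f q ^ 2) q =
          deriv h q.2 * f q ^ 2 + h q.2 * (2 * f q * Z.D none f q) := by
        have := Met55.dv_mul (X := Z.e none) (hf q) (hf q)
        simp only [sq, Pre.D_def] at this ⊢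
        rw [Met55.dv_mul (g := fun q => f q * f q) (sm_snd hh q) ((hf q).mul (hf q)), this,
          ← Pre.D_def, D_none_snd _ hh]; ring
      have e2 : |h q.2 * (2 * f q * Z.D none f q)| ≤
          ρ q.2 ^ 2 * (f q ^ 2 / 2 + 2 * Z.D none f q ^ 2) := by
        rw [abs_mul]
        exact mul_le_mul (b2 _) (abs_le.2 ⟨by nlinarith [sq_nonneg (f q + 2 * Z.D none f q)],
          by nlinarith [sq_nonneg (f q - 2 * Z.D none f q)]⟩) (abs_nonneg _) (sq_nonneg _)
      have e3 := mul_le_mul_of_nonneg_right (b3 q.2) (sq_nonneg (f q))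
      have e4 := mul_le_mul_of_nonneg_left (le q) (sq_nonneg (ρ q.2))
      simp only [Pi.add_apply, e1]
      linarith [neg_le_of_abs_le e2]
  rw [integral_add' ((i2.const_mul 2).add (i3.const_mul 4)) (i0.const_mul 2),
    integral_add' (i2.const_mul 2) (i3.const_mul 4), integral_const_mul, integral_const_mul,
    integral_const_mul, e0] at hardy
  have cu : HasCompactSupport fun q : M × ℝ => ρ q.2 * f q := hc.mul_left
  have k1 := integral_mono ((continuous_finsetSum Finset.univ fun a _ =>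
      cpw (Z.sm_D su a).continuous 2).integrable_of_hasCompactSupport (μ := Z.μ)
      (HasCompactSupport.intro cu.isCompact fun y hy => by
        simp [Pre.D_def, dv_eq_zero_of_notMem hy])) ((i1.const_mul 2).add (i3.const_mul 2))
    fun q => by
      have e1 : ∑ a, Z.D a (fun q => ρ q.2) q ^ 2 = deriv ρ q.2 ^ 2 := by
        simp [Z, Fintype.sum_option, D_none_snd _ hρ, D_some_snd _ hρ]
      have e2 : ∀ a, Z.D a (fun q => ρ q.2 * f q) q ^ 2 ≤ 2 * (Z.D a (fun q => ρ q.2) q ^ 2 * f q ^ 2)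
          + 2 * (ρ q.2 ^ 2 * Z.D a f q ^ 2) := fun a => by
        rw [Pre.D_def, Met55.dv_mul (sρ q) (hf q), ← Pre.D_def, ← Pre.D_def]
        nlinarith [sq_nonneg (Z.D a (fun q => ρ q.2) q * f q - ρ q.2 * Z.D a f q)]
      refine (Finset.sum_le_sum fun a _ => e2 a).trans ?_
      simp only [Finset.sum_add_distrib, ← Finset.mul_sum, ← Finset.sum_mul, e1, Pi.add_apply]
      linarith [mul_le_mul_of_nonneg_right (b1 q.2) (sq_nonneg (f q))]
  rw [integral_add' (i1.const_mul 2) (i3.const_mul 2), integral_const_mul, integral_const_mul] at k1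
  have e5 : ∀ q, ρ q.2 ^ 4 * ∑ a, G.D a f q ^ 2 = ρ q.2 ^ 2 * ∑ a, Z.D a f q ^ 2 := fun q => by
    have : ∀ a, G.D a f q = (ρ q.2)⁻¹ * Z.D a f q := fun a =>
      Met55.dv_vsmul (fun q : M × ℝ => (ρ q.2)⁻¹) (Z.e a) f q
    simp only [this, mul_pow, ← Finset.mul_sum]
    have := (h0 q.2).ne'
    field_simp
  have p2 : 0 ≤ ∫ q, ρ q.2 ^ 4 * f q ^ 2 ∂Z.μ := integral_nonneg fun q => by positivity
  rw [ip_one G hf hc, hi, hi, hi, funext e5]
  simp only [← mul_pow]
  refine h5.trans ((mul_le_mul_of_nonneg_right (le_abs_self S) (Z.ip_nonneg 1 _)).trans ?_)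
  rw [mul_comm 14, mul_assoc, ip_one Z su cu]
  refine mul_le_mul_of_nonneg_left ?_ (abs_nonneg S)
  simp only [mul_pow]
  linarith

end conf

end Crest.Agent.X212.Pat85
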