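import Crest.Agent.X212.Pat85.L4a
import Crest.Agent.X212.Cht98.Wld
import Crest.Agent.X212.Mp86.Ps
import Crest.Agent.X212.Mp86.Lev

/-!
# X212, L4U (helper85): the Sobolev constant of the layers of a world is uniform under pinching
-/

set_option autoImplicit false
set_option linter.unusedSectionVars false
open Set Filter Topology Function MeasureTheory Module
open scoped ContDiff Manifold InnerProductSpace

noncomputable section
namespace Crest.Agent.X212.Pat85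

open An Sob92 Cht98 Cyf70 M
open Met55 (Co atx)
open Dr59 (mf)
open Ps86 (Nk)

theorem ev_dom {t s : ℝ} (h : (t, s) ∈ Off) (b : Bool) :
    (∀ᶠ x in 𝓝 s, x ∈ dom t b) ∨ ∀ᶠ x in 𝓝 s, x ∉ dom t b := by
  refine or_iff_not_imp_left.2 fun hs => ?_
  have hs : s ∉ dom t b := fun k => hs ((isOpen_dom t b).mem_nhds k)
  have h1 : ¬t < 1 := fun k => hs (.inl k)
  have h2 : s ≠ 0 := h.resolve_left h1
  cases b
  · filter_upwards [Ioi_mem_nhds (h2.lt_or_gt.resolve_left fun k => hs (.inr k))] with x hx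
    exact fun k => k.elim h1 fun k => lt_asymm hx k
  · filter_upwards [Iio_mem_nhds (h2.lt_or_gt.resolve_right fun k => hs (.inr k))] with x hx
    exact fun k => k.elim h1 fun k => lt_asymm hx k

/-- profiles with bounded derivative which are constant off `(-1, 1)` -/
structure Prf (θ : ℝ → ℝ) (B : ℝ) : Prop where
  sm : ContDiff ℝ ∞ θ
  b0 : ∀ s, |θ s| ≤ B
  b1 : ∀ s, |deriv θ s| ≤ B
  z : ∀ s, 1 ≤ |s| → deriv θ s = 0

theorem Prf.smc {θ : ℝ → ℝ} {B : ℝ} (k : Prf θ B) {Z : Mf 4} {f : Z.M → ℝ} (hf : Sm Z.I f) :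
    Sm Z.I fun x => θ (f x) := k.sm.contMDiff.comp hf

theorem exists_prf {k : ℝ} (hk : 2 < k) (u v : ℝ) : ∃ B, Prf (fun s => u + v * chi (k * s)) B := by
  have sm : ContDiff ℝ ∞ fun s => u + v * chi (k * s) :=
    contDiff_const.add (contDiff_const.mul (contDiff_chi.comp (contDiff_const.mul contDiff_id)))
  have z : ∀ s, 1 ≤ |s| → deriv (fun s => u + v * chi (k * s)) s = 0 := fun s hs => by
    have : ∀ᶠ x in 𝓝 s, 2 < |k * x| := (isOpen_lt continuous_const (by fun_prop)).mem_nhds (by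
      show 2 < |k * s|
      rw [abs_mul, abs_of_pos (by linarith)]; nlinarith)
    rw [EventuallyEq.deriv_eq (f := fun _ => u + v * 0)
      (this.mono fun x hx => by simp only [chi_eq_zero hx.le]), deriv_const]
  obtain ⟨B, hB⟩ := (sm.continuous_deriv (by simp)).bounded_above_of_compact_support
    (HasCompactSupport.intro (isCompact_Icc (a := (-1 : ℝ)) (b := 1)) fun s hs =>
      z s (not_lt.1 fun k => hs ⟨(abs_lt.1 k).1.le, (abs_lt.1 k).2.le⟩))
  refine ⟨max B (|u| + |v|), sm, fun s => le_max_of_le_right ((abs_add_le _ _).trans ?_),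
    fun s => le_max_of_le_left (hB s), z⟩
  rw [abs_mul, abs_of_nonneg (chi_nonneg _)]
  exact add_le_add_right (mul_le_of_le_one_right (abs_nonneg _) (chi_le_one _)) _

variable {X : Mf 4} {A κ : Type} [Fintype A] [Fintype κ] {M : Mark X A κ} (W : World M)
  (m : M.Cl) {c : M.Cl} {p : Prm A} {a : A}

variable (M c p a) in
/-- long necks -/
structure Lg : Prop where
  mem : a ∈ c.1 ∧ ¬M.pin a ∨ a ∈ M.sys.fr c.1
  lt : M.Lt c.1 p.2 a
  O : p ∈ M.O c.1

namespace Lg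
variable (h : Lg M c p a)
include h

theorem off (z : (W.Z c).M) : (Mark.tv c.1 p.2 a, hZ W.toCaps c a z) ∈ Off :=
  h.mem.symm.imp (fun k => by rw [Mark.tv_fr k]; exact h.O a k) fun k => hZ_ne _ k.1 k.2 z

theorem cb {θ : ℝ → ℝ} {B : ℝ} (k : Prf θ B) :
    (W.F m c p).CB 1 (fun z => θ (hZ W.toCaps c a z)) B := by
  have sh := sm_hZ W.toCaps h.mem
  refine CB_succ.2 ⟨fun z => k.b0 _, fun i => CB_zero.2 fun z => ?_⟩
  rw [Pre.D_def, dv_comp (sh.mdifferentiableAt (by simp)) (k.sm.differentiable (by simp) _).hasFDerivAt,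
    fderiv_eq_smul_deriv, norm_smul, ← Pre.D_def]
  by_cases hz : 1 ≤ |hZ W.toCaps c a z|
  · rw [k.z _ hz, norm_zero, mul_zero]; exact (abs_nonneg _).trans (k.b0 0)
  refine (mul_le_of_le_one_left (norm_nonneg _) ((sq_le_one_iff_abs_le_one _).1 ?_)).trans (k.b1 _)
  obtain ⟨y, -, e⟩ := exists_of_hZ W.toCaps h.mem (z := z) (by linarith)
  have nk : Nk M c p.2 a (y, hZ W.toCaps c a z) := ⟨h.lt, not_le.1 hz, h.off W z⟩
  have := co_sq (k := M.nF a _) ((nk.ld W.toCaps).mdifferentiableAt (by simp)) (nk.co W m)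
    ((sh _).mdifferentiableAt (by simp))
  have sd : MDifferentiableAt (IC (M.bn a).Y.I) 𝓘(ℝ, ℝ) Prod.snd (y, hZ W.toCaps c a z) :=
    mdifferentiableAt_snd
  simp only [dv_congr (nk.ev.mono fun q hq => hZ_nj W.toCaps h.mem (hq.lt.not_mem hq.off)
    (hq.ab.le.trans (by norm_num)) : _ =ᶠ[_] Prod.snd), Ps86.dv_nF, e] at this
  refine (Finset.single_le_sum (f := fun i => (W.F m c p).D i (hZ W.toCaps c a) z ^ 2)
    (fun _ _ => sq_nonneg _) (Finset.mem_univ i)).trans ?_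
  simp only [Pre.D_def, Ps86.F_e W m h.O, this]
  by_cases hp : M.pin a
  · simp [Mark.wt_none' hp, dv_none sd, dv_some sd, dv_const]
  · simpa [Mark.wt_none hp, abs_of_pos (sig_pos nk.off), dv_none sd, dv_some sd, dv_const] using
      sig_le_one (le_trans (by norm_num) (Ps86.tv_mem h.lt).1) _

theorem band (b : Bool) (ℓ : OpenPartialHomeomorph ℝ ℝ)
    (tg : ∀ r ∈ ℓ.source, ℓ r ∈ Hs (Mark.tv c.1 p.2 a) b) (tg' : Hs (Mark.tv c.1 p.2 a) b ⊆ ℓ.target)
    {ℓ' ρ g : ℝ → ℝ} (sm : ∀ r ∈ ℓ.source, ContDiffAt ℝ ∞ ℓ r)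
    (hd : ∀ r ∈ ℓ.source, HasDerivAt ℓ (ℓ' r) r)
    (w0 : ∀ r ∈ ℓ.source, M.wt a (Mark.tv c.1 p.2 a) (ℓ r) none = (ρ r)⁻¹ * ℓ' r)
    (w1 : ∀ r ∈ ℓ.source, ∀ k, M.wt a (Mark.tv c.1 p.2 a) (ℓ r) (some k) = (ρ r)⁻¹)
    (hρ : ContDiff ℝ ∞ ρ) (h0 : ∀ t, 0 < ρ t) (hg : ContDiff ℝ ∞ g)
    (b1 : ∀ t, deriv ρ t ^ 2 ≤ ρ t ^ 2) (b2 : ∀ t, |g t| ≤ ρ t ^ 2)
    (b3 : ∀ t, ρ t ^ 2 ≤ deriv g t + ρ t ^ 4) {S : ℝ} (H : L4On (cylP (M.gY a).toPre) univ S) :
    L4On (W.F m c p).toPre (hZ W.toCaps c a ⁻¹' Hs (Mark.tv c.1 p.2 a) b) (14 * |S|) := by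
  have := (M.bn a).con
  let Ψ := (OpenPartialHomeomorph.refl (M.bn a).Y.M).prod ℓ
  let φ := Ψ.trans ((M.bn a).oe.pd.trans (W.φ c)).toOpenPartialHomeomorph
  have nk : ∀ q : (M.bn a).Y.M × ℝ, q.2 ∈ ℓ.source → Nk M c p.2 a (q.1, ℓ q.2) := fun q hq =>
    ⟨h.lt, abs_lt.2 (tg _ hq).1, dom_off (tg _ hq).2⟩
  have s1 : ∀ q : (M.bn a).Y.M × ℝ, q.2 ∈ ℓ.source → ContMDiffAt (IC (M.bn a).Y.I)
      (IC (M.bn a).Y.I) ∞ (fun q => (q.1, ℓ q.2)) q := fun q hq =>
    contMDiffAt_fst.prodMk ((sm _ hq).contMDiffAt.comp q contMDiffAt_snd)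
  refine (l4On_co (φ := φ) (Int54.isVol_iff_rf.2 rfl) ((W.L m c).F_vol p)
    ((W.Z c).dim.trans (Mark.finrank_cyl a).symm) (fun q hq => (((nk q hq.1.2).ld
      W.toCaps).contMDiffAt.comp q (s1 q hq.1.2)).contMDiffWithinAt) (fun q hq => ?_)
    (l4_conf (M.gY a) (M.gvol a) (M.bn a).Y.dim hρ h0 hg b1 b2 b3 H)).mono (fun z hz => ?_) le_rfl
  · have h1 := hd _ hq.1.2
    have h2 := (hasMFDerivAt_fst q).prodMk
      (h1.hasFDerivAt.hasMFDerivAt.comp q (hasMFDerivAt_snd (I := (M.bn a).Y.I) q))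
    have e : ∀ i, mf (IC (M.bn a).Y.I) (W.Z c).I φ q (cfe (M.gY a) ρ i q) =
        mf (IC (M.bn a).Y.I) (W.Z c).I (W.nj c a) (q.1, ℓ q.2)
          (M.nf a (Mark.tv c.1 p.2 a) (q.1, ℓ q.2) i) := fun i => by
      refine (DFunLike.congr_fun (Dr59.mf_comp (f := fun y : (M.bn a).Y.M × ℝ => (y.1, ℓ y.2))
        (((nk q hq.1.2).ld W.toCaps).mdifferentiableAt (by simp)) h2.mdifferentiableAt) _).trans
        (congrArg (mf _ _ (W.nj c a) (q.1, ℓ q.2)) ?_)
      refine (DFunLike.congr_fun (Dr59.mf_of_has h2) _).trans ?_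
      cases i with
      | none =>
        rw [Mark.nf, w0 _ hq.1.2]
        exact Prod.ext ((smul_zero _).trans (smul_zero _).symm)
          (show ((ρ q.2)⁻¹ * 1) * ℓ' q.2 = (ρ q.2)⁻¹ * ℓ' q.2 * 1 by ring)
      | some k =>
        rw [Mark.nf, w1 _ hq.1.2]
        exact Prod.ext rfl (show ((ρ q.2)⁻¹ * 0) * ℓ' q.2 = (ρ q.2)⁻¹ * 0 by ring)
    rw [Ps86.F_e W m h.O]
    exact (funext e : (fun i => _) = _) ▸ (nk q hq.1.2).co W m
  · obtain ⟨y, h1, h2⟩ := exists_of_hZ W.toCaps h.mem ((abs_lt.2 hz.1).trans (by norm_num))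
    have e := ℓ.right_inv (tg' hz)
    have := φ.map_source (x := (y, ℓ.symm (hZ W.toCaps c a z)))
      ⟨⟨trivial, ℓ.map_target (tg' hz)⟩, trivial, (W.mem_src c).2 (e.symm ▸ h1 :)⟩
    rwa [show φ (y, ℓ.symm (hZ W.toCaps c a z)) = z from
      (congrArg (fun r => W.nj c a (y, r)) e).trans h2] at this

theorem l4 (b : Bool) {S : ℝ} (H : L4On (cylP (M.gY a).toPre) univ S) :
    L4On (W.F m c p).toPre (hZ W.toCaps c a ⁻¹' Hs (Mark.tv c.1 p.2 a) b) (14 * |S|) := by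
  have ht := (Ps86.tv_mem h.lt).2
  by_cases hp : M.pin a
  · have ha := h.mem.resolve_left fun k => k.2 hp
    have h0 : 0 < 1 - Mark.tv c.1 p.2 a := by rw [Mark.tv_fr ha]; exact sub_pos.2 (h.O a ha)
    set ε := 1 - Mark.tv c.1 p.2 a with hε
    have d1 : ∀ r, HasDerivAt (fun r => ε * Real.sinh r) (ε * Real.cosh r) r := fun r =>
      (Real.hasDerivAt_sinh r).const_mul ε
    have d2 : ∀ r, HasDerivAt (fun r => ε * Real.cosh r) (ε * Real.sinh r) r := fun r =>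
      (Real.hasDerivAt_cosh r).const_mul ε
    have p0 : ∀ r, 0 < ε * Real.cosh r := fun r => mul_pos h0 (Real.cosh_pos r)
    have q : ∀ r, (ε * Real.cosh r) ^ 2 = (ε * Real.sinh r) ^ 2 + ε ^ 2 := fun r => by
      rw [mul_pow, Real.cosh_sq]; ring
    refine h.band W m b (((Real.sinhHomeomorph.trans (Homeomorph.mulLeft₀ ε
      h0.ne')).toOpenPartialHomeomorph.symm.restrOpen _ (isOpen_Hs _ b)).symm)
      (fun r hr => hr.2) (fun s hs => ⟨trivial, hs⟩) (ρ := fun r => ε * Real.cosh r)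
      (g := fun r => ε * Real.sinh r * (ε * Real.cosh r))
      (fun r _ => (contDiff_const.mul Real.contDiff_sinh).contDiffAt) (fun r _ => d1 r)
      (fun r _ => by rw [Mark.wt_none' hp, inv_mul_cancel₀ (p0 r).ne'])
      (fun r _ k => by
        rw [Mark.wt_some' hp, rad, ← hε]
        exact congrArg _ ((congrArg _ (q r).symm).trans (Real.sqrt_sq (p0 r).le)))
      (contDiff_const.mul Real.contDiff_cosh) p0
      ((contDiff_const.mul Real.contDiff_sinh).mul (contDiff_const.mul Real.contDiff_cosh))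
      (fun r => by rw [(d2 r).deriv, q]; nlinarith) (fun r => ?_) (fun r => ?_) H
    · rw [abs_mul, abs_of_pos (p0 r), sq]
      exact mul_le_mul_of_nonneg_right (abs_le_of_sq_le_sq' (by rw [q]; nlinarith) (p0 r).le |>
        abs_le.2) (p0 r).le
    · rw [((d1 r).fun_mul (d2 r)).deriv]
      nlinarith [sq_nonneg (ε * Real.sinh r), sq_nonneg ((ε * Real.cosh r) ^ 2)]
  · exact h.band W m b (lenH ht b).symm (fun r hr => li_mem ht hr) subset_rfl (ρ := fun _ => 1)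
      (g := fun _ => 0) (fun r hr => (ld_li ht hr).contMDiffAt.contDiffAt)
      (fun r hr => hasDerivAt_li ht hr) (fun r _ => by rw [Mark.wt_none hp, inv_one, one_mul]; rfl)
      (fun r _ k => by rw [Mark.wt_some hp, inv_one]) contDiff_const (fun _ => one_pos)
      contDiff_const (by simp) (by simp) (by simp) H

open Classical in
/-- the cut-off of one half of the neck -/
theorem cut (b : Bool) {B : ℝ} (k : Prf (fun s => 0 + 1 * chi (3 * s)) B) : ∃ χ : (W.Z c).M → ℝ,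
    Sm (W.Z c).I χ ∧ (W.F m c p).CB 1 χ B ∧
      tsupport χ ⊆ hZ W.toCaps c a ⁻¹' Hs (Mark.tv c.1 p.2 a) b ∧ ∀ z, |hZ W.toCaps c a z| ≤ 1 / 3 →
        hZ W.toCaps c a z ∈ dom (Mark.tv c.1 p.2 a) b → χ z = 1 := by
  have sh := sm_hZ W.toCaps h.mem
  set χ : (W.Z c).M → ℝ := fun z => if hZ W.toCaps c a z ∈ dom (Mark.tv c.1 p.2 a) b then
    0 + 1 * chi (3 * hZ W.toCaps c a z) else 0
  have ev : ∀ z, (hZ W.toCaps c a z ∈ dom (Mark.tv c.1 p.2 a) b ∧
      χ =ᶠ[𝓝 z] fun z => 0 + 1 * chi (3 * hZ W.toCaps c a z)) ∨ χ =ᶠ[𝓝 z] 0 := fun z =>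
    (ev_dom (h.off W z) b).imp (fun e => ⟨e.self_of_nhds,
      (sh.continuous.continuousAt.eventually e).mono fun _ k => if_pos k⟩)
      fun e => (sh.continuous.continuousAt.eventually e).mono fun _ k => if_neg k
  have B0 := (abs_nonneg _).trans (k.b0 0)
  have k1 := CB_succ.1 (h.cb W m k)
  refine ⟨χ, fun z => (ev z).elim (fun e => (k.smc sh z).congr_of_eventuallyEq e.2)
    fun e => contMDiffAt_const.congr_of_eventuallyEq e, CB_succ.2 ⟨fun z => (ev z).elim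
      (fun e => e.2.self_of_nhds ▸ k1.1 z) fun e => by simpa [e.self_of_nhds] using B0,
    fun i => CB_zero.2 fun z => (ev z).elim (fun e => by
      rw [Pre.D_def, dv_congr e.2]; exact CB_zero.1 (k1.2 i) z) fun e => by
      rw [Pre.D_def, dv_eq_zero_of_notMem (notMem_tsupport_iff_eventuallyEq.2 e), norm_zero]
      exact B0⟩, fun z hz => ?_, fun z h1 h2 => by
    simp [χ, h2, chi_eq_one (s := 3 * hZ W.toCaps c a z) (by rw [abs_mul]; norm_num; linarith)]⟩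
  have e := (ev z).resolve_right fun e => notMem_tsupport_iff_eventuallyEq.2 e hz
  refine ⟨abs_lt.1 (not_le.1 fun k => notMem_tsupport_iff_eventuallyEq.2 ?_ hz), e.1⟩
  filter_upwards [e.2, (isOpen_lt continuous_const sh.continuous.abs).mem_nhds
    (show 2 / 3 < |hZ W.toCaps c a z| by linarith)] with y h1 (h2 : 2 / 3 < _)
  rw [h1, chi_eq_zero (by rw [abs_mul]; norm_num; linarith)]; simp

end Lg

theorem l4_loc (c : M.Cl) (p₀ : Prm A) :
    ∃ S, ∀ᶠ p in 𝓝 p₀, Gd M c p₀ p → L4On (W.F m c p).toPre univ S := by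
  classical
  obtain ⟨Q, h1, h2, h3⟩ := exists_Q W.toCaps c p₀ (ε := 1 / 6) (by norm_num) (by norm_num)
  have hK := isCompact_thk W.toCaps c p₀ (ε := 1 / 6) (by norm_num) (by norm_num)
  obtain ⟨C0, k0⟩ := tOn_fam (W.Z c).dim.le (W.L m c).F0.toPre (W.L m c).vol W.isOpen_Ω
    (W.L m c).sm (W.L m c).sp h2 hK h3
  choose S hS _ using fun a => sob_cyl (M.gY a).toPre (M.bn a).Y.dim.le
  obtain ⟨S₁, k1⟩ := Finite.bddAbove_range fun a => 14 * |S a|
  obtain ⟨B₀, b0⟩ := exists_prf (k := 6) (by norm_num) 1 (-1)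
  obtain ⟨B₁, b1⟩ := exists_prf (k := 3) (by norm_num) 0 1
  refine ⟨|max (C0 0) S₁| * ((cK (Option κ) 1 * max ((2 ^ (1 + 1) * |B₀|) ^ (Finset.univ :
    Finset (Nw M c p₀)).card) B₁) ^ 2 * Fintype.card (Option (Nw M c p₀ × Bool))),
    eventually_of_mem h1 fun p hp h => ?_⟩
  have lg : ∀ a : Nw M c p₀, Lg M c p a := fun a =>
    ⟨Nw.mem a.2, a.2.elim (fun k => .inl k.1) fun k => h.2 _ k.1 k.2, h.1⟩
  choose χ c1 c2 c3 c4 using fun i : Nw M c p₀ × Bool => (lg i.1).cut W m i.2 b1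
  have c0 := CB_prod (fun a : Nw M c p₀ => b0.smc (sm_hZ W.toCaps (lg a).mem))
    (fun a => (lg a).cb W m b0) Finset.univ
  refine l4_of_cover _ (J := Option (Nw M c p₀ × Bool))
    (χ := fun j => j.elim (fun z => ∏ a : Nw M c p₀, (1 + -1 * chi (6 * hZ W.toCaps c a z))) χ)
    (fun j => ?_) (fun j => ?_) (fun z _ => ?_) (fun _ _ => toFinite _)
    (fun _ t _ => t.card_le_univ) fun j => ?_
  · cases j; exacts [c0.1, c1 _]
  · cases j; exacts [CB_mono c0.2 (le_max_left _ _), CB_mono (c2 _) (le_max_right _ _)]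
  · by_cases hz : ∀ a : Nw M c p₀, 1 / 3 < |hZ W.toCaps c a z|
    · exact ⟨none, Finset.prod_eq_one fun a _ => by
        rw [chi_eq_zero (by rw [abs_mul]; norm_num; linarith [hz a])]; simp⟩
    · obtain ⟨a, ha⟩ := not_forall.1 hz
      obtain ⟨b, hb⟩ := exists_dom ((lg a).off W z)
      exact ⟨some (a, b), c4 _ z (not_lt.1 ha) hb⟩
  · rcases j with _ | j
    · refine (k0 p hp _ ((W.L m c).F_vol p) ((W.L m c).F_e (Mark.mem_Ω _ h.1))).l4.mono
        (closure_minimal (fun z hz a ha => not_lt.1 fun k => hz ?_) hK.isClosed) (le_max_left _ _)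
      exact Finset.prod_eq_zero (Finset.mem_univ ⟨a, ha⟩) (by
        rw [chi_eq_one (by rw [abs_mul]; norm_num; linarith)]; simp)
    · exact ((lg j.1).l4 W m j.2 (hS _)).mono (c3 j) (le_max_of_le_right (k1 ⟨_, rfl⟩))

/-- **L4U**: the Sobolev constant is uniform, also under pinching -/
theorem l4u {U : Set ℝ} (hU : IsCompact U) : ∃ S > 0, ∀ m c p, p.1 ∈ U → p.2 ∈ M.sys.Par →
    p ∈ M.O c.1 → Mp86.L4 (W.F m c p).toPre S := by
  choose C hC using fun i : M.Cl × M.Cl => unif_of_loc (hU.prod (isCompact_Icc (a := (0 : A → ℝ))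
    (b := 1))) (P := fun p C => p ∈ M.O i.2.1 → p.2 ∈ M.sys.Par →
      L4On (W.F i.1 i.2 p).toPre univ (C 0))
    (fun _ _ _ h k h1 h2 => (h h1 h2).mono subset_rfl (k 0)) fun p₀ _ =>
      let ⟨S, hS⟩ := l4_loc W i.1 i.2 p₀
      ⟨fun _ => S, (hS.and (ev_gd i.2 p₀)).mono fun _ h h1 h2 => h.1 (h.2 h1 h2)⟩
  obtain ⟨S, k⟩ := Finite.bddAbove_range fun i => C i 0
  exact ⟨max 1 S, lt_max_of_lt_left one_pos, fun m c p h1 h2 h3 f hf hc => (hC (m, c) p
    ⟨h1, fun a => (h2.1 a).1, fun a => (h2.1 a).2⟩ h3 h2).mono subset_rfl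
      (le_max_of_le_right (k ⟨_, rfl⟩)) f hf hc (subset_univ _)⟩

end Crest.Agent.X212.Pat85
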