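import Crest.Agent.X212.Cht98.Br
import Crest.Agent.X212.Wz78.Int

/-!
# X212, EN-MUL (helper85): `L²₁ ⊆ L⁶` and `L¹₁ ⊆ L^{3/2}` on closed three-manifolds
-/

set_option autoImplicit false
set_option linter.unusedSectionVars false
open Set Filter Function MeasureTheory Module
open scoped ContDiff Manifold InnerProductSpace ENNReal NNReal

noncomputable section
namespace Crest.Agent.X212.Pat85

open An Sob92 Cht98
open Wz78 (nab Skew)

variable {E : Type} [NormedAddCommGroup E] [NormedSpace ℝ E] [FiniteDimensional ℝ E]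
  [MeasurableSpace E] [BorelSpace E]
  {HM : Type} [TopologicalSpace HM] {I : ModelWithCorners ℝ E HM} [I.Boundaryless]
  {M : Type} [TopologicalSpace M] [ChartedSpace HM M] [IsManifold I ∞ M]
  [MeasurableSpace M] {ι : Type} [Fintype ι] [T2Space M] [BorelSpace M] [CompactSpace M]
  {V : Type} [NormedAddCommGroup V] [InnerProductSpace ℝ V]

theorem int_cpt (F : Pre I M ι) {N : Type} [NormedAddCommGroup N] {f : M → N} (hf : Continuous f) :
    Integrable f F.μ := hf.integrable_of_hasCompactSupport (.of_compactSpace f)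

theorem eLp_one (F : Pre I M ι) {f : M → ℝ} (hf : Continuous f) :
    eLpNorm f 1 F.μ = ENNReal.ofReal (∫ x, |f x| ∂F.μ) := by
  rw [eLpNorm_one_eq_lintegral_enorm, ← ofReal_integral_norm_eq_lintegral_enorm (int_cpt F hf)]
  rfl

/-- Cauchy-Schwarz -/
theorem cs2 (F : Pre I M ι) {f g : M → V} (hf : Continuous f) (hg : Continuous g) :
    ∫ x, ‖f x‖ * ‖g x‖ ∂F.μ ≤ √(∫ x, ‖f x‖ ^ 2 ∂F.μ) * √(∫ x, ‖g x‖ ^ 2 ∂F.μ) := by
  simpa only [Real.sqrt_eq_rpow, Real.rpow_two] using integral_mul_norm_le_Lp_mul_Lq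
    Real.HolderConjugate.two_two (hf.memLp_of_hasCompactSupport (μ := F.μ) (.of_compactSpace f))
    (hg.memLp_of_hasCompactSupport (.of_compactSpace g))

variable (hn : finrank ℝ E = 3)
include hn

theorem eLp_six (F : Pre I M ι) : ∃ C : ℝ≥0, ∀ f : M → ℝ, Sm I f →
    eLpNorm f (6 : ℝ≥0) F.μ ≤ C * ENNReal.ofReal (F.nrm 1 f) := by
  have e : ES (Eu E) (6 : ℝ≥0) (2 : ℝ≥0) := ES_gns (by norm_num)
    (by rw [finrank_Eu, hn]; norm_num) (by rw [finrank_Eu, hn]; norm_num)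
  obtain ⟨C, h⟩ := step F (by norm_num) (by norm_num) e isCompact_univ (C := 1) (k := 0)
    fun f hf _ => by
      rw [ENNReal.coe_two, eLp_two F hf (.of_compactSpace f)]
      simp
  exact ⟨C, fun f hf => h f hf (subset_univ _)⟩

theorem mul3 (F : Pre I M ι) : ∃ K, 0 ≤ K ∧ ∀ g u : M → ℝ, Sm I g → Sm I u →
    ∫ x, |g x * g x * u x| ∂F.μ ≤
      K * F.nrm 1 g ^ 2 * (∫ x, |u x| ∂F.μ + ∑ a, ∫ x, |F.D a u x| ∂F.μ) := by
  obtain ⟨C, h⟩ := eLp_six hn F
  have e : ES (Eu E) (3 / 2 : ℝ≥0) (1 : ℝ≥0) := ES_gns le_rfl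
    (by rw [finrank_Eu, hn]; norm_num) (by rw [finrank_Eu, hn]; norm_num)
  obtain ⟨A, hA⟩ := (atl F).sob F.sm F.span (by
    rw [ENNReal.one_le_coe_iff, ← NNReal.coe_le_coe]; norm_num) (by simp) e isOpen_univ
    isCompact_univ subset_rfl
  have t1 : ENNReal.HolderTriple (6 : ℝ≥0) (6 : ℝ≥0) (3 : ℝ≥0) :=
    NNReal.HolderTriple.coe_ennreal (by norm_num)
      (NNReal.holderTriple_coe_iff.1 (by constructor <;> norm_num))
  have t2 : ENNReal.HolderTriple (3 : ℝ≥0) (3 / 2 : ℝ≥0) (1 : ℝ≥0) :=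
    NNReal.HolderTriple.coe_ennreal (by norm_num)
      (NNReal.holderTriple_coe_iff.1 (by constructor <;> norm_num))
  refine ⟨C ^ 2 * A, by positivity, fun g u hg hu => ?_⟩
  have m := hg.continuous.aestronglyMeasurable (μ := F.μ)
  have h1 := eLpNorm_smul_le_mul_eLpNorm m m (hpqr := t1)
  have h2 := eLpNorm_smul_le_mul_eLpNorm hu.continuous.aestronglyMeasurable (m.smul m) (hpqr := t2)
  have h3 := hA u hu
  have p0 : 0 ≤ ∫ x, |u x| ∂F.μ := integral_nonneg fun _ => abs_nonneg _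
  have p1 : ∀ a, 0 ≤ ∫ x, |F.D a u x| ∂F.μ := fun a => integral_nonneg fun _ => abs_nonneg _
  have p2 := Finset.sum_nonneg fun a (_ : a ∈ Finset.univ) => p1 a
  have p3 := nrm_nonneg (F := F) 1 g
  simp only [Measure.restrict_univ, ENNReal.coe_one, eLp_one F hu.continuous, ← Pre.D_def,
    fun a => eLp_one F (F.sm_D hu a).continuous] at h3
  rw [← ENNReal.ofReal_sum_of_nonneg fun a _ => p1 a, ← ENNReal.ofReal_add p0 p2] at h3
  rw [ENNReal.coe_one, eLp_one F ((hg.continuous.smul hg.continuous).smul hu.continuous)] at h2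
  have h4 := h2.trans (mul_le_mul' (h1.trans (mul_le_mul' (h g hg) (h g hg))) h3)
  rw [← ENNReal.ofReal_coe_nnreal, ← ENNReal.ofReal_coe_nnreal, ← ENNReal.ofReal_mul C.coe_nonneg,
    ← ENNReal.ofReal_mul (by positivity), ← ENNReal.ofReal_mul A.coe_nonneg,
    ← ENNReal.ofReal_mul (by positivity), ENNReal.ofReal_le_ofReal_iff (by positivity)] at h4
  exact h4.trans_eq (by ring)

/-- multiplication, uniformly in the metric connection -/
theorem mulV (F : Fr I M ι) : ∃ K, 0 ≤ K ∧ ∀ A : ι → M → V →L[ℝ] V, (∀ a, Sm I (A a)) →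
    (∀ a x, Skew (A a x)) → ∀ (g : M → ℝ) (u : M → V), Sm I g → Sm I u →
    ∫ x, ‖g x • u x‖ ^ 2 ∂F.μ ≤ K * F.nrm 1 g ^ 2 * (√(∫ x, ‖u x‖ ^ 2 ∂F.μ) *
      (√(∫ x, ‖u x‖ ^ 2 ∂F.μ) + √(∫ x, ∑ a, ‖nab I F.e A a u x‖ ^ 2 ∂F.μ))) := by
  obtain ⟨K, h0, hK⟩ := mul3 hn F.toPre
  refine ⟨K * (1 + 2 * Fintype.card ι), by positivity, fun A sA sk g u hg hu => ?_⟩
  have h := hK g (fun x => ⟪u x, u x⟫_ℝ) hg fun x => Wz78.SA.inner (hu x) (hu x)
  have cn := fun a => (Wz78.sm_nab (F := F) sA a hu).continuous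
  set n := √(∫ x, ‖u x‖ ^ 2 ∂F.μ) with hn'
  set N := √(∫ x, ∑ a, ‖nab I F.e A a u x‖ ^ 2 ∂F.μ)
  have k : ∀ a, ∫ x, |F.D a (fun x => ⟪u x, u x⟫_ℝ) x| ∂F.μ ≤ 2 * (N * n) := fun a => by
    refine (integral_mono_of_nonneg (.of_forall fun _ => abs_nonneg _)
      ((int_cpt F.toPre ((cn a).norm.mul hu.continuous.norm)).const_mul 2)
      (.of_forall fun x => ?_)).trans ?_
    · simp only [Pre.D_def, Wz78.dv_inner a (sk a x) (hu x) (hu x), real_inner_comm _ (u x),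
        ← two_mul, abs_mul, abs_two, Pi.mul_apply]
      exact mul_le_mul_of_nonneg_left (abs_real_inner_le_norm _ _) zero_le_two
    rw [integral_const_mul]
    refine mul_le_mul_of_nonneg_left ((cs2 F.toPre (cn a) hu.continuous).trans
      (mul_le_mul_of_nonneg_right (Real.sqrt_le_sqrt (integral_mono_of_nonneg
        (.of_forall fun _ => sq_nonneg _) (int_cpt F.toPre (continuous_finsetSum _ fun a _ =>
          (cn a).norm.fun_pow 2)) (.of_forall fun x => ?_))) (Real.sqrt_nonneg _))) zero_le_two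
    exact Finset.single_le_sum (f := fun a => ‖nab I F.e A a u x‖ ^ 2) (fun _ _ => sq_nonneg _)
      (Finset.mem_univ a)
  have k' := Finset.sum_le_card_nsmul _ _ _ fun a (_ : a ∈ Finset.univ) => k a
  have e : n * n = ∫ x, ‖u x‖ ^ 2 ∂F.μ := Real.mul_self_sqrt (integral_nonneg fun _ => sq_nonneg _)
  simp only [real_inner_self_eq_norm_sq, abs_mul, abs_sq, ← e] at h
  simp only [real_inner_self_eq_norm_sq, nsmul_eq_mul, Finset.card_univ] at k'
  simp only [norm_smul, mul_pow, Real.norm_eq_abs, sq (|g _|)]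
  refine h.trans ?_
  rw [mul_right_comm K (1 + _), mul_assoc (K * _)]
  have p1 : 0 ≤ n := Real.sqrt_nonneg _
  have p2 : 0 ≤ N := Real.sqrt_nonneg _
  have p3 : (0 : ℝ) ≤ Fintype.card ι := Nat.cast_nonneg _
  refine mul_le_mul_of_nonneg_left ?_ (by positivity)
  nlinarith [mul_nonneg p1 p2, mul_nonneg p3 (mul_nonneg p1 p1)]

end Crest.Agent.X212.Pat85
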