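import Crest.Agent.X212.Pat85.Ext
import Crest.Agent.X212.Std94.Loc
import Crest.Agent.X212.Std94.Smo

/-!
# X212, PATCH (helper85): modules read in a frame, limits of local modules
-/

set_option autoImplicit false
set_option linter.unusedSectionVars false
open Set Filter Topology Function
open scoped ContDiff Manifold InnerProductSpace

noncomputable section
namespace Crest.Agent.X212.Pat85

open An Cmp73 Sob92
open Wz78 (SA)
open Pj41 (OKOn ConnOn Iso0 Par0 CIso cjL)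
open Std94 (hs Pix PMx Itx PM)

section lin
variable {V F V' L : Type} [NormedAddCommGroup V] [InnerProductSpace ℝ V] [FiniteDimensional ℝ V]
  [NormedAddCommGroup F] [InnerProductSpace ℝ F] [FiniteDimensional ℝ F]
  [NormedAddCommGroup V'] [InnerProductSpace ℝ V'] [FiniteDimensional ℝ V']
  [NormedAddCommGroup L] [InnerProductSpace ℝ L] [FiniteDimensional ℝ L] {ι : Type} [Fintype ι]

theorem ad_pj (A : V →L[ℝ] F) : Pj41.ad A = ad A := rfl

theorem hs_comp {g : F →L[ℝ] V} {v : V →L[ℝ] V'} (h : v ∘L g ∘L ad g = v) :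
    hs (v ∘L g) (v ∘L g) = hs v v := by
  have : (v : V →ₗ[ℝ] V') ∘ₗ (g : F →ₗ[ℝ] V) ∘ₗ LinearMap.adjoint (g : F →ₗ[ℝ] V) = v :=
    congrArg ContinuousLinearMap.toLinearMap h
  rw [hs, hs, ContinuousLinearMap.toLinearMap_comp, LinearMap.adjoint_comp, LinearMap.comp_assoc,
    LinearMap.trace_comp_comm', LinearMap.comp_assoc, LinearMap.comp_assoc, this]

theorem pi_comp {J : V →L[ℝ] V} {ρ : ι → V →L[ℝ] V} {j : L →L[ℝ] V →L[ℝ] V} {J₁ : F →L[ℝ] F}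
    {ρ₁ : ι → F →L[ℝ] F} {j₁ : L →L[ℝ] F →L[ℝ] F} {J' : V' →L[ℝ] V'} {ρ' : ι → V' →L[ℝ] V'}
    {j' : L →L[ℝ] V' →L[ℝ] V'} {g : F →L[ℝ] V} (hJ : J ∘L g = g ∘L J₁)
    (hρ : ∀ a, ρ a ∘L g = g ∘L ρ₁ a) (hj : ∀ s, j s ∘L g = g ∘L j₁ s) (A : V →L[ℝ] V') :
    Std94.Pi J ρ j J' ρ' j' A ∘L g = Std94.Pi J₁ ρ₁ j₁ J' ρ' j' (A ∘L g) := by
  have ap : ∀ {S T : F →L[ℝ] V}, S = T → ∀ v, S v = T v := fun e v => by rw [e]
  have h1 : ∀ A : V →L[ℝ] V', Std94.Kc ρ ρ' A ∘L g = Std94.Kc ρ₁ ρ' (A ∘L g) := fun A => by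
    ext v
    simp only [ContinuousLinearMap.comp_apply, Std94.Kc_apply, show ∀ a, ρ a (g v) = g (ρ₁ a v) from
      fun a => ap (hρ a) v]
  have h2 : ∀ A : V →L[ℝ] V', Std94.jav j j' A ∘L g = Std94.jav j₁ j' (A ∘L g) := fun A => by
    ext v
    simp only [ContinuousLinearMap.comp_apply, Std94.jav_apply,
      show ∀ s, j s (g v) = g (j₁ s v) from fun s => ap (hj s) v]
  have h3 : Std94.Jav J J' A ∘L g = Std94.Jav J₁ J' (A ∘L g) := by
    ext v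
    simp only [ContinuousLinearMap.comp_apply, Std94.Jav_apply, show J (g v) = g (J₁ v) from ap hJ v]
  simp only [Std94.Pi, Std94.qpL, mul_apply_eq_comp, _root_.smul_apply,
    _root_.sub_apply, _root_.add_apply, ContinuousLinearMap.smul_comp, ContinuousLinearMap.sub_comp,
    ContinuousLinearMap.add_comp, h1, h2, h3]

end lin

variable {E : Type} [NormedAddCommGroup E] [NormedSpace ℝ E] [FiniteDimensional ℝ E]
  [MeasurableSpace E] [BorelSpace E]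
  {HM : Type} [TopologicalSpace HM] {I : ModelWithCorners ℝ E HM} [I.Boundaryless]
  {M : Type} [TopologicalSpace M] [ChartedSpace HM M] [IsManifold I ∞ M] [MeasurableSpace M]
  {ι lam α : Type} [Fintype ι] [Fintype lam] {B : Base M ι lam} {x : M}

/-- modules on the trivial bundle -/
@[reducible] def lm (J : En (Fin 16)) (ρ : ι → M → En (Fin 16))
    (j : M → CL (Eu lam) (En (Fin 16))) : Md M ι lam := ⟨16, J, fun _ => 1, ρ, j⟩

/-- a module read in a frame -/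
@[reducible] def fm (m : Md M ι lam) (g : M → CL (Eu (Fin 16)) m.V) (J : En (Fin 16)) :
    Md M ι lam :=
  lm J (fun a y => ad (g y) ∘L m.ρ a y ∘L g y) fun y => cjL (ad (g y)) ∘L m.j y

theorem okOn_of {m : Md M ι lam} {O : Set M} (hx : x ∈ O) (h : ∀ y ∈ O, OKOn I B m {y}) :
    OKOn I B m O :=
  .of_local (h x hx).Jsq (h x hx).Jsk fun y hy => ⟨{y}, rfl, h y hy⟩

theorem iso0_of {m m' : Md M ι lam} {O : Set M} {u : M → CL m.V m'.V}
    (h : ∀ y ∈ O, Iso0 I m m' {y} u) : Iso0 I m m' O u :=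
  ⟨fun y hy => (h y hy).su y rfl, fun y hy => (h y hy).iso y rfl, fun y hy => (h y hy).J y rfl,
    fun y hy => (h y hy).ρ y rfl, fun y hy => (h y hy).j y rfl⟩

theorem frame_md {G : Geo I M ι lam} (hG : G.F.P = B.P) {m : Md M ι lam} {W : m.Cn}
    {g : M → CL (Eu (Fin 16)) m.V} {A : ι → M → En (Fin 16)} {J : En (Fin 16)}
    (h : ∀ᶠ y in 𝓝 x, (OKOn I B m {y} ∧ ConnOn B G m W {y}) ∧ Fra I G.F.e W m.p A g y ∧
      m.J ∘L g y = g y ∘L J) :
    OKOn I B (fm m g J) {x} ∧ ConnOn B G (fm m g J) A {x} ∧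
      Iso0 I m (fm m g J) {x} fun y => ad (g y) := by
  obtain ⟨O, h1, h2, h3⟩ := eventually_nhds_iff.1 h
  have k1 := okOn_of h3 fun y hy => (h1 y hy).1.1
  have k2 : ConnOn B G m W O := .of_local fun y hy => ⟨{y}, rfl, (h1 y hy).1.2⟩
  obtain ⟨-, f0, j0⟩ := h1 x h3
  have e0 : J = ad (g x) ∘L m.J ∘L g x := by
    rw [j0, ← ContinuousLinearMap.comp_assoc, f0.iso]; rfl
  have sk : ad J = -J := by
    rw [e0, ad_comp, ad_comp, ad_ad, skew_iff.2 k1.Jsk]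
    simp only [ContinuousLinearMap.comp_neg, ContinuousLinearMap.neg_comp,
      ContinuousLinearMap.comp_assoc]
  have sq : J * J = -1 := by
    have := congrArg (fun T => ad (g x) ∘L T ∘L g x) k1.Jsq
    simp only [ContinuousLinearMap.mul_def, ContinuousLinearMap.comp_assoc, j0,
      ContinuousLinearMap.neg_comp, ContinuousLinearMap.comp_neg] at this
    rw [← ContinuousLinearMap.comp_assoc m.J, j0] at this
    simp only [← ContinuousLinearMap.comp_assoc, f0.iso] at this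
    exact this.trans (congrArg Neg.neg f0.iso)
  obtain ⟨a1, a2⟩ := k1.of_conj (m' := fm m g J) h2 (a := fun y => ad (g y))
    (fun y hy => sa_ad (h1 y hy).2.1.sg) (fun y hy => by rw [ad_pj, ad_ad, (h1 y hy).2.1.rg])
    sq (skew_iff.1 sk) (fun y hy => Pj41.ad_itw_skew sk (skew_iff.2 k1.Jsk) (h1 y hy).2.2)
    (fun y hy => by rw [ad_pj, ad_ad, (h1 y hy).2.1.iso]) (fun b y _ => by rw [ad_pj, ad_ad])
    (fun y hy => Pj41.FSm.cjj (sa_ad (h1 y hy).2.1.sg) (k1.sj y hy)) fun _ _ _ => rfl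
  obtain ⟨a3, a4⟩ := Pj41.conn_push a2 h2 k1 a1 hG k2
  have s : {x} ⊆ O := singleton_subset_iff.2 h3
  refine ⟨a1.mono s, (a3.congr h2 fun a y hy => ?_).mono s, a2.mono s⟩
  have b1 := ((h1 y hy).2.1.par_ad a).trans (a4 y hy a).symm
  have b2 := congrArg (· ∘L g y) (add_left_cancel (sub_left_injective b1))
  simp only [ContinuousLinearMap.comp_assoc, (h1 y hy).2.1.iso] at b2
  exact b2

section gen
variable {l : Filter α} [l.NeBot] {U Ω : Set M}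
  {F L : Type} [NormedAddCommGroup F] [InnerProductSpace ℝ F] [FiniteDimensional ℝ F]
  [NormedAddCommGroup L] [InnerProductSpace ℝ L] [FiniteDimensional ℝ L]

variable (I) in
/-- convergence of local modules with connections -/
structure LM (l : Filter α) (U Ω : Set M) (J : α → F →L[ℝ] F) (ρ : α → ι → M → F →L[ℝ] F)
    (j : α → M → L →L[ℝ] F →L[ℝ] F) (A : α → ι → M → F →L[ℝ] F) (J₀ : F →L[ℝ] F)
    (ρ₀ : ι → M → F →L[ℝ] F) (j₀ : M → L →L[ℝ] F →L[ℝ] F) (A₀ : ι → M → F →L[ℝ] F) : Prop where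
  J : EX I l U Ω (fun n _ => J n) fun _ => J₀
  ρ : ∀ a, EX I l U Ω (fun n => ρ n a) (ρ₀ a)
  j : EX I l U Ω j j₀
  A : ∀ a, EX I l U Ω (fun n => A n a) (A₀ a)

variable (I) in
/-- the identities of an admissible connection on the trivial bundle -/
structure PC (e : ι → (x : M) → TangentSpace I x) (P : ι → ι → M → ℝ) (Γ : ι → ι → ι → M → ℝ)
    (lc : ι → M → L →L[ℝ] L) (J : F →L[ℝ] F) (ρ : ι → M → F →L[ℝ] F)
    (j : M → L →L[ℝ] F →L[ℝ] F) (A : ι → M → F →L[ℝ] F) (x : M) : Prop where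
  proj : ∀ a, ∑ b, P a b x • A b x = A a x
  comp : ∀ a b, dv I (e a) (ρ b) x + (A a x * ρ b x - ρ b x * A a x) = ∑ k, Γ a b k x • ρ k x
  sk : ∀ a, ad (A a x) = -A a x
  J : ∀ a, J * A a x = A a x * J
  j : ∀ a s, dv I (e a) j x s + (A a x * j x s - j x s * A a x) = j x (lc a x s)

/-- the identities of an isomorphism -/
structure PI (J J' : F →L[ℝ] F) (ρ ρ' : ι → F →L[ℝ] F) (j j' : L →L[ℝ] F →L[ℝ] F)
    (u : F →L[ℝ] F) : Prop where
  src : ad u ∘L u = 1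
  tgt : u ∘L ad u = 1
  J : J' ∘L u = u ∘L J
  ρ : ∀ b, ρ' b ∘L u = u ∘L ρ b
  j : ∀ s, j' s ∘L u = u ∘L j s

theorem EX.eq' {G : Type} [NormedAddCommGroup G] [NormedSpace ℝ G] {f f' : α → M → G}
    {g g' : M → G} {p : α → M → Prop} (hd : U ⊆ closure Ω)
    (hp : ∀ y ∈ Ω, ∀ᶠ q in l ×ˢ 𝓝 y, p q.1 q.2) (hx : x ∈ U) (h : EX I l U Ω f g)
    (h' : EX I l U Ω f' g') (e : ∀ n y, p n y → f n y = f' n y) : g x = g' x :=
  h.eq h' hx (hd hx) fun y hy => (hp y hy).mono fun _ a => e _ _ a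

namespace LM
variable {J J' : α → F →L[ℝ] F} {ρ ρ' A A' : α → ι → M → F →L[ℝ] F}
  {j j' : α → M → L →L[ℝ] F →L[ℝ] F} {J₀ J₀' : F →L[ℝ] F}
  {ρ₀ ρ₀' A₀ A₀' : ι → M → F →L[ℝ] F} {j₀ j₀' : M → L →L[ℝ] F →L[ℝ] F}
  (h : LM I l U Ω J ρ j A J₀ ρ₀ j₀ A₀)
include h

theorem mono {U' Ω' : Set M} (hU : U' ⊆ U) (hΩ : Ω' ⊆ Ω) : LM I l U' Ω' J ρ j A J₀ ρ₀ j₀ A₀ :=
  ⟨h.J.mono hU hΩ, fun a => (h.ρ a).mono hU hΩ, h.j.mono hU hΩ, fun a => (h.A a).mono hU hΩ⟩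

variable (hd : U ⊆ closure Ω) (hx : x ∈ U) {P : ι → ι → M → ℝ}
include hd hx

theorem pm (sP : ∀ a b y, SA I (P a b) y) {pl : M → L →L[ℝ] L} (sl : ∀ y, SA I pl y)
    {il : L →L[ℝ] L} (hp : ∀ y ∈ Ω, ∀ᶠ q in l ×ˢ 𝓝 y,
      PM (fun a b => P a b q.2) (pl q.2) il 1 (J q.1) (fun a => ρ q.1 a q.2) (j q.1 q.2)) :
    PM (fun a b => P a b x) (pl x) il 1 J₀ (fun a => ρ₀ a x) (j₀ x) := by
  have e : ∀ {f f' : α → M → F →L[ℝ] F} {g g' : M → F →L[ℝ] F}, EX I l U Ω f g → EX I l U Ω f' g' →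
      (∀ n y, PM (fun a b => P a b y) (pl y) il 1 (J n) (fun a => ρ n a y) (j n y) →
        f n y = f' n y) → g x = g' x := fun {_ _ _ _} => EX.eq' (p := fun n y =>
      PM (fun a b => P a b y) (pl y) il 1 (J n) (fun a => ρ n a y) (j n y)) hd hp hx
  have sl : ∀ s, EX I l U Ω (fun _ y => pl y s) fun y => pl y s := fun s => (EX.fixed' sl).appc s
  have := neBot_iF (l := l) (hd hx)
  obtain ⟨q, hq⟩ := (ev_iF_of (x := x) hp).exists
  refine ⟨e (h.J.mul h.J) (.const _) fun _ _ a => a.Jsq,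
    skew_iff.1 (e (h.J.clm ad) h.J.neg fun _ _ a => skew_iff.2 a.Jsk),
    hq.psym, hq.pidem, hq.prk, (mul_one _).trans (one_mul _).symm,
    ⟨fun a b => e (((h.ρ a).mul (h.ρ b)).add ((h.ρ b).mul (h.ρ a)))
      (((EX.fixed' (sP a b)).csmul (-2)).smul (.const 1)) fun _ _ c => c.cl.rel a b,
      fun _ => one_mul _, fun _ => mul_one _, fun a => e
        (.sum fun b => (EX.fixed' (sP a b)).smul (h.ρ b)) (h.ρ a) fun _ _ c => c.cl.proj a⟩,
    fun a => skew_iff.1 (e ((h.ρ a).clm ad) (h.ρ a).neg fun _ _ c => skew_iff.2 (c.ρsk a)),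
    fun a => e (h.J.mul (h.ρ a)) ((h.ρ a).mul h.J) fun _ _ c => c.Jρ a,
    fun s => symm_iff.1 (e ((h.j.appc s).clm ad) (h.j.appc s) fun _ _ c => symm_iff.2 (c.jsym s)),
    fun s => e ((h.j.appc s).mul h.J) (h.J.mul (h.j.appc s)).neg fun _ _ c => c.jJ s,
    fun s => e (h.j.appc _) (h.J.mul (h.j.appc s)) fun _ _ c => c.jil s,
    fun s => e (h.j.app (sl s)) (h.j.appc s) fun _ _ c => c.jl s, fun s => ?_, fun _ => one_mul _,
    fun a s => e ((h.j.appc s).mul (h.ρ a)) ((h.ρ a).mul (h.j.appc s)) fun _ _ c => c.jρ a s⟩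
  rw [← real_inner_self_eq_norm_sq]
  exact e ((h.j.appc s).mul (h.j.appc s)) (((sl s).bil (innerSL ℝ) (sl s)).smul (.const 1))
    fun _ _ c => (c.jsq s).trans (by rw [← real_inner_self_eq_norm_sq]; rfl)

variable (hΩ : IsOpen Ω) {e : α → ι → (x : M) → TangentSpace I x}
  {e₀ : ι → (x : M) → TangentSpace I x} (hv : VC I l e e₀)

include hΩ hv in
theorem pc (sP : ∀ a b y, SA I (P a b) y) {Γ : α → ι → ι → ι → M → ℝ} {Γ₀ : ι → ι → ι → M → ℝ}
    (hΓ : ∀ a b k, Cv I l univ (fun n => Γ n a b k) (Γ₀ a b k))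
    {lc : α → ι → M → L →L[ℝ] L} {lc₀ : ι → M → L →L[ℝ] L}
    (ha : ∀ a, Cv I l univ (fun n => lc n a) (lc₀ a)) (hp : ∀ y ∈ Ω, ∀ᶠ q in l ×ˢ 𝓝 y,
      PC I (e q.1) P (Γ q.1) (lc q.1) (J q.1) (ρ q.1) (j q.1) (A q.1) q.2) :
    PC I e₀ P Γ₀ lc₀ J₀ ρ₀ j₀ A₀ x := by
  have e : ∀ {f f' : α → M → F →L[ℝ] F} {g g' : M → F →L[ℝ] F}, EX I l U Ω f g → EX I l U Ω f' g' →
      (∀ n y, PC I (e n) P (Γ n) (lc n) (J n) (ρ n) (j n) (A n) y → f n y = f' n y) → g x = g' x :=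
    fun {_ _ _ _} => EX.eq' (p := fun n y => PC I (e n) P (Γ n) (lc n) (J n) (ρ n) (j n) (A n) y)
      hd hp hx
  exact ⟨fun a => e (.sum fun b => (EX.fixed' (sP a b)).smul (h.A b)) (h.A a) fun _ _ c => c.proj a,
    fun a b => e (((h.ρ b).dv hv hΩ a).add (((h.A a).mul (h.ρ b)).sub
      ((h.ρ b).mul (h.A a)))) (.sum fun k => (EX.of_cv (hΓ a b k)).smul (h.ρ k))
      fun _ _ c => c.comp a b,
    fun a => e ((h.A a).clm ad) (h.A a).neg fun _ _ c => c.sk a,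
    fun a => e (h.J.mul (h.A a)) ((h.A a).mul h.J) fun _ _ c => c.J a,
    fun a s => e (((h.j.dv hv hΩ a).appc s).add (((h.A a).mul (h.j.appc s)).sub
      ((h.j.appc s).mul (h.A a)))) (h.j.app ((EX.of_cv (ha a)).appc s)) fun _ _ c => c.j a s⟩

variable (h' : LM I l U Ω J' ρ' j' A' J₀' ρ₀' j₀' A₀') {u : α → M → F →L[ℝ] F}
  {u₀ : M → F →L[ℝ] F} (hu : EX I l U Ω u u₀)
include h' hu

theorem pi (hp : ∀ y ∈ Ω, ∀ᶠ q in l ×ˢ 𝓝 y, PI (J q.1) (J' q.1) (fun a => ρ q.1 a q.2)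
      (fun a => ρ' q.1 a q.2) (j q.1 q.2) (j' q.1 q.2) (u q.1 q.2)) :
    PI J₀ J₀' (fun a => ρ₀ a x) (fun a => ρ₀' a x) (j₀ x) (j₀' x) (u₀ x) := by
  have e : ∀ {f f' : α → M → F →L[ℝ] F} {g g' : M → F →L[ℝ] F}, EX I l U Ω f g → EX I l U Ω f' g' →
      (∀ n y, PI (J n) (J' n) (fun a => ρ n a y) (fun a => ρ' n a y) (j n y) (j' n y) (u n y) →
        f n y = f' n y) → g x = g' x := fun {_ _ _ _} => EX.eq' (p := fun n y =>
      PI (J n) (J' n) (fun a => ρ n a y) (fun a => ρ' n a y) (j n y) (j' n y) (u n y)) hd hp hx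
  have ha := hu.clm (ad (V := F) (W := F))
  have h1 := e (ha.comp hu) (.const 1) fun _ _ c => c.src
  have h2 := e (hu.comp ha) (.const 1) fun _ _ c => c.tgt
  exact ⟨h1, h2,
    e (h'.J.comp hu) (hu.comp h.J) fun _ _ c => c.J,
    fun b => e (f := fun n y => ρ' n b y ∘L u n y) (f' := fun n y => u n y ∘L ρ n b y)
      ((h'.ρ b).comp hu) (hu.comp (h.ρ b)) fun _ _ c => c.ρ b,
    fun s => e ((h'.j.appc s).comp hu) (hu.comp (h.j.appc s)) fun _ _ c => c.j s⟩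

include hΩ hv in
theorem par (hp : ∀ y ∈ Ω, ∀ᶠ q in l ×ˢ 𝓝 y,
      ∀ a, cov I (e q.1 a) (A q.1 a) (A' q.1 a) (u q.1) q.2 = 0) (a : ι) :
    cov I (e₀ a) (A₀ a) (A₀' a) u₀ x = 0 :=
  EX.eq' (p := fun n y => ∀ a, cov I (e n a) (A n a) (A' n a) (u n) y = 0) hd hp hx
    (((hu.dv hv hΩ a).add ((h'.A a).comp hu)).sub (hu.comp (h.A a))) (.const 0) fun _ _ c => c a

end LM
end gen

section conv
variable {J J' : En (Fin 16)} {ρ ρ' A : ι → M → En (Fin 16)} {j j' : M → CL (Eu lam) (En (Fin 16))}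
  {U : Set M} {G : Geo I M ι lam}

theorem okOn_pm (hx : x ∈ U) (sρ : ∀ a, ∀ y ∈ U, SA I (ρ a) y) (sj : ∀ y ∈ U, SA I j y)
    (h : ∀ y ∈ U, PMx B (lm J ρ j) y) : OKOn I B (lm J ρ j) U :=
  ⟨(h x hx).Jsq, (h x hx).Jsk, fun _ _ => contMDiffAt_const, sρ, sj, fun y hy => (h y hy).psym,
    fun y hy => (h y hy).pidem, fun y hy => (h y hy).prk, fun y hy => (h y hy).Jp,
    fun y hy => (h y hy).cl, fun a y hy => (h y hy).ρsk a, fun a y hy => (h y hy).Jρ a,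
    fun y hy => (h y hy).jsym, fun y hy => (h y hy).jJ, fun y hy => (h y hy).jil,
    fun y hy => (h y hy).jl, fun y hy => (h y hy).jsq, fun y hy => (h y hy).pj,
    fun a y hy => (h y hy).jρ a⟩

theorem pc_conn (h : ConnOn B G (lm J ρ j) A U) (hx : x ∈ U) :
    PC I G.F.e B.P G.F.Gam G.a J ρ j A x :=
  ⟨fun a => h.proj a x hx, fun a b => h.comp a b x hx, fun a => skew_iff.2 (h.sk a x hx),
    fun a => h.J a x hx, fun a => h.j a x hx⟩

theorem conn_pc (sA : ∀ a, ∀ y ∈ U, SA I (A a) y)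
    (h : ∀ y ∈ U, PC I G.F.e B.P G.F.Gam G.a J ρ j A y) : ConnOn B G (lm J ρ j) A U :=
  ⟨sA, fun a y hy => (h y hy).proj a, fun a y _ => by simp [Pre.D_def, dv_cst],
    fun a b y hy => (h y hy).comp a b, fun a y hy => skew_iff.1 ((h y hy).sk a),
    fun a y hy => (h y hy).J a, fun a y hy => (h y hy).j a⟩

theorem pi_iso {u : M → En (Fin 16)} (h : Iso0 I (lm J ρ j) (lm J' ρ' j') U u) (hx : x ∈ U) :
    PI J J' (fun a => ρ a x) (fun a => ρ' a x) (j x) (j' x) (u x) :=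
  ⟨(h.iso x hx).src, (h.iso x hx).tgt, h.J x hx, h.ρ x hx, h.j x hx⟩

theorem iso_pi {u : M → En (Fin 16)} (su : ∀ y ∈ U, SA I u y)
    (h : ∀ y ∈ U, PI J J' (fun a => ρ a y) (fun a => ρ' a y) (j y) (j' y) (u y)) :
    Iso0 I (lm J ρ j) (lm J' ρ' j') U u :=
  ⟨su, fun y hy => ⟨(h y hy).src, (h y hy).tgt, rfl⟩, fun y hy => (h y hy).J,
    fun y hy => (h y hy).ρ, fun y hy => (h y hy).j⟩

end conv

/-- normalised intertwiners are isomorphisms -/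
theorem iso0_nrm (hB : B.OK I) {m m' : Md M ι lam} (H : PMx B m x) (H' : PMx B m' x)
    {v u : M → CL m.V m'.V} (i : Itx m m' x (v x)) (h0 : 0 < hs (v x) (v x) / 16)
    (e : u x = (√(hs (v x) (v x) / 16))⁻¹ • v x) (s : SA I u x) : Iso0 I m m' {x} u := by
  have a := i.smul (√(hs (v x) (v x) / 16))⁻¹
  have n : hs (u x) (u x) = 16 := by
    rw [e, Std94.hs_smul, Std94.hs_comm (v x) (_ • _), Std94.hs_smul, ← mul_assoc, ← mul_inv,
      Real.mul_self_sqrt h0.le]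
    have : hs (v x) (v x) ≠ 0 := fun h => by simp [h] at h0
    field_simp
  rw [← e] at a
  have := Std94.itx_norm hB H H' a
  rw [n, div_self (by norm_num), one_smul, one_smul, ← Pj41.ad_trn] at this
  exact ⟨by rintro _ rfl; exact s, by rintro _ rfl; exact ⟨this.1, this.2, by ext1; exact a.pr _⟩,
    by rintro _ rfl; ext1; exact (a.J _).symm, by rintro _ rfl b; ext1; exact (a.ρ b _).symm,
    by rintro _ rfl b; ext1; exact (a.j b _).symm⟩

theorem itx_of_iso {m m' : Md M ι lam} {O : Set M} {u : M → CL m.V m'.V} (h : Iso0 I m m' O u)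
    (hx : x ∈ O) : Itx m m' x (u x) :=
  have ap : ∀ {S T : CL m.V m'.V}, S = T → ∀ v, S v = T v := fun e v => by rw [e]
  ⟨ap (h.iso x hx).left, ap (h.iso x hx).idem, fun a y => (ap (h.ρ x hx a) y).symm,
    fun y => (ap (h.J x hx) y).symm, fun s y => (ap (h.j x hx s) y).symm⟩

end Crest.Agent.X212.Pat85
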