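import Crest.Agent.X212.Pat85.Cht
import Crest.Agent.X212.Std94.Alt

/-!
# X212, PATCH (helper85): radial frames on a chart of the manifold
-/

set_option autoImplicit false
set_option linter.unusedSectionVars false
open Set Filter Topology Function
open scoped ContDiff Manifold InnerProductSpace

noncomputable section
namespace Crest.Agent.X212.Pat85

open Cmp73 Sob92
open Wz78 (nab curv SA Frm)
open N207.H (crv)

theorem exists_iso {V F : Type} [NormedAddCommGroup V] [InnerProductSpace ℝ V]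
    [FiniteDimensional ℝ V] [NormedAddCommGroup F] [InnerProductSpace ℝ F] [FiniteDimensional ℝ F]
    {p : V →L[ℝ] V} (hs : ad p = p) (hi : p ∘L p = p)
    (ht : LinearMap.trace ℝ V (p : V →ₗ[ℝ] V) = Module.finrank ℝ F) :
    ∃ g : F →L[ℝ] V, ad g ∘L g = 1 ∧ g ∘L ad g = p := by
  obtain ⟨b, h1, -, h3⟩ := Std94.exists_frame (T := (p : V →ₗ[ℝ] V))
    (fun w => congrArg (fun L : V →L[ℝ] V => L w) hi) (symm_iff.1 hs) ht
  let c := stdOrthonormalBasis ℝ F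
  let g : F →L[ℝ] V := ∑ i, (innerSL ℝ (c i)).smulRight (b i)
  have g1 : ∀ v, g v = ∑ i, ⟪c i, v⟫_ℝ • b i := fun v => by simp [g, _root_.sum_apply]
  have g2 : ∀ w i, ⟪c i, ad g w⟫_ℝ = ⟪b i, w⟫_ℝ := fun w i => by
    rw [inner_ad', g1]
    simp [orthonormal_iff_ite.1 c.orthonormal]
  refine ⟨g, ?_, ?_⟩
  · ext v
    refine c.toBasis.ext_elem fun i => ?_
    simp only [OrthonormalBasis.coe_toBasis_repr_apply, OrthonormalBasis.repr_apply_apply]
    change ⟪c i, ad g (g v)⟫_ℝ = ⟪c i, v⟫_ℝ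
    rw [g2, g1]
    simpa using h1.inner_right_fintype (fun i => ⟪c i, v⟫_ℝ) i
  · ext w
    change g (ad g w) = p w
    rw [g1]
    simp only [g2]
    exact (h3 w).symm

variable {E : Type} [NormedAddCommGroup E] [NormedSpace ℝ E] [FiniteDimensional ℝ E]
  {HM : Type} [TopologicalSpace HM] {I : ModelWithCorners ℝ E HM} [I.Boundaryless]
  {M : Type} [TopologicalSpace M] [ChartedSpace HM M] [IsManifold I ∞ M]
  {E' : Type} [NormedAddCommGroup E'] [InnerProductSpace ℝ E'] [FiniteDimensional ℝ E']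
  {ι α : Type} [Fintype ι] {φ : OpenPartialHomeomorph M E'}

variable (I) in
/-- a unitary connection with a parallel projector, at a point -/
structure Pc {V : Type} [NormedAddCommGroup V] [InnerProductSpace ℝ V] [FiniteDimensional ℝ V]
    (e : ι → (x : M) → TangentSpace I x) (W : ι → M → V →L[ℝ] V) (p : M → V →L[ℝ] V)
    (J : V →L[ℝ] V) (r : ℕ) (x : M) : Prop where
  sW : ∀ a, SA I (W a) x
  sp : SA I p x
  sk : ∀ a, ad (W a x) = -W a x
  ker : ∀ s : ι → ℝ, ∑ a, s a • e a x = 0 → ∑ a, s a • W a x = 0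
  psym : ad (p x) = p x
  pidem : p x ∘L p x = p x
  prk : LinearMap.trace ℝ V (p x : V →ₗ[ℝ] V) = r
  par : ∀ a, cov I (e a) (W a) (W a) p x = 0
  JW : ∀ a, J ∘L W a x = W a x ∘L J
  Jp : J ∘L p x = p x ∘L J

variable {V : α → Type} [∀ n, NormedAddCommGroup (V n)] [∀ n, InnerProductSpace ℝ (V n)]
  [∀ n, FiniteDimensional ℝ (V n)]

variable (I) in
/-- the hypotheses of the patching theorem -/
structure Dat (l : Filter α) (S : Set M) (e : α → ι → (x : M) → TangentSpace I x)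
    (e₀ : ι → (x : M) → TangentSpace I x) (W : ∀ n, ι → M → V n →L[ℝ] V n)
    (p : ∀ n, M → V n →L[ℝ] V n) (J : ∀ n, V n →L[ℝ] V n) (r : ℕ) : Prop where
  vc : VC I l e e₀
  loc : ∀ x ∉ S, ∀ᶠ q in l ×ˢ 𝓝 x, Pc I (e q.1) (W q.1) (p q.1) (J q.1) r q.2
  crv : ∃ (P : α → ι → ι → M → ℝ) (c : α → ι → ι → ι → M → ℝ), (∀ n, Frm I (e n) (P n) (c n)) ∧ ∀ a b, ∃ R : ∀ n, M → V n →L[ℝ] V n,
    (∀ k x, DB I (iF l Sᶜ x) e (fun n => hom (W n) (W n)) k R) ∧ ∀ x ∉ S, ∀ᶠ q in l ×ˢ 𝓝 x,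
      R q.1 q.2 ∘L p q.1 q.2 = curv I (e q.1) (c q.1) (W q.1) a b q.2 ∘L p q.1 q.2

variable {l : Filter α} {S : Set M} {e : α → ι → (x : M) → TangentSpace I x}
  {e₀ : ι → (x : M) → TangentSpace I x} {W : ∀ n, ι → M → V n →L[ℝ] V n}
  {p : ∀ n, M → V n →L[ℝ] V n} {J : ∀ n, V n →L[ℝ] V n} {r : ℕ}

variable (I) in
/-- the connection form in a chart -/
def chG (φ : OpenPartialHomeomorph M E') (e : α → ι → (x : M) → TangentSpace I x)
    (W : ∀ n, ι → M → V n →L[ℝ] V n) (n : α) (z : E') : E' →L[ℝ] V n →L[ℝ] V n :=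
  comb ι (V n →L[ℝ] V n) (fun a => W n a (φ.symm z)) ∘L rinv fun a => chT I φ e n a z

theorem chG_apply (n : α) (z v : E') : chG I φ e W n z v =
    ∑ a, rinv (fun a => chT I φ e n a z) v a • W n a (φ.symm z) := comb_apply _ _

variable (I φ e W p J r) in
/-- good points of the chart -/
structure Gd (n : α) (z : E') : Prop where
  tg : z ∈ φ.target
  pc : Pc I (e n) (W n) (p n) (J n) r (φ.symm z)
  inv : (gram fun a => chT I φ e n a z).IsInvertible
  sθ : ContDiffAt ℝ ∞ (fun z => rinv fun a => chT I φ e n a z) z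

namespace Gd
variable (hφ : SCh I φ) {n : α} {z : E'} (h : Gd I φ e W p J r n z)
include hφ h

theorem sG : ContDiffAt ℝ ∞ (chG I φ e W n) z :=
  (cda_clm (comb ι (V n →L[ℝ] V n)) (contDiffAt_pi.2 fun a =>
    ((h.pc.sW a).comp z (hφ.sm' z h.tg)).contDiffAt)).clm_comp h.sθ

theorem sk (v : E') : ad (chG I φ e W n z v) = -chG I φ e W n z v := by
  simp only [chG_apply, map_sum, map_smul, h.pc.sk, smul_neg, Finset.sum_neg_distrib]

theorem GT (a : ι) : chG I φ e W n z (chT I φ e n a z) = W n a (φ.symm z) := by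
  classical
  have h1 := congrArg (mfderiv 𝓘(ℝ, E') I φ.symm z) (rinv_sum h.inv (chT I φ e n a z))
  have h2 : ∑ b, rinv (fun a => chT I φ e n a z) (chT I φ e n a z) b • e n b (φ.symm z) =
      e n a (φ.symm z) := by
    rw [← hφ.rel' (e := e) h.tg n a, ← h1]
    refine Eq.trans ?_ (map_sum (mfderiv 𝓘(ℝ, E') I φ.symm z) _ _).symm
    exact Finset.sum_congr rfl fun b _ => by
      rw [← hφ.rel' (e := e) h.tg n b]; exact (map_smul (mfderiv 𝓘(ℝ, E') I φ.symm z) _ _).symm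
  have h3 := h.pc.ker (fun b => rinv (fun a => chT I φ e n a z) (chT I φ e n a z) b -
    if b = a then 1 else 0) (by simp [sub_smul, Finset.sum_sub_distrib, h2])
  rw [chG_apply, ← sub_eq_zero, ← h3]
  simp [sub_smul, Finset.sum_sub_distrib]

theorem par : DifferentiableAt ℝ (fun y => p n (φ.symm y)) z ∧ ∀ v,
    fderiv ℝ (fun y => p n (φ.symm y)) z v + (chG I φ e W n z v ∘L p n (φ.symm z) -
      p n (φ.symm z) ∘L chG I φ e W n z v) = 0 := by
  refine ⟨(h.pc.sp.comp z (hφ.sm' z h.tg)).contDiffAt.differentiableAt (by simp), fun v => ?_⟩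
  rw [← rinv_sum h.inv v]
  simp only [map_sum, map_smul, ContinuousLinearMap.comp_finsetSum,
    ContinuousLinearMap.finsetSum_comp, ContinuousLinearMap.comp_smul,
    ContinuousLinearMap.smul_comp, ← Finset.sum_sub_distrib, ← Finset.sum_add_distrib, ← smul_sub,
    ← smul_add, h.GT hφ]
  refine Finset.sum_eq_zero fun a _ => smul_eq_zero_of_right _ ?_
  rw [← dv_flat (chT I φ e n a), dv_rel (hφ.sm' z h.tg) (hφ.rel' h.tg n a) h.pc.sp,
    ← add_sub_assoc]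
  exact h.pc.par a

theorem JG (v : E') : J n ∘L chG I φ e W n z v = chG I φ e W n z v ∘L J n := by
  simp only [chG_apply, ContinuousLinearMap.comp_finsetSum, ContinuousLinearMap.finsetSum_comp,
    ContinuousLinearMap.comp_smul, ContinuousLinearMap.smul_comp, h.pc.JW]

end Gd

theorem crv_frame (hφ : SCh I φ) {n : α} {z : E'} (h : ∀ᶠ y in 𝓝 z, Gd I φ e W p J r n y)
    {P : ι → ι → M → ℝ} {c : ι → ι → ι → M → ℝ} (F : Frm I (e n) P c) (a b : ι) :
    crv (chG I φ e W n) z (chT I φ e n a z) (chT I φ e n b z) =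
      curv I (e n) c (W n) a b (φ.symm z) := by
  have h0 := h.self_of_nhds
  have hx := φ.map_target h0.tg
  have sφ := hφ.sm _ hx
  have ez := φ.right_inv h0.tg
  have sG : SA 𝓘(ℝ, E') (chG I φ e W n) (φ (φ.symm z)) := by rw [ez]; exact (h0.sG hφ).contMDiffAt
  have key : ∀ a b, dv I (e n a) (W n b) (φ.symm z) =
      fderiv ℝ (chG I φ e W n) z (chT I φ e n a z) (chT I φ e n b z) +
        chG I φ e W n z (dv I (e n a) (dv I (e n b) φ) (φ.symm z)) := fun a b => by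
    have e1 : W n b =ᶠ[𝓝 (φ.symm z)] fun y => chG I φ e W n (φ y) (dv I (e n b) φ y) := by
      have h1 : ∀ᶠ y in 𝓝 (φ (φ.symm z)), Gd I φ e W p J r n y := by rwa [ez]
      filter_upwards [sφ.continuousAt.eventually h1, φ.open_source.mem_nhds hx] with y h2 h3
      have := h2.GT hφ b
      rw [chT, φ.left_inv h3] at this
      exact this.symm
    rw [dv_congr e1, dv_app (f := fun y => chG I φ e W n (φ y)) (SA.md (sG.comp _ sφ)) (F.sD b sφ).md,
      dv_rel sφ (hφ.rel hx n a) sG, dv_flat, ez]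
    rfl
  have h1 := congrArg (chG I φ e W n z) (F.brV a b sφ)
  rw [map_sub, map_sum] at h1
  have h2 : ∀ k, chG I φ e W n z (c a b k (φ.symm z) • dv I (e n k) φ (φ.symm z)) =
      c a b k (φ.symm z) • W n k (φ.symm z) := fun k => by rw [map_smul, ← h0.GT hφ k]; rfl
  simp only [h2] at h1
  rw [crv, curv, key, key, ← h1, h0.GT hφ, h0.GT hφ]
  abel

variable {F : Type} [NormedAddCommGroup F] [InnerProductSpace ℝ F] [FiniteDimensional ℝ F] {c : E'}

theorem SCh.pl (hφ : SCh I φ) {w : E'} (hw : w ∈ φ.target) {P : α → M → Prop}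
    (hP : ∀ᶠ q in l ×ˢ 𝓝 (φ.symm w), P q.1 q.2) : ∀ᶠ q in l ×ˢ 𝓝 w, P q.1 (φ.symm q.2) :=
  (tendsto_id.prodMap (hφ.sm' w hw).continuousAt.tendsto).eventually hP

theorem SCh.ps (hφ : SCh I φ) {x : M} (hx : x ∈ φ.source) {P : α → E' → Prop}
    (hP : ∀ᶠ q in l ×ˢ 𝓝 (φ x), P q.1 q.2) : ∀ᶠ q in l ×ˢ 𝓝 x, P q.1 (φ q.2) :=
  (tendsto_id.prodMap (hφ.sm x hx).continuousAt.tendsto).eventually hP

theorem Gd.fra (hφ : SCh I φ) {n : α} {y : M} (hy : y ∈ φ.source) (h : Gd I φ e W p J r n (φ y))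
    {g : E' → F →L[ℝ] V n} (hg : RF (chG I φ e W n) (fun y => p n (φ.symm y)) c g (φ y))
    (hT : ∀ a, ContDiffAt ℝ ∞ (chT I φ e n a) (φ y)) :
    Fra I (e n) (W n) (p n) (fun a x => rcn (chG I φ e W n) g (φ x) (chT I φ e n a (φ x)))
      (fun x => g (φ x)) y := by
  have ey : φ.symm (φ y) = y := φ.left_inv hy
  have sφ := hφ.sm y hy
  refine ⟨hg.sg.contMDiffAt.comp y sφ, fun a => (hg.sB.clm_apply (hT a)).contMDiffAt.comp y sφ,
    hg.iso, hg.rg.trans (congrArg (p n) ey), fun a => ?_, fun a => hg.skB _, fun a => ?_⟩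
  · have := h.pc.sk a
    rwa [ey] at this
  · simp only [cov]
    rw [dv_rel sφ (hφ.rel hy n a) hg.sg.contMDiffAt, dv_flat, hg.par, h.GT hφ, ey]
    abel

namespace Dat
variable [l.NeBot] (h : Dat I l S e e₀ W p J r) (hφ : SCh I φ)
include h hφ

theorem gd (c z : E') :
    ∀ᶠ q in sF l (φ.target ∩ φ.symm ⁻¹' Sᶜ) c z, Gd I φ e W p J r q.1 q.2 := sF_ev fun w hw => by
  filter_upwards [hφ.pl (P := fun n y => Pc I (e n) (W n) (p n) (J n) r y) hw.1 (h.loc _ hw.2),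
    (hφ.ff h.vc hw.1).2, ((hφ.ff h.vc hw.1).1.cθ 0).smooth,
    tendsto_snd.eventually (φ.open_target.eventually_mem hw.1)] with q a1 a2 a3 a4
  exact ⟨a4, a1, a2, a3⟩

theorem ff {z : E'} (sg : segment ℝ c z ⊆ φ.target) : FF (sF l (φ.target ∩ φ.symm ⁻¹' Sᶜ) c z)
    (chT I φ e) fun n y => rinv fun a => chT I φ e n a y :=
  ⟨sb_sF.ob, fun k a => sF_cb fun _ hw => ((hφ.ff h.vc (sg hw)).1.cT k a).mono iF_le,
    fun k => sF_cb fun _ hw => ((hφ.ff h.vc (sg hw)).1.cθ k).mono iF_le,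
    sF_ev fun _ hw => (hφ.ff h.vc hw.1).1.sp⟩

theorem cb {z : E'} (sg : segment ℝ c z ⊆ φ.target) {g : ∀ n, E' → F →L[ℝ] V n}
    (rf : ∀ᶠ q in sF l (φ.target ∩ φ.symm ⁻¹' Sᶜ) c z,
      RF (chG I φ e W q.1) (fun y => p q.1 (φ.symm y)) c (g q.1) q.2) (k : ℕ) :
    CB (sF l (φ.target ∩ φ.symm ⁻¹' Sᶜ) c z) k fun n => rcn (chG I φ e W n) (g n) := by
  obtain ⟨P, c', hFr, hR⟩ := h.crv
  choose R R1 R2 using hR
  have ff := h.ff hφ sg
  have gd := h.gd hφ c z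
  refine cb_rcn (p := fun n y => p n (φ.symm y)) ff sb_sF ?_ rf
    (R := fun a b n y => R a b n (φ.symm y)) (fun k a b => ?_) ?_ k
  · exact sF_ex (P := fun K q => ‖q.2 - c‖ ≤ K) (fun _ _ _ a b => b.trans a) fun w _ =>
      ⟨‖w - c‖ + 1, iF_le (tendsto_snd.eventually
        ((continuous_id.sub continuous_const).norm.continuousAt.eventually
          (Iic_mem_nhds (lt_add_one _))))⟩
  · refine DB.congr' ff.ob (.of_forall fun _ _ => rfl) (gd.mono fun q hq a => ?_)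
      (sF_db fun w hw => hφ.to_flat (sg hw) (R1 a b k _)) (.of_forall fun _ => rfl)
    simp only [hom, hq.GT hφ]
  · filter_upwards [ff.ob.ev gd, rf, sF_ev fun w hw => hφ.pl (P := fun n y => ∀ a b,
      R a b n y ∘L p n y = curv I (e n) (c' n) (W n) a b y ∘L p n y) hw.1
      (eventually_all.2 fun a => eventually_all.2 fun b => R2 a b _ hw.2)] with q a1 a2 a3 a b
    have e1 : p q.1 (φ.symm q.2) ∘L g q.1 q.2 = g q.1 q.2 := by
      rw [← a2.rg, ContinuousLinearMap.comp_assoc, a2.iso]; rfl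
    rw [crv_frame hφ a1 (hFr q.1), ← e1, ← ContinuousLinearMap.comp_assoc, a3,
      ContinuousLinearMap.comp_assoc]

theorem exists_rf (hF : Module.finrank ℝ F = r) (c : E') :
    ∃ (g : ∀ n, E' → F →L[ℝ] V n) (J₀ : α → F →L[ℝ] F), ∀ z,
      ∀ᶠ q in sF l (φ.target ∩ φ.symm ⁻¹' Sᶜ) c z,
        RF (chG I φ e W q.1) (fun y => p q.1 (φ.symm y)) c (g q.1) q.2 ∧
          J q.1 ∘L g q.1 q.2 = g q.1 q.2 ∘L J₀ q.1 := by
  have : ∀ n, ∃ g₀ : F →L[ℝ] V n, Gd I φ e W p J r n c →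
      ad g₀ ∘L g₀ = 1 ∧ g₀ ∘L ad g₀ = p n (φ.symm c) := fun n => by
    by_cases h1 : Gd I φ e W p J r n c
    · exact (exists_iso h1.pc.psym h1.pc.pidem (hF ▸ h1.pc.prk)).imp fun _ a _ => a
    · exact ⟨0, fun a => absurd a h1⟩
  choose g₀ hg₀ using this
  choose g hg using fun n => Pat85.exists_rf (chG I φ e W n) (fun y => p n (φ.symm y)) c (g₀ n)
  refine ⟨g, fun n => ad (g₀ n) ∘L J n ∘L g₀ n, fun z => ?_⟩
  filter_upwards [sb_sF _ (h.gd hφ c z)] with q hq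
  have a : ∀ y ∈ interior {z | Gd I φ e W p J r q.1 z}, Gd I φ e W p J r q.1 y :=
    fun y hy => interior_subset (s := {z | Gd I φ e W p J r q.1 z}) hy
  have a0 := a c (hq (left_mem_segment ℝ c q.2))
  obtain ⟨b1, b2⟩ := hg q.1 _ isOpen_interior (hg₀ q.1 a0).1 (hg₀ q.1 a0).2
    (fun y hy => ⟨(a y hy).sG hφ, (a y hy).sk hφ⟩) (fun y hy => (a y hy).par hφ) q.2 hq
  exact ⟨b1, b2 _ a0.pc.Jp fun y hy => (a y hy).JG hφ⟩

/-- **radial frames on a chart** -/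
theorem exists_fra (hc : Convex ℝ φ.target) (hc' : c ∈ φ.target) (hF : Module.finrank ℝ F = r) :
    ∃ (g : ∀ n, M → F →L[ℝ] V n) (B : α → ι → M → F →L[ℝ] F) (J₀ : α → F →L[ℝ] F),
      (∀ x ∈ φ.source ∩ φ ⁻¹' vis (φ.target ∩ φ.symm ⁻¹' Sᶜ) c, ∀ᶠ q in l ×ˢ 𝓝 x,
        Fra I (e q.1) (W q.1) (p q.1) (B q.1) (g q.1) q.2 ∧
          J q.1 ∘L g q.1 q.2 = g q.1 q.2 ∘L J₀ q.1) ∧
      ∀ x ∈ φ.source, ∀ k a, DB I (iF l (φ.source ∩ φ ⁻¹' vis (φ.target ∩ φ.symm ⁻¹' Sᶜ) c) x) e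
        (z0 ι M fun _ => F →L[ℝ] F) k fun n => B n a := by
  obtain ⟨g, J₀, rf⟩ := h.exists_rf hφ hF c
  refine ⟨fun n x => g n (φ x), fun n a x => rcn (chG I φ e W n) (g n) (φ x) (chT I φ e n a (φ x)),
    J₀, fun x hx => ?_, fun x hx k a => ?_⟩
  · have h1 : l ×ˢ 𝓝 (φ x) ≤ sF l (φ.target ∩ φ.symm ⁻¹' Sᶜ) c (φ x) :=
      (le_iF (T := vis (φ.target ∩ φ.symm ⁻¹' Sᶜ) c) (x := φ x) hx.2).trans iF_le_sF
    have b1 := (rf (φ x)).filter_mono h1
    have b2 := (h.gd hφ c (φ x)).filter_mono h1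
    have b3 : ∀ᶠ q in l ×ˢ 𝓝 (φ x), ∀ a, ContDiffAt ℝ ∞ (chT I φ e q.1 a) q.2 :=
      eventually_all.2 fun a => ((hφ.ff h.vc (φ.map_source hx.1)).1.cT 0 a).smooth
    have t := tendsto_id.prodMap (hφ.sm x hx.1).continuousAt.tendsto (a := l)
    filter_upwards [t.eventually b1, t.eventually b2, t.eventually b3,
      tendsto_snd.eventually (φ.open_source.eventually_mem hx.1)] with q a1 a2 a3 a4
    exact ⟨a2.fra hφ a4 a1.1 a3, a1.2⟩
  · have sg : segment ℝ c (φ x) ⊆ φ.target := hc.segment_subset hc' (φ.map_source hx)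
    have ff := h.ff hφ sg
    exact hφ.of_flat hx (f := fun n z => rcn (chG I φ e W n) (g n) z (chT I φ e n a z))
      ((ff.mono ob_iF iF_le_sF).db (((h.cb hφ sg ((rf _).mono fun _ a => a.1) k).app
        (ff.cT k a)).mono iF_le_sF))

end Dat

end Crest.Agent.X212.Pat85
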