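import Crest.Agent.X212.Pat85.MovA
import Crest.Agent.X212.Qab60.Hol
import Crest.Agent.X212.Wrd81.Jb

/-! X212 (helper85), leaf H-MOV: an inner word moves the holonomy. -/

set_option autoImplicit false
set_option linter.unusedSectionVars false
noncomputable section
open scoped Manifold ContDiff Topology InnerProductSpace Real
open MeasureTheory Set Function Filter
open Crest.Agent.R208.F (Ext)

namespace Crest.Agent.X212.Pat85
open An M Nd18 Rf65 Qab60
open Dr59 (dM)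
open Fin37 (Pm tm)
open Wrd81 (TmIn Tf)

section job
variable {Wi : Type} {X : Mf 4} {A κ lam : Type} [Fintype A] [Fintype κ] [Fintype lam]
  [DecidableEq lam] {M : Mark X A κ} {W : World M} {N : ML M lam} {Λ : Lns W N}
  {A' h : Type} [Fintype A'] [DecidableEq A'] [Fintype h] {r n : ℕ}
  {J : Job Wi Λ A' h r n} {c : M.Cl} {R : A} {ν : Type} [Fintype ν] [DecidableEq ν]
  {Q : QT (W.Z c).E (W.Z c).M ν} {θ : (J.xs R).Y.M → Circle} {ϖ : (J.xs R).Y.M → V3}
  {q : Wi →₀ ℝ} {s : A' → ℝ} {f a : (W.Z c).M → Ext (W.Z c).E} {β : Wi → ℝ} {w : Wi}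

open Classical in
theorem aH_single (hw : TmIn (W.Z c).I univ (tm J c w)) (t : ℝ) :
    aH c J (insert w q.support) (q + Finsupp.single w t : Wi →₀ ℝ) s = aH c J q.support q s +
      t • J.co w s • tmH (J.G c s).F (J.B c).o (tm J c w) := by
  simp only [aH, smH, Finsupp.add_apply, add_mul, add_smul, Finset.sum_add_distrib]
  congr 1
  · refine (Finset.sum_subset (Finset.filter_subset_filter _ (Finset.subset_insert _ _))
      fun v k1 k2 => ?_).symm
    rw [Finsupp.notMem_support_iff.1 fun k => k2 (Finset.mem_filter.2 ⟨k, wS_in k1⟩), zero_mul,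
      zero_smul]
  · refine (Finset.sum_eq_single w (fun v _ e => ?_)
      fun k => (k (Finset.mem_filter.2 ⟨Finset.mem_insert_self _ _, hw⟩)).elim).trans ?_
    · rw [Finsupp.single_eq_of_ne e, zero_mul, zero_smul]
    · rw [Finsupp.single_eq_same, mul_smul]

open Classical in
theorem aF_insert {S : Finset Wi} {q : Wi → ℝ} {u x}
    (hw : tmF (J.G c s).F (J.B c).o (tm J c w) u x = 0) :
    aF c J (insert w S) q s u x = aF c J S q s u x := by
  simp only [aF, smF, Finset.sum_apply]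
  refine (Finset.sum_subset (Finset.filter_subset_filter _ (Finset.subset_insert _ _))
    fun v k1 k2 => ?_).symm
  obtain rfl : v = w := (Finset.mem_insert.1 (Finset.mem_filter.1 k1).1).resolve_right
    fun k => k2 (Finset.mem_filter.2 ⟨k, wS_in k1⟩)
  rw [Pi.smul_apply, hw, smul_zero]

/-- the inner words on `Z c` are terms of the job -/
theorem word_J (H : JQ J c R Q θ ϖ) (hs : Pm J c s) (hR : J.RichT s (hp R false)) (sp : Sep J)
    {g g' t e l} (k : TmIn (W.Z c).I (oI W c R)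
      (.ad g g' ⟨t, .mul e :: l⟩ : Tm _ (lam ⊕ lam) r n)) :
    ∃ w, tm J c w = .ad g g' ⟨t, .mul e :: l⟩ ∧ J.co w s ≠ 0 ∧
      (J.tw w).Van (M.sys.U (hp R true)) ∧ ∀ l, J.cc l w = 0 := by
  rw [oI_eq H.np, ← U_hp] at k
  refine (Wrd81.inv_tp (J := J) (H.act hs).2.1 (Wrd81.U_src W.toCaps
    (H.one ▸ Mp86.St.piece_hp false))).1.ad (Av := fun τ => ∃ w, tm J c w = τ ∧ J.co w s ≠ 0 ∧
      (J.tw w).Van (M.sys.U (hp R true)) ∧ ∀ l, J.cc l w = 0) (fun g g' t e l h1 h2 h3 => ?_)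
    _ _ _ _ _ k.1 k.2.1 k.2.2
  obtain ⟨w, e1, e2, -⟩ := hR.a _ _ _ _ _ h1 h2 h3
  refine ⟨w, congrArg _ e1, e2, ?_, (sp w).resolve_left fun z => e2 (congrFun z s)⟩
  rw [e1, U_hp]
  exact fun x hx => image_eq_zero_of_notMem_tsupport fun m =>
    (M.sys.w R).dj.le_bot ⟨hx, (U_hp false).le (h1.sub m)⟩

theorem mov_J (H : JQ J c R Q θ ϖ) (hR : J.RichT s (hp R false)) (sp : Sep J) (hβ : OpB J β)
    (hq : Ball β 0 q) (hs : Pm J c s) (hf : Cz (W.Z c).I (oI W c R) f) (hc : HasCompactSupport f)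
    (hA : ASj J c R q s f a) (hn : f + dM (W.Z c).I a ≠ 0) :
    ∃ w, (J.tw w).Van (M.sys.U (hp R true)) ∧ (∀ l, J.cc l w = 0) ∧ ∀ Φ : ℝ → ℝ,
      (∀ᶠ t in 𝓝 (0 : ℝ), Hv J c R θ ϖ (q + Finsupp.single w t) s f (Φ t)) → deriv Φ 0 ≠ 0 := by
  classical
  have ha := H.act hs
  have e := H.qe s ha
  have pc := H.pc hs
  obtain ⟨T, ab⟩ := H.exists_abv q.support hc
  obtain ⟨χ, hχ⟩ := exists_ct (T + 1)
  have χ0 := hχ.mono (ab.T0.trans (lt_add_one T).le)
  have V0 := H.V0 hs hχ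
  set V := hpr (J.xs R).D ϖ χ (aZ θ)
  obtain ⟨j, op⟩ := hβ.op hq hs
  have pe := op.per pc.cl q4
  obtain ⟨u0, i0⟩ := (sq_of_hcs (F := (J.G c s).F) hf.fo.sm hc).exists
  obtain ⟨k0, m0, i1, e0⟩ := hA.sol pc.toTam op pc.cl hf i0
  have η := e.cz_ec χ0 (e.ok.cη false)
  obtain ⟨v, hv⟩ := (sq_of_hcs (F := (J.G c s).F) η.1.sm η.2).exists
  let ℓ : HK (J.G c s).F 0 →L[ℝ] ℝ := (-(2 * V)⁻¹) • innerSL ℝ
    (PH _ (J.B c).o 0 v - PH _ (ng (J.B c).o) 0 v)
  have hℓ : ∀ k b, Fo (W.Z c).I 1 b → Isf (J.G c s).F k (dM (W.Z c).I b) →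
      ℓ k * V = -hl (kI J c R s ha) (oI W c R) χ (Q.η false) (dM (W.Z c).I b) := fun k b hb i => by
    have := pc.Bw_eq i hv hb.d.dg
    rw [Bw, ← inner_sub_right, real_inner_comm] at this
    simp only [ℓ, smul_apply, innerSL_apply_apply, this, hl, smul_eq_mul]
    field_simp
  obtain ⟨L, hL⟩ := exists_dual pc pe ℓ
  have c0 := hf.add_d pc.cl hA.fo hA.off
  obtain ⟨kα, iα⟩ := (sq_of_hcs (F := (J.G c s).F) e.ok.fα.1.d.sm e.hcα).exists
  have mα := mem_KK e.ok.fα.1 e.ok.fα.2 iα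
  obtain ⟨-, s1, s2⟩ := op.rp kα _ (sm_c2 e.ok.fα.1.d.sm) iα
  by_contra no
  refine e.α_η ?_
  have z := dens_ad (lam ⊕ lam) r n pc.toTam pc.cl (Cyl58.isConnected_pc W.toCaps
    (H.one ▸ Mp86.St.piece_hp false)).2 c0.fo c0.off hn (i0.add i1)
    (pc.cl.2.inter (isOpen_lt (kI J c R s ha).cont (continuous_const (y := T + 1))))
    inter_subset_left L (fun g g' f' k k' e' l hg t => ?_)
    (sub_mem (pc.PH_mem (π_KK pc.cl mα)) (pe.mem _ (π_KK pc.cl mα)))
    ((pc.cb_hs.choose_spec.1.clm_apply (sm_c2 e.ok.fα.1.d.sm)).sub s1) ((pc.is_PH iα).sub s2)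
    (e.cpt T) (fun x hx => ⟨hx.1, hx.2.out.trans_lt (lt_add_one T)⟩) fun x hx k => ?_
  · have := hℓ kα _ e.ok.fα.1 iα
    rwa [← hL _ mα, z, zero_mul, eq_comm, neg_eq_zero, hl, mul_smul_comm, ← smul_mul_assoc,
      e.ec_α χ0] at this
  · obtain ⟨w, w1, w2, w3, w4⟩ := word_J H hs hR sp t
    by_contra nz
    refine no ⟨w, w3, w4, fun Φ hΦ => ?_⟩
    have tu : TmIn (W.Z c).I univ (tm J c w) := w1 ▸ t.mono (subset_univ _)
    have ab' : Abv J c R f (insert w q.support) (T + 1) := ⟨ab.T0.trans (lt_add_one T).le,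
      fun s' ha' x hx => by
        have b := ab.z s' ha' x ((lt_add_one T).trans hx)
        refine ⟨b.1, fun q' s'' u => (aF_insert ?_).trans (b.2 _ _ _)⟩
        have : dd2 (J.G c s'').F g g' x = 0 := Map77.fm_ext fun i => mul_eq_zero_of_left
          (image_eq_zero_of_notMem_tsupport fun k => (hg.sub ((J.G c s'').F.tsupport_D g _ k)).2.out.not_gt
            ((H.tm_eq ha' ha ((ab.T0.trans (lt_add_one T).le).trans_lt hx)).symm ▸ hx)) _
        simp only [w1, tmF, this, map_zero, smul_zero]⟩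
    have sb : ∀ t : ℝ, (q + Finsupp.single w t).support ⊆ insert w q.support := fun t =>
      Finsupp.support_add.trans (Finset.union_subset (Finset.subset_insert _ _)
        (Finsupp.support_single_subset.trans (by simp)))
    obtain ⟨j', hj⟩ := hβ.2 (insert w q.support)
    have bl : ∀ᶠ t in 𝓝 (0 : ℝ),
        ∑ v ∈ insert w q.support, |(q + Finsupp.single w t : Wi →₀ ℝ) v| * β v < 1 := by
      refine ContinuousAt.eventually_lt (Continuous.continuousAt ?_) continuousAt_const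
        (by simpa only [Finsupp.single_zero, add_zero] using ball_le hq (Finset.subset_insert _ _))
      simp only [Finsupp.add_apply, Finsupp.single_apply]
      exact continuous_finsetSum _ fun v _ => by split_ifs <;> fun_prop
    rw [(hasDeriv_sol (D := J.co w s • tmH (J.G c s).F (J.B c).o (tm J c w)) pc pe hL m0 e0
      (H := Φ) ?_).deriv, smul_apply, map_smul, w1]
    · exact smul_ne_zero w2 nz
    filter_upwards [bl, hΦ] with t b hv
    have o := hj _ b.le c s hs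
    have b' : Ball β 0 (q + Finsupp.single w t) := by
      rwa [Ball, sub_zero, Finsupp.sum_of_support_subset _ (sb t) (fun w a => |a| * β w) (by simp)]
    obtain ⟨a', A'⟩ := H.exists_as hβ b' hs hf hc
    rw [H.hv_hl hβ b' hs hf hc ab' (sb t) hχ A' ha false] at hv
    rw [ASj, ← aF_supp (sb t)] at A'
    obtain ⟨k, m, i, e1⟩ := A'.sol pc.toTam o pc.cl hf i0
    rw [← aH_single tu]
    exact ⟨o.per pc.cl q4, k, m, e1, mul_right_cancel₀ V0 (hv.symm.trans (hℓ k a' A'.fo i).symm)⟩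
  · have hx' : T < (kI J c R s ha).tm x := lt_of_not_ge fun m => k ⟨hx, m⟩
    have x0 := ab.T0.trans_lt hx'
    rw [(ab.z s ha x hx').2, c2_of_zero, map_zero, sub_zero]
    rw [e.ok.dα, Pi.sub_apply, e.toEn.γ0 e.ok _ x0, e.toEn.γ0 e.ok _ x0, sub_zero]

end job

/-- **LEAF H-MOV** -/
theorem hMov {κ lam : Type} [Fintype κ] [Fintype lam] [DecidableEq lam] (Lm : G75.LM κ lam) :
    HMov Lm := fun _ _ _ _ _ _ _ _ _ _ _ _ _ _ hQ H h1 _ _ hβ _ _ _ _ hq hs hf hc hA hn =>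
  let ⟨σ, k1, k2, k3⟩ := hs
  mov_J (jq_of hQ H h1) (((H.gx.rich σ k1 _ k2 _ k3 (by simp)).2 _
    (h1 ▸ Mp86.St.piece_hp false)).1 fun _ hl e => hQ.nl ((Mp86.St.hp_some.1 e).1 ▸ hl))
    H.sep hβ hq hs hf hc hA hn

end Crest.Agent.X212.Pat85
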