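import Crest.Agent.X212.Qab60.As
import Crest.Agent.X212.Wrd81.Gau

/-! X212 (helper85), leaf H-MOV: the abelian words are dense in the self-dual forms. -/

set_option autoImplicit false
set_option linter.unusedSectionVars false
noncomputable section
open scoped Manifold ContDiff Topology InnerProductSpace
open MeasureTheory Set Function Filter
open Crest.Agent.R208.F (Ext)

namespace Crest.Agent.X212.Pat85
open An Sob92 Map77 Qab60
open Num57 hiding c2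
open Dr59 (dM)
open Wrd81 (TmIn Tf LlIn Ap wd exists_tf exists_tf_D)
open Abel74 (G0 la0)

variable {E : Type} [NormedAddCommGroup E] [NormedSpace ℝ E] [FiniteDimensional ℝ E]
  [MeasurableSpace E] [BorelSpace E]
  {HM : Type} [TopologicalSpace HM] {I : ModelWithCorners ℝ E HM} [I.Boundaryless]
  {M : Type} [TopologicalSpace M] [ChartedSpace HM M] [IsManifold I ∞ M] [T2Space M]
  [MeasurableSpace M] [BorelSpace M] [SecondCountableTopology M] {ι : Type} [Fintype ι]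
  {V W : Type} [NormedAddCommGroup V] [InnerProductSpace ℝ V] [FiniteDimensional ℝ V]
  [NormedAddCommGroup W] [InnerProductSpace ℝ W] [FiniteDimensional ℝ W]
  {F : Fr I M ι} {o : ι → ι → ι → ι → M → ℝ} {Ω : Set M} {w : M → Ext E} {x : M}
  {lam : Type} [Fintype lam] {r m : ℕ}

theorem dd2_sep (hΩ : Ω ∈ 𝓝 x)
    (h : ∀ g g', Tf I Ω g → Tf I Ω g' → ⟪dd2 F g g' x, c2 F w x⟫_ℝ = 0) : c2 F w x = 0 :=
  fm_ext fun s => by
    obtain ⟨g, hg, e⟩ := exists_tf_D F hΩ s.1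
    obtain ⟨g', hg', e'⟩ := exists_tf_D F hΩ s.2
    have := h g g' hg hg'
    simp only [inner_fm, dd2, c2, e, e', Fintype.sum_prod_type, RCLike.inner_apply,
      conj_trivial] at this
    change k2 F w s.1 s.2 x = 0
    rw [← this, ← k2_P F w s.1 s.2 x]
    refine Finset.sum_congr rfl fun c _ => ?_
    rw [k2_swap F w s.2 c, ← k2_P F w s.2 c x, ← Finset.sum_neg_distrib, Finset.mul_sum]
    exact Finset.sum_congr rfl fun d _ => by rw [k2_swap F w c d]; ring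

theorem wo_cb {f : M → V →L[ℝ] W} (hf : F.Cb f) :
    ∃ N, Wo F (F.mulH 0 _ _ f) (fun u x => f x (u x)) N 0 0 :=
  let ⟨C, hC⟩ := hf
  ⟨max (C 0) 0, wo_mul ⟨C, hC⟩ (le_max_right _ _) fun x v =>
    (f x).le_of_opNorm_le ((CB_zero.1 (hC.2 0) x).trans (le_max_left _ _)) v⟩

theorem wo_lls {C : ℕ → ℝ} (hF : F.Tame C) : ∀ l : List (La M), LlIn I Ω l →
    ∃ N, Wo F (llH F l) (fun u => wd (la0 F) u l) N l.length 0
  | [], _ => ⟨1, (wo_smul (Cb_const _) (by simp) (by simp)).congr fun u _ => by simp⟩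
  | .mul f :: l, k =>
    let ⟨_, ih⟩ := wo_lls hF l fun t ht => k t (by simp [ht])
    let ⟨_, a⟩ := wo_cb (Cb_smul (Tf.cb F (k (.mul f) (by simp)))
      (Cb_const (ContinuousLinearMap.id ℝ ℝ)))
    ⟨_, (a.comp ih).mono le_rfl (by simp) le_rfl⟩
  | .G :: l, k =>
    let ⟨_, ih⟩ := wo_lls hF l fun t ht => k t (by simp [ht])
    ⟨_, ((wo_GS hF).comp ih).mono le_rfl (by simp; omega) (by simp)⟩

theorem sm_pw (h : Tam F o) {g g' : M → ℝ} (hg : Tf I Ω g) (hg' : Tf I Ω g') :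
    F.Cb fun x => ContinuousLinearMap.toSpanSingleton ℝ (hs F o x (dd2 F g g' x)) :=
  Cb_clm (ContinuousLinearMap.smulRightL ℝ ℝ (V2 ι) 1) (Cb_app h.cb_hs (cb_dd2 (hg.cd F) (hg'.cd F)))

theorem rp_ad (h : Tam F o) {g g' f k k' : M → ℝ} {l : List (La M)}
    (H : TmIn I Ω (.ad g g' ⟨.cv f k k', l⟩ : Tm M lam r m)) :
    Rp F (tmH F o (.ad g g' ⟨.cv f k k', l⟩ : Tm M lam r m))
      (tmF F o (.ad g g' ⟨.cv f k k', l⟩ : Tm M lam r m)) := by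
  obtain ⟨C, hF⟩ := h.tm
  obtain ⟨a1, a2, ⟨a3, a4, a5⟩, a6⟩ := H
  obtain ⟨_, c1⟩ := wo_cb (sm_pw h a1 a2)
  obtain ⟨_, c2⟩ := wo_lls hF l a6
  exact c1.comp_rp (c2.comp_rp ((wo_GS hF).comp_rp ((wo_GS hF).comp_rp
    (rp_mul (f := fun x => innerSL ℝ (f x • dd2 F k k' x))
      (Cb_clm (innerSL ℝ) (Cb_smul (a3.cb F) (cb_dd2 (a4.cd F) (a5.cd F))))
      (a3.hcs.mono fun y hy e => hy (by simp [e]))))))

/-- a non-zero seed -/
theorem seed_ne (h : Tam F o) (hΩ : IsClopen Ω) (hw : Fo I 2 w) (h0 : Off Ω w) (hn : w ≠ 0) :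
    ∃ f k k', Tf I Ω f ∧ Tf I Ω k ∧ Tf I Ω k' ∧ ∃ y ∈ Ω,
      G0 F (G0 F fun y => ⟪f y • dd2 F k k' y, c2 F w y⟫_ℝ) y ≠ 0 := by
  obtain ⟨C, hF⟩ := h.tm
  have R := rh0 hF
  by_contra! a
  refine hn ((g2_c2 (F := F) hw.dg).symm.trans ?_)
  rw [show c2 F w = 0 from funext fun x => ?_, ← c2_zero (F := F), g2_c2 (w := 0) fun _ => .zero]
  by_cases hx : x ∈ Ω
  swap
  · exact c2_of_zero (h0 x hx)
  obtain ⟨f, hf, f1⟩ := exists_tf (I := I) (hΩ.2.mem_nhds hx)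
  refine dd2_sep (hΩ.2.mem_nhds hx) fun k k' hk hk' => ?_
  have z : ∀ y ∉ tsupport f, ⟪f y • dd2 F k k' y, c2 F w y⟫_ℝ = 0 := fun y hy => by
    simp [image_eq_zero_of_notMem_tsupport hy]
  obtain ⟨a1, -, a2⟩ := R.isRes_tst (w := fun y => ⟪f y • dd2 F k k' y, c2 F w y⟫_ℝ)
    (Wrd81.sm_inner (ContMDiff.smul hf.sm (cb_dd2 (hk.cd F) (hk'.cd F)).choose_spec.1) (sm_c2 hw.sm))
    (.intro hf.hcs z)
  have l0 := (Mp86.isRes_zero (F := F) (A := fun _ _ => (0 : ℝ →L[ℝ] ℝ))).2.2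
  have e2 : G0 F (G0 F fun y => ⟪f y • dd2 F k k' y, c2 F w y⟫_ℝ) = 0 := funext fun y => by
    by_cases hy : y ∈ Ω
    exacts [a f k k' hf hk hk' y hy,
      R.res_off hΩ (R.res_off hΩ fun z' hz => z z' fun e => hz (hf.sub e)) y hy]
  have e1 : G0 F (fun y => ⟪f y • dd2 F k k' y, c2 F w y⟫_ℝ) = 0 := funext fun y =>
    (a2.2.2 y).symm.trans (by rw [show F.res _ (F.res _ _) = 0 from e2]; exact l0 y)
  have : _ = (0 : ℝ) := (a1.2.2 x).symm.trans (by rw [show F.res _ _ = 0 from e1]; exact l0 x)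
  simpa [f1] using this

variable (lam r m) in
/-- **density**: a functional which kills the words of a non-zero form kills self-dual forms -/
theorem dens_ad (h : Tam F o) (hΩ : IsClopen Ω) (hc : IsPreconnected Ω) (hw : Fo I 2 w)
    (h0 : Off Ω w) (hn : w ≠ 0) {u : HK F 0} (hu : Isf F u w) {O K : Set M} (hO : IsOpen O)
    (OΩ : O ⊆ Ω) (Λ : HK F 0 →L[ℝ] ℝ) (hΛ : ∀ g g' f k k' e l, Tf I O g →
      TmIn I Ω (.ad g g' ⟨.cv f k k', .mul e :: l⟩ : Tm M lam r m) →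
      Λ (tmH F o (.ad g g' ⟨.cv f k k', .mul e :: l⟩ : Tm M lam r m) u) = 0)
    {y : HK F 0} (hy : y ∈ HP F o Ω) {φ : M → V2 ι} (hφ : Sm I φ) (i : Is F.toPre 0 _ y φ)
    (hK : IsCompact K) (KO : K ⊆ O) (z : ∀ x ∈ Ω, x ∉ K → φ x = 0) : Λ y = 0 := by
  obtain ⟨f, k, k', hf, hk, hk', x₀, m₀, n₀⟩ := seed_ne h hΩ hw h0 hn
  obtain ⟨C, hF⟩ := h.tm
  set σ := G0 F (G0 F fun y => ⟪f y • dd2 F k k' y, c2 F w y⟫_ℝ) with hσ
  have sw : ∀ l, LlIn I Ω l → Sm I (wd (la0 F) σ l) := fun l hl => by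
    induction l with
    | nil => exact Mp86.sm_res _ _ _
    | cons t l ih =>
      cases t
      exacts [(hl (.mul _) (by simp)).sm.mul (ih fun t ht => hl t (by simp [ht])), Mp86.sm_res _ _ _]
  have c : Wrd81.Fam Ω Ω F (fun _ _ => (0 : ℝ →L[ℝ] ℝ)) {v | ∃ l, LlIn I Ω l ∧ v = wd (la0 F) σ l} :=
    ⟨hΩ, hΩ.2, Subset.rfl, by simp, by rintro _ ⟨l, hl, rfl⟩; exact sw l hl,
      by rintro e he _ ⟨l, hl, rfl⟩; exact ⟨.mul e :: l, hl.cons he, rfl⟩,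
      by rintro _ ⟨l, hl, rfl⟩; exact ⟨.G :: l, hl.cons trivial, rfl⟩⟩
  obtain ⟨π, p⟩ := c.exists_prj (rh0 hF)
  have π1 : ∀ x ∈ Ω, π x 1 = 1 := fun x hx => by
    have e := p.idem x 1
    rw [show π x (π x 1) = π x 1 * π x 1 by simpa using (π x).map_smul (π x 1) 1] at e
    refine mul_left_cancel₀ (fun z => p.ne_zero hc ⟨[], Wrd81.llIn_nil, rfl⟩ m₀ n₀ hx ?_)
      (e.trans (mul_one _).symm)
    exact ContinuousLinearMap.ext_ring z
  let 𝒯 : Set (M → V2 ι) := {v | ∀ z, Is F.toPre 0 (triv M (V2 ι)) z v → Λ z = 0}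
  have key : ∀ v : M → V2 ι, Sm I v → HasCompactSupport v → tsupport v ⊆ O →
      (∀ x, hs F o x (v x) = v x) → v ∈ Ap F.toPre 0 𝒯 := fun v v1 v2 v3 v4 => by
    refine Wrd81.mem_of_span (𝒩 := {n | ∃ g g', Tf I O g ∧ Tf I O g' ∧
      n = fun x => hs F o x (dd2 F g g' x)}) h.cb_hs.choose_spec.1 (hs_symm h.ok) (hs_idem h.ok)
      ?_ ?_ hO ?_ (fun x hx b hb k0 => ?_) v1 v2 v3 v4
    · rintro _ ⟨g, g', hg, hg', rfl⟩
      exact (Cb_app h.cb_hs (cb_dd2 (hg.cd F) (hg'.cd F))).choose_spec.1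
    · rintro _ ⟨g, g', hg, hg', rfl⟩ x
      exact hs_idem h.ok x _
    · rintro e e1 e2 e3 _ ⟨g, g', hg, hg', rfl⟩
      have s := (sm_pw h hg hg').choose_spec.1
      convert p.loc (F' := F.toPre) (k := 0) (𝒯' := 𝒯) hΩ.2 s ?_ ⟨e1, e2, e3.trans OΩ⟩
        (contMDiff_const (c := (1 : ℝ))) using 2 with x
      · by_cases hx : x ∈ Ω
        · simp [π1 x hx]
        · simp [image_eq_zero_of_notMem_tsupport fun z => hx (OΩ (e3 z))]
      rintro e he _ ⟨l, hl, rfl⟩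
      have t : TmIn I Ω (.ad g g' ⟨.cv f k k', .mul e :: l⟩ : Tm M lam r m) :=
        ⟨hg.mono OΩ, hg'.mono OΩ, ⟨hf, hk, hk'⟩, hl.cons he⟩
      refine Ap.of_mem (Wrd81.smul_mem_tst he.sm he.hcs (s.clm_apply (sw l hl))) fun z hz => ?_
      rw [← hΛ _ _ _ _ _ _ _ hg t]
      refine congrArg Λ (hz.unique ((rp_ad h t u _ (sm_c2 hw.sm) hu).2.2.congr
        (.of_forall fun x => ?_)))
      simp [tmF, la0, smul_smul, hσ]
    · have e := c2_g2_hs (u := fun _ => b) h.ok hb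
      refine e.symm.trans (dd2_sep (hO.mem_nhds hx) fun g g' hg hg' => ?_)
      have := k0 _ ⟨g, g', hg, hg', rfl⟩
      rwa [hs_symm h.ok, hb, ← e] at this
  have z' : ∀ x ∉ K, hs F o x (Ω.indicator (1 : M → ℝ) x • φ x) = 0 := fun x hx => by
    by_cases m : x ∈ Ω
    · simp [z x m hx]
    · simp [m]
  obtain ⟨v, hv⟩ := Wrd81.mem_Ap.1 (key (fun x => hs F o x (Ω.indicator (1 : M → ℝ) x • φ x))
    (h.cb_hs.choose_spec.1.clm_apply (ContMDiff.smul (sm_ind hΩ) hφ)) (.intro hK z')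
    ((closure_minimal (support_subset_iff'.2 z') hK.isClosed).trans KO)
    fun x => hs_idem h.ok x _)
  rw [← hy.1, ← hy.2, (h.is_PH (is_π hΩ i)).unique (Is.toH ⟨_, v⟩)]
  refine Wrd81.cl_le (U := LinearMap.ker (Λ : HK F 0 →ₗ[ℝ] ℝ)) Λ.isClosed_ker ?_ hv
  rintro _ ⟨z, hz, rfl⟩
  exact hz _ (Is.toH z)

variable {T D : HK F 0 →L[ℝ] HK F 0} {ε : ℝ}

/-- the functional `ℓ ∘ L⁻¹` -/
theorem exists_dual (h : Pc F o Ω) (hT : Per F o Ω T ε) (ℓ : HK F 0 →L[ℝ] ℝ) :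
    ∃ Λ : HK F 0 →L[ℝ] ℝ, ∀ k ∈ KK F Ω, Λ (PH F o 0 k - T k) = ℓ k := by
  have m : ∀ k : KK F Ω, PH F o 0 k - T k ∈ HP F o Ω := fun k =>
    sub_mem (h.PH_mem (π_KK h.cl k.2)) (hT.mem _ (π_KK h.cl k.2))
  let A : KK F Ω →L[ℝ] HP F o Ω := ((PH F o 0 - T) ∘L (KK F Ω).subtypeL).codRestrict _ m
  let e := ContinuousLinearEquiv.ofBijective A (LinearMap.ker_eq_bot'.2 fun k hk => Subtype.ext
    (h.uniq hT (u0 := 0) k.2 (zero_mem _) (by
      rw [zero_add]; exact sub_eq_zero.1 (congrArg Subtype.val hk)) (by simp)))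
    (LinearMap.range_eq_top.2 fun v => let ⟨k, hk, e⟩ := h.surj hT v.2; ⟨⟨k, hk⟩, Subtype.ext e⟩)
  refine ⟨ℓ ∘L (KK F Ω).subtypeL ∘L (e.symm : _ →L[ℝ] _) ∘L (HP F o Ω).orthogonalProjectionOnto,
    fun k hk => ?_⟩
  have := (HP F o Ω).orthogonalProjectionOnto_mem_subspace_eq_self (e ⟨k, hk⟩)
  simp only [ContinuousLinearMap.comp_apply]
  rw [show PH F o 0 k - T k = (e ⟨k, hk⟩ : HP F o Ω) from rfl, this]
  simp

/-- the derivative of a pairing of the solutions -/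
theorem hasDeriv_sol (h : Pc F o Ω) (hT : Per F o Ω T ε) {ℓ Λ : HK F 0 →L[ℝ] ℝ}
    (hΛ : ∀ k ∈ KK F Ω, Λ (PH F o 0 k - T k) = ℓ k) {u0 k0 : HK F 0} (h0 : k0 ∈ KK F Ω)
    (e0 : PH F o 0 (u0 + k0) = T (u0 + k0)) {H : ℝ → ℝ}
    (hH : ∀ᶠ t in 𝓝 (0 : ℝ), Per F o Ω (T + t • D) ε ∧ ∃ k ∈ KK F Ω,
      PH F o 0 (u0 + k) = (T + t • D) (u0 + k) ∧ H t = ℓ k) :
    HasDerivAt H (Λ (D (u0 + k0))) 0 := by
  choose! k k1 k2 k3 using fun t (x : Per F o Ω (T + t • D) ε ∧ ∃ k ∈ KK F Ω,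
    PH F o 0 (u0 + k) = (T + t • D) (u0 + k) ∧ H t = ℓ k) => x.2
  have c := sub_pos.2 hT.e1
  have a : ∀ t, u0 + k t - (u0 + k0) = k t - k0 := fun t => add_sub_add_left_eq_sub _ _ _
  have l : Tendsto k (𝓝 0) (𝓝 k0) := by
    refine tendsto_iff_norm_sub_tendsto_zero.2 (squeeze_zero' (.of_forall fun _ => norm_nonneg _)
      (g := fun t => √2 * ‖t • D (u0 + k0)‖ / (1 - √2 * ε)) (hH.mono fun t x => ?_)
      (Continuous.tendsto' (by fun_prop) _ _ (by simp)))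
    have := h.low x.1 (sub_mem (k1 t x) h0)
    rw [← a, map_sub (PH F o 0), map_sub (T + t • D), k2 t x, e0, sub_sub_sub_cancel_left] at this
    rw [le_div_iff₀' c, ← a]
    simpa using this
  have x0 := hH.self_of_nhds
  have z : k 0 = k0 := h.uniq hT (k1 0 x0) h0 (by simpa using k2 0 x0) e0
  rw [hasDerivAt_iff_tendsto_slope_zero]
  refine (((Λ ∘L D).continuous.tendsto _).comp ((l.const_add u0).mono_left
    nhdsWithin_le_nhds)).congr' ?_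
  filter_upwards [mem_nhdsWithin_of_mem_nhds hH, self_mem_nhdsWithin] with t x ht
  rw [zero_add, k3 t x, k3 0 x0, z, ← map_sub, ← hΛ _ (sub_mem (k1 t x) h0), ← a,
    map_sub (PH F o 0), map_sub T, k2 t x, e0]
  rw [show ∀ a b : HK F 0, (T + t • D) a - b - (T a - b) = t • D a from fun a b => by simp,
    map_smul, smul_smul, inv_mul_cancel₀ ht, one_smul]
  rfl

end Crest.Agent.X212.Pat85
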