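import Crest.Agent.X212.Pat85.L6
import Crest.Agent.X212.End23.Nek

/-!
# X212, EN-MUL (helper85): the static Weitzenboeck formula and the multiplication lemma
-/

set_option autoImplicit false
set_option linter.unusedSectionVars false
open Set Filter Function MeasureTheory Module
open scoped ContDiff Manifold InnerProductSpace

noncomputable section
namespace Crest.Agent.X212.Pat85

open An Cyf70 Sw Sw.En3 Sw88
open End23 (dr fq MulStmt)
open Wz78 (nab dir dvg SA frm lc_gam dv_gam)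

variable {κ lam ν : Type} [Fintype κ] [Fintype lam] [Fintype ν] [DecidableEq ν]
  {e : En3 κ lam ν} (v : e.YC)

/-- the connection on the cross-section -/
def aY (k : κ) (y : e.Y.M) : En ν := e.cyl.W (fz v) (some k) (y, 0)

/-- the covariant derivative of the spinor -/
abbrev nY (k : κ) : e.Y.M → Eu ν := nab e.Y.I e.D.F.e (aY v) k v.Φ

/-- the Dirac operator without the mass -/
def dY (y : e.Y.M) : Eu ν := ∑ k, e.m.ρ (some k) y (nY v k y)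

variable {v}

theorem dvg_fst {f : Option κ → e.Y.M → ℝ} (hf : ∀ i, Sm e.Y.I (f i)) (x : e.Y.M × ℝ) :
    dvg (IC e.Y.I) e.cyl.F.e e.cyl.F.dv (fun i x => f i x.1) x =
      dvg e.Y.I e.D.F.e e.D.F.dv (fun k => f (some k)) x.1 := by
  rw [dvg, Fintype.sum_option]
  refine (congrArg₂ (· + ·) (congrArg₂ (· + ·) (congrFun (D_none_fst e.D.F.toPre (hf _)) x)
    (zero_mul _)) (Finset.sum_congr rfl fun k _ => congrArg (· + _)
      (congrFun (D_some_fst e.D.F.toPre (hf _) k) x))).trans ?_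
  simp only [Pi.zero_apply, zero_add]
  rfl

variable (H : e.OK) (hv : e.cyl.Adm (fz v))
include hv

theorem nab_some (k : κ) : nab (IC e.Y.I) e.cyl.F.e (e.cyl.W (fz v)) (some k) (fz v).Φ =
    fun x => nY v k x.1 := funext fun x =>
  congrArg (· + _) (congrFun (D_some_fst e.D.F.toPre (sm_slice_fst hv.sΦ 0) k) x)

theorem nab_none : nab (IC e.Y.I) e.cyl.F.e (e.cyl.W (fz v)) none (fz v).Φ = fun _ => 0 :=
  funext fun x => (congrArg (· + _) (congrFun (D_none_fst e.D.F.toPre (sm_slice_fst hv.sΦ 0))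
    x)).trans (by simp [Bg.W, En3.cyl, fz, Nd18.ca])

theorem dir_fz : dir (IC e.Y.I) e.cyl.F.e e.cyl.m.ρ (e.cyl.W (fz v)) (fz v).Φ =
    fun x => dY v x.1 := funext fun x => by
  simp only [dir, Fintype.sum_option, nab_some hv, nab_none hv, map_zero, zero_add]; rfl

include H

theorem sm_aY (k : κ) : Sm e.Y.I (aY v k) := sm_slice_fst ((cm H.cyl hv).cc.sm (some k)) 0

theorem sk_aY (k : κ) (y : e.Y.M) : Wz78.Skew (aY v k y) := (cm H.cyl hv).sk (some k) (y, 0)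

theorem sm_nY (k : κ) : Sm e.Y.I (nY v k) :=
  Wz78.sm_nab (sm_aY H hv) k (sm_slice_fst hv.sΦ 0)

theorem sm_dY : Sm e.Y.I (dY v) := fun y => SA.sum _ fun k _ =>
  SA.app (sm_slice_fst (H.cyl.cc.sρ (some k)) 0 y) (sm_nY H hv k y)

theorem eD_fz (y : e.Y.M) : e.cyl.eD (fz v) (y, 0) = dY v y + e.cyl.ms (y, 0) (v.Φ y) :=
  congrArg (· + _) (congrFun (dir_fz hv) (y, 0))

theorem sm_dr : Sm e.Y.I (dr v) := fun y => by
  simp only [funext (show ∀ y, dr v y = _ from fun y => by rw [dr, eD_fz H hv])]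
  exact SA.app (sm_slice_fst (H.cyl.cc.sρ none) 0 y).neg ((sm_dY H hv y).add
    (SA.app (sm_slice_fst H.cyl.cms.choose_spec.1 0 y) (sm_slice_fst hv.sΦ 0 y)))

theorem norm_dr (y : e.Y.M) : ‖dr v y‖ = ‖e.cyl.eD (fz v) (y, 0)‖ := by
  have P := p8 H.cyl (y, 0)
  have h : e.cyl.m.p (y, 0) (e.cyl.eD (fz v) (y, 0)) = e.cyl.eD (fz v) (y, 0) := by
    simp only [Bg.eD, dir, map_add, map_sum, ← mul_apply_eq_comp, P.cl.pl, p_ms H.cyl]
  rw [← sq_eq_sq₀ (norm_nonneg _) (norm_nonneg _), dr, norm_neg]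
  exact (P.norm_ρ_sq none _).trans (by rw [h]; exact one_mul _)

/-- **the static Weitzenboeck formula** -/
theorem int_wY : ∫ y, ∑ k, ‖nY v k y‖ ^ 2 ∂e.D.F.μ = ∫ y, (‖dY v y‖ ^ 2 -
    (sc e.cyl (y, 0) / 4 * ‖v.Φ y‖ ^ 2 +
      4 * ⟪e.cyl.fc (fz v) (y, 0), e.cyl.qd (y, 0) (v.Φ y) (v.Φ y)⟫_ℝ)) ∂e.D.F.μ := by
  have D := cm H.cyl hv
  have sΦ : Sm e.Y.I v.Φ := sm_slice_fst hv.sΦ 0
  have s1 : ∀ i, Sm e.Y.I fun y => ⟪e.m.ρ i y (dY v y), v.Φ y⟫_ℝ := fun i y =>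
    SA.inner (SA.app (sm_slice_fst (H.cyl.cc.sρ i) 0 y) (sm_dY H hv y)) (sΦ y)
  have s2 : ∀ i : Option κ, Sm e.Y.I fun y => ⟪i.elim 0 (nY v · y), v.Φ y⟫_ℝ := fun i y => by
    cases i; exacts [SA.inner contMDiffAt_const (sΦ y), SA.inner (sm_nY H hv _ y) (sΦ y)]
  have s : ∀ i, Sm e.Y.I fun y => ⟪e.m.ρ (some i) y (dY v y), v.Φ y⟫_ℝ + ⟪nY v i y, v.Φ y⟫_ℝ :=
    fun i => (s1 _).add (s2 (some i))
  have i1 : Integrable (fun y => ∑ k, ‖nY v k y‖ ^ 2) e.D.F.μ := int_cpt e.D.F.toPre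
    (continuous_finsetSum _ fun k _ => (sm_nY H hv k).continuous.norm.fun_pow 2)
  have z := Wz78.integral_dvg (F := e.D.F) s fun _ => .of_compactSpace _
  refine ((sub_zero _).symm.trans ((congrArg (_ - ·) z.symm).trans (integral_sub i1
    (Wz78.integ_dvg s fun _ => .of_compactSpace _)).symm)).trans
    (integral_congr_ae (.of_forall fun y => ?_))
  have h1 := weitz H.cyl hv (hv.sΦ (y, 0)) (.of_forall fun y => p_of H.cyl (hv.pΦ y)) (v.Φ y)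
  have h2 := D.cc.inner_dir (lc_gam _) (frm _) (dv_gam H.cyl.G.vol (y, 0)) (D.sk · _) (D.ρsk · _)
    (D.cc.dir_sm (frm _) (hv.sΦ _)) (hv.sΦ _)
  have h3 := (frm e.cyl.F).inner_lap (g := e.cyl.F.dv) (D.cc.sm · (y, 0)) (D.sk · _) (hv.sΦ _)
    (hv.sΦ _)
  have e1 := dvg_fst s1 (y, 0)
  have e2 := dvg_fst s2 (y, 0)
  rw [show (fun a y => ⟪nab (IC e.Y.I) e.cyl.F.e (e.cyl.W (fz v)) a (fz v).Φ y, (fz v).Φ y⟫_ℝ) =
    fun (i : Option κ) x => ⟪i.elim 0 (nY v · x.1), v.Φ x.1⟫_ℝ from funext fun i => by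
      cases i
      · rw [nab_none hv]; rfl
      · rw [nab_some hv]; rfl, e2] at h3
  rw [dir_fz hv] at h1 h2
  have e3 : dvg e.Y.I e.D.F.e e.D.F.dv (fun i y => ⟪e.m.ρ (some i) y (dY v y), v.Φ y⟫_ℝ +
      ⟪nY v i y, v.Φ y⟫_ℝ) y = dvg e.Y.I e.D.F.e e.D.F.dv
        (fun k y => ⟪e.m.ρ (some k) y (dY v y), v.Φ y⟫_ℝ) y + dvg e.Y.I e.D.F.e e.D.F.dv
        (fun k y => ⟪nY v k y, v.Φ y⟫_ℝ) y := by
    simp only [dvg, ← Finset.sum_add_distrib]
    refine Finset.sum_congr rfl fun i _ => ?_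
    rw [mul_add, add_add_add_comm]
    exact congrArg (· + _) (Wz78.dv_add' (s1 _ y) (s2 (some i) y))
  simp only [Fintype.sum_option, nab_some hv, nab_none hv, real_inner_self_eq_norm_sq, norm_zero,
    show (fz v).Φ (y, 0) = v.Φ y from rfl] at h1 h2 h3
  have h4 := (congrArg (_ + ·) e1).symm.trans h2.symm
  simp only [e3]
  simp only [dvg, Option.elim] at h3 h4 ⊢
  linarith

omit hv in
theorem nab_le (B : ℝ) : ∃ c ≥ (0 : ℝ), ∀ v : e.YC, e.cyl.Adm (fz v) →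
    (∀ y, ‖e.cyl.fc (fz v) (y, 0)‖ ≤ B) →
      ∫ y, ∑ k, ‖nY v k y‖ ^ 2 ∂e.D.F.μ ≤ 2 * fq 0 v + c * nm v := by
  obtain ⟨C, hC⟩ := H.cyl.tame
  obtain ⟨m, -, hm⟩ := H.cyl.cms
  refine ⟨2 * m 0 ^ 2 + |kS (Fintype.card (Option κ)) (C 2)| / 4 + |B|, by positivity,
    fun v hv hB => ?_⟩
  have c0 := (sm_slice_fst hv.sΦ 0).continuous
  have i1 := int_cpt e.D.F.toPre ((sm_dr H hv).continuous.norm.fun_pow 2)
  have i2 : Integrable (fun y => ‖v.Φ y‖ ^ 2) e.D.F.μ := int_cpt e.D.F.toPre (c0.norm.fun_pow 2)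
  simp only [fq, zero_smul, sub_zero]
  rw [nm, ← integral_const_mul, ← integral_const_mul,
    ← integral_add (i1.const_mul _) (i2.const_mul _)]
  by_cases hi : Integrable (fun y => ‖dY v y‖ ^ 2 - (sc e.cyl (y, 0) / 4 * ‖v.Φ y‖ ^ 2 +
      4 * ⟪e.cyl.fc (fz v) (y, 0), e.cyl.qd (y, 0) (v.Φ y) (v.Φ y)⟫_ℝ)) e.D.F.μ
  swap
  · rw [int_wY H hv, integral_undef hi]; exact integral_nonneg fun _ => by positivity
  refine (int_wY H hv).trans_le (integral_mono hi ((i1.const_mul _).add (i2.const_mul _))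
    fun y => ?_)
  have h1 : ‖dY v y‖ ≤ ‖dr v y‖ + m 0 * ‖v.Φ y‖ := by
    rw [norm_dr H hv, eD_fz H hv]
    exact (norm_le_add_norm_add _ _).trans (add_le_add le_rfl
      (ContinuousLinearMap.le_of_opNorm_le _ (hm 0 [] le_rfl _) _))
  have h2 : _ ≤ sc e.cyl (y, 0) := (abs_le.1 ((scal_le hC (y, 0)).trans (le_abs_self _))).1
  have h3 := abs_real_inner_le_norm (e.cyl.fc (fz v) (y, 0)) (e.cyl.qd (y, 0) (v.Φ y) (v.Φ y))
  rw [norm_qd H.cyl (v := v.Φ y) (hv.pΦ (y, 0))] at h3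
  have h4 := mul_le_mul_of_nonneg_right ((hB y).trans (le_abs_self B)) (sq_nonneg ‖v.Φ y‖)
  have h5 := mul_le_mul_of_nonneg_right h2 (sq_nonneg ‖v.Φ y‖)
  have h6 := pow_le_pow_left₀ (norm_nonneg _) h1 2
  show _ ≤ _ + _
  nlinarith [neg_le_of_abs_le h3, sq_nonneg (‖dr v y‖ - m 0 * ‖v.Φ y‖)]

omit H hv in
/-- **EN-MUL** -/
theorem mulStmt : MulStmt κ lam ν := fun e H B => by
  obtain ⟨K, h0, hK⟩ := mulV (V := Eu ν) e.Y.dim e.D.F
  obtain ⟨c, c0, hc⟩ := nab_le H B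
  refine ⟨K * (1 + √(2 + c)), fun v hv hB g hg => (hK _ (sm_aY H hv) (sk_aY H hv) g v.Φ hg
    (sm_slice_fst hv.sΦ 0)).trans ?_⟩
  have p1 : 0 ≤ nm v := integral_nonneg fun _ => sq_nonneg _
  have p2 : 0 ≤ fq 0 v := integral_nonneg fun _ => sq_nonneg _
  have h1 : √(∫ y, ∑ k, ‖nY v k y‖ ^ 2 ∂e.D.F.μ) ≤ √(2 + c) * (√(nm v) + √(fq 0 v)) := by
    refine Real.sqrt_le_iff.2 ⟨by positivity, (hc v hv hB).trans ?_⟩
    rw [mul_pow, Real.sq_sqrt (by positivity), add_sq, Real.sq_sqrt p1, Real.sq_sqrt p2]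
    have : 0 ≤ (2 + c) * (2 * √(nm v) * √(fq 0 v)) := by positivity
    nlinarith [mul_nonneg c0 p2]
  rw [mul_right_comm K (1 + _), mul_assoc (K * _), mul_left_comm (1 + _)]
  refine mul_le_mul_of_nonneg_left (mul_le_mul_of_nonneg_left ?_ (Real.sqrt_nonneg _))
    (by positivity)
  rw [add_mul, one_mul]
  exact add_le_add (le_add_of_nonneg_right (Real.sqrt_nonneg _)) h1

end Crest.Agent.X212.Pat85
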