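import Crest.Agent.X212.Cmp73.Cv

/-!
# X212, PATCH (helper85), part 3: bundles of normed division algebras, partitions of unity
-/

set_option autoImplicit false
set_option linter.unusedSectionVars false

open Set Filter Topology Metric
open scoped ContDiff Manifold

noncomputable section

namespace Crest.Agent.X212.Pat85
open Cmp73

variable {α : Type} {E : Type} [NormedAddCommGroup E] [NormedSpace ℝ E] [FiniteDimensional ℝ E]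
  {HM : Type} [TopologicalSpace HM] {I : ModelWithCorners ℝ E HM} [I.Boundaryless]
  {M : Type} [TopologicalSpace M] [ChartedSpace HM M] [IsManifold I ∞ M]
  {𝔸 : Type} [NormedRing 𝔸] [NormedAlgebra ℝ 𝔸] [FiniteDimensional ℝ 𝔸]

section ev
variable {X : Type*} [TopologicalSpace X] {l : Filter α} {x : X} {P : α → X → Prop}

/-- an eventual property holds on neighbourhoods of the nearby points -/
theorem evn (h : ∀ᶠ q : α × X in l ×ˢ 𝓝 x, P q.1 q.2) :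
    ∀ᶠ q : α × X in l ×ˢ 𝓝 x, ∀ᶠ y in 𝓝 q.2, P q.1 y := by
  obtain ⟨pa, hpa, pb, hpb, H⟩ := eventually_prod_iff.1 h
  exact eventually_prod_iff.2 ⟨pa, hpa, _, hpb.eventually_nhds, fun hi _ hy =>
    hy.mono fun _ hz => H hi hz⟩

theorem evs (h : ∀ᶠ q : α × X in l ×ˢ 𝓝 x, P q.1 q.2) :
    ∀ᶠ y in 𝓝 x, ∀ᶠ q : α × X in l ×ˢ 𝓝 y, P q.1 q.2 := by
  obtain ⟨pa, hpa, pb, hpb, H⟩ := eventually_prod_iff.1 h
  exact hpb.eventually_nhds.mono fun y hy => eventually_prod_iff.2 ⟨pa, hpa, pb, hy, H⟩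

theorem eva (h : ∀ᶠ q : α × X in l ×ˢ 𝓝 x, P q.1 q.2) : ∀ᶠ i in l, P i x :=
  (h.curry).mono fun _ hi => hi.self_of_nhds

theorem evo {O : Set X} (hO : IsOpen O) (hx : x ∈ O) : ∀ᶠ q : α × X in l ×ˢ 𝓝 x, q.2 ∈ O :=
  tendsto_snd.eventually (hO.eventually_mem hx)

end ev

variable (I M 𝔸) in
/-- a field of subalgebras `H x` with unit `e x` and conjugation `s`, `s q * q = ν q • e x` -/
structure QB where
  H : M → Submodule ℝ 𝔸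
  e : M → 𝔸
  s : 𝔸 →L[ℝ] 𝔸
  ν : 𝔸 → ℝ
  sν : ContDiff ℝ ∞ ν
  se : ContMDiff I 𝓘(ℝ, 𝔸) ∞ e
  s_mul : ∀ a b, s (a * b) = s b * s a
  s_s : ∀ a, s (s a) = a
  e_mem : ∀ x, e x ∈ H x
  e_ne : ∀ x, e x ≠ 0
  s_e : ∀ x, s (e x) = e x
  e_mul : ∀ x, ∀ q ∈ H x, e x * q = q
  mul_mem : ∀ x, ∀ p ∈ H x, ∀ q ∈ H x, p * q ∈ H x
  s_mem : ∀ x, ∀ q ∈ H x, s q ∈ H x
  sq : ∀ x, ∀ q ∈ H x, s q * q = ν q • e x
  sq' : ∀ x, ∀ q ∈ H x, q * s q = ν q • e x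

namespace QB
variable (Q : QB I M 𝔸)

/-- the unit sphere, a group with unit `e x` -/
def G (x : M) : Set 𝔸 := {q | q ∈ Q.H x ∧ Q.s q * q = Q.e x}

/-- normalisation -/
def N (q : 𝔸) : 𝔸 := (√(Q.ν q))⁻¹ • q

/-- smooth unit sections over `O` -/
def Sec (O : Set M) (v : M → 𝔸) : Prop := ∀ x ∈ O, ContMDiffAt I 𝓘(ℝ, 𝔸) ∞ v x ∧ v x ∈ Q.G x

variable {Q} {x : M} {a b g g' : 𝔸}

theorem mul_e (ha : a ∈ Q.H x) : a * Q.e x = a := by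
  have := congrArg Q.s (Q.e_mul x _ (Q.s_mem x a ha))
  rwa [Q.s_mul, Q.s_s, Q.s_e] at this

theorem ν_of (ha : a ∈ Q.H x) {c : ℝ} (h : Q.s a * a = c • Q.e x) : Q.ν a = c :=
  smul_left_injective ℝ (Q.e_ne x) ((Q.sq x a ha).symm.trans h)

theorem ν_G (hg : g ∈ Q.G x) : Q.ν g = 1 := ν_of hg.1 (by rw [hg.2, one_smul])

theorem mem_G (ha : a ∈ Q.H x) (h : Q.ν a = 1) : a ∈ Q.G x := ⟨ha, by rw [Q.sq x a ha, h, one_smul]⟩

theorem s_mul_G (hg : g ∈ Q.G x) : Q.s g * g = Q.e x := hg.2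

theorem mul_s_G (hg : g ∈ Q.G x) : g * Q.s g = Q.e x := by rw [Q.sq' x g hg.1, ν_G hg, one_smul]

theorem e_G (x : M) : Q.e x ∈ Q.G x := ⟨Q.e_mem x, by rw [Q.s_e, Q.e_mul x _ (Q.e_mem x)]⟩

theorem s_G (hg : g ∈ Q.G x) : Q.s g ∈ Q.G x :=
  ⟨Q.s_mem x g hg.1, by rw [Q.s_s, mul_s_G hg]⟩

theorem cancel (hg : g ∈ Q.G x) (ha : a ∈ Q.H x) : Q.s g * (g * a) = a := by
  rw [← mul_assoc, hg.2, Q.e_mul x a ha]

theorem cancel' (hg : g ∈ Q.G x) (ha : a ∈ Q.H x) : g * (Q.s g * a) = a := by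
  rw [← mul_assoc, mul_s_G hg, Q.e_mul x a ha]

theorem mul_G (hg : g ∈ Q.G x) (hg' : g' ∈ Q.G x) : g * g' ∈ Q.G x :=
  ⟨Q.mul_mem x g hg.1 g' hg'.1, by rw [Q.s_mul, mul_assoc, cancel hg hg'.1, hg'.2]⟩

theorem eq_e (hg : g ∈ Q.G x) (h : g * g = g) : g = Q.e x := by
  rw [← cancel hg hg.1, h, hg.2]

theorem ν_left (hg : g ∈ Q.G x) (ha : a ∈ Q.H x) : Q.ν (g * a) = Q.ν a :=
  ν_of (Q.mul_mem x g hg.1 a ha) (by rw [Q.s_mul, mul_assoc, cancel hg ha, Q.sq x a ha])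

theorem ν_right (hg : g ∈ Q.G x) (ha : a ∈ Q.H x) : Q.ν (a * g) = Q.ν a :=
  ν_of (Q.mul_mem x a ha g hg.1) (by
    rw [Q.s_mul, mul_assoc, ← mul_assoc (Q.s a), Q.sq x a ha, smul_mul_assoc, Q.e_mul x g hg.1,
      mul_smul_comm, hg.2])

theorem N_G (ha : a ∈ Q.H x) (h : 0 < Q.ν a) : Q.N a ∈ Q.G x := by
  refine ⟨(Q.H x).smul_mem _ ha, ?_⟩
  rw [N, map_smul, smul_mul_smul_comm, Q.sq x a ha, smul_smul, ← mul_inv,
    Real.mul_self_sqrt h.le, inv_mul_cancel₀ h.ne', one_smul]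

theorem N_of_G (hg : g ∈ Q.G x) : Q.N g = g := by simp [N, ν_G hg]

theorem N_eq (ha : a ∈ Q.H x) (hb : b ∈ Q.H x) (hg : g ∈ Q.G x) (hg' : g' ∈ Q.G x)
    (h : a * g = g' * b) : Q.N a * g = g' * Q.N b := by
  have : Q.ν a = Q.ν b := by rw [← ν_right hg ha, h, ν_left hg' hb]
  rw [N, N, smul_mul_assoc, mul_smul_comm, h, this]

theorem ev_pos (h : 0 < Q.ν a) : ∀ᶠ b in 𝓝 a, 0 < Q.ν b :=
  Q.sν.continuous.continuousAt.eventually (lt_mem_nhds h)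

theorem N_smoothAt (h : 0 < Q.ν a) : ContDiffAt ℝ ∞ Q.N a :=
  ((Q.sν.contDiffAt.sqrt h.ne').inv (Real.sqrt_pos.2 h).ne').smul contDiffAt_id

theorem N_smooth (h : 0 < Q.ν a) : ∀ᶠ b in 𝓝 a, ContDiffAt ℝ ∞ Q.N b :=
  (ev_pos h).mono fun _ hb => N_smoothAt hb

theorem isClosed_G (x : M) : IsClosed (Q.G x) :=
  (Q.H x).closed_of_finiteDimensional.inter
    (isClosed_eq (Q.s.continuous.mul continuous_id) continuous_const)

variable {O O' : Set M} {v w : M → 𝔸}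

theorem Sec.mono (h : Q.Sec O v) (hO : O' ⊆ O) : Q.Sec O' v := fun x hx => h x (hO hx)

theorem Sec.e (O : Set M) : Q.Sec O Q.e := fun x _ => ⟨Q.se x, e_G x⟩

theorem Sec.mul (h : Q.Sec O v) (h' : Q.Sec O w) : Q.Sec O fun x => v x * w x := fun x hx =>
  ⟨((ContinuousLinearMap.mul ℝ 𝔸).contMDiff.contMDiffAt.comp x (h x hx).1).clm_apply (h' x hx).1,
    mul_G (h x hx).2 (h' x hx).2⟩

theorem Sec.s (h : Q.Sec O v) : Q.Sec O fun x => Q.s (v x) := fun x hx =>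
  ⟨Q.s.contMDiff.contMDiffAt.comp x (h x hx).1, s_G (h x hx).2⟩

theorem Sec.mb (h : Q.Sec O v) (hO : IsOpen O) (hx : x ∈ O) (l : Filter α) (k : ℕ) :
    MB I l x k fun _ => v := MB.fixed ((hO.eventually_mem hx).mono fun y hy => (h y hy).1)

end QB

variable (I) in
/-- a smooth partition of unity on `Ω` subordinate to `U` (no sign condition) -/
structure POU {β : Type} (χ : β → M → ℝ) (U : β → Set M) (Ω : Set M) : Prop where
  sm : ∀ i, ∀ x ∈ Ω, ContMDiffAt I 𝓘(ℝ, ℝ) ∞ (χ i) x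
  loc : ∀ x ∈ Ω, ∃ s : Finset β, (∀ i ∈ s, x ∈ U i) ∧ ∀ᶠ y in 𝓝 x, ∀ i ∉ s, χ i y = 0
  sum : ∀ x ∈ Ω, ∑ᶠ i, χ i x = 1

namespace POU
variable {β : Type} {χ : β → M → ℝ} {U U' : β → Set M} {Ω Ω' : Set M}

theorem mono (h : POU I χ U Ω) (hΩ : Ω' ⊆ Ω) (hU : ∀ i, U i ∩ Ω' ⊆ U' i) : POU I χ U' Ω' :=
  ⟨fun i x hx => h.sm i x (hΩ hx), fun x hx =>
    let ⟨s, h1, h2⟩ := h.loc x (hΩ hx); ⟨s, fun i hi => hU i ⟨h1 i hi, hx⟩, h2⟩,
    fun x hx => h.sum x (hΩ hx)⟩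

/-- the local form of the sums -/
theorem nbhd (h : POU I χ U Ω) (hU : ∀ i, IsOpen (U i)) (hΩ : IsOpen Ω) {x : M} (hx : x ∈ Ω) :
    ∃ (s : Finset β) (O : Set M), IsOpen O ∧ x ∈ O ∧ O ⊆ Ω ∧ (∀ i ∈ s, O ⊆ U i) ∧
      (∀ y ∈ O, ∀ c : β → 𝔸, ∑ᶠ i, χ i y • c i = ∑ i ∈ s, χ i y • c i) ∧
      ∀ y ∈ O, ∑ i ∈ s, χ i y = 1 := by
  obtain ⟨s, h1, h2⟩ := h.loc x hx
  have h3 : ∀ᶠ y in 𝓝 x, ∀ i ∈ s, y ∈ U i :=
    s.eventually_all.2 fun i hi => (hU i).eventually_mem (h1 i hi)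
  obtain ⟨O, hO, hOo, hxO⟩ := eventually_nhds_iff.1 (h2.and (h3.and (hΩ.eventually_mem hx)))
  refine ⟨s, O, hOo, hxO, fun y hy => (hO y hy).2.2, fun i hi y hy => (hO y hy).2.1 i hi,
    fun y hy c => finsum_eq_sum_of_support_subset _ fun i hi => ?_, fun y hy => ?_⟩
  · by_contra hs
    exact hi (by simp [(hO y hy).1 i hs])
  · rw [← h.sum y (hO y hy).2.2]
    refine (finsum_eq_sum_of_support_subset _ fun i hi => ?_).symm
    by_contra hs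
    exact hi ((hO y hy).1 i hs)

theorem cover (h : POU I χ U Ω) {x : M} (hx : x ∈ Ω) : ∃ i, x ∈ U i := by
  obtain ⟨s, h1, h2⟩ := h.loc x hx
  by_contra hc
  have : ∀ i, χ i x = 0 := fun i => h2.self_of_nhds i fun hi => hc ⟨i, h1 i hi⟩
  simpa [this] using h.sum x hx

/-- existence over a closed set -/
theorem exists_closed [T2Space M] [SigmaCompactSpace M] {S : Set M} (hS : IsClosed S)
    (hU : ∀ i, IsOpen (U i)) (hc : S ⊆ ⋃ i, U i) : ∃ χ : β → M → ℝ, POU I χ U S := by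
  classical
  obtain ⟨f, hf⟩ := SmoothPartitionOfUnity.exists_isSubordinate I hS U hU hc
  refine ⟨fun i => f i, fun i x _ => (f i).contMDiff x, fun x _ => ?_,
    fun x hx => f.sum_eq_one hx⟩
  refine ⟨f.fintsupport x, fun i hi => hf i ((f.mem_fintsupport_iff x i).1 hi), ?_⟩
  filter_upwards [f.eventually_finsupport_subset x] with y hy i hi
  by_contra h0
  exact hi (hy ((f.mem_finsupport y).2 h0))

end POU

end Crest.Agent.X212.Pat85
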