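import Crest.Agent.X212.Pat85.DB
import Crest.Agent.X212.Pat85.Star
import Crest.Agent.X212.Eps63.Rad

/-!
# X212, PATCH (helper85): parallel frames, the radial gauge for varying fibres
-/

set_option autoImplicit false
set_option linter.unusedSectionVars false
open Set Filter Topology Function
open scoped ContDiff Manifold InnerProductSpace

noncomputable section
namespace Crest.Agent.X212.Pat85

open Cmp73 Sob92
open Wz78 (nab curv SA)
open N207.H (trp crv segD)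

section lin
variable {V F : Type} [NormedAddCommGroup V] [InnerProductSpace ℝ V] [FiniteDimensional ℝ V]
  [NormedAddCommGroup F] [InnerProductSpace ℝ F] [FiniteDimensional ℝ F]

theorem norm_iso {g : F →L[ℝ] V} (h : ad g ∘L g = 1) (v : F) : ‖g v‖ = ‖v‖ := by
  have : ⟪g v, g v⟫_ℝ = ⟪v, v⟫_ℝ := by
    rw [← inner_ad]; exact congrArg (fun L : F →L[ℝ] F => ⟪L v, v⟫_ℝ) h
  rw [real_inner_self_eq_norm_sq, real_inner_self_eq_norm_sq] at this
  exact (pow_left_inj₀ (norm_nonneg _) (norm_nonneg _) two_ne_zero).1 this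

theorem norm_iso_le {g : F →L[ℝ] V} (h : ad g ∘L g = 1) : ‖g‖ ≤ 1 :=
  g.opNorm_le_bound zero_le_one fun v => by rw [norm_iso h, one_mul]

theorem norm_ad_le (g : F →L[ℝ] V) : ‖ad g‖ ≤ ‖g‖ :=
  (ad g).opNorm_le_bound (norm_nonneg _) fun w => by
    have h1 : ‖ad g w‖ ^ 2 ≤ ‖w‖ * (‖g‖ * ‖ad g w‖) := by
      rw [← real_inner_self_eq_norm_sq, inner_ad]
      exact (real_inner_le_norm _ _).trans
        (mul_le_mul_of_nonneg_left (g.le_opNorm _) (norm_nonneg _))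
    rcases (norm_nonneg (ad g w)).eq_or_lt with h | h
    · rw [← h]; positivity
    · nlinarith

theorem ad_star [CompleteSpace V] (A : V →L[ℝ] V) : ad A = star A :=
  ad_eq fun v w => (ContinuousLinearMap.adjoint_inner_right A v w).symm

end lin

section fra
variable {E : Type} [NormedAddCommGroup E] [NormedSpace ℝ E] {HM : Type} [TopologicalSpace HM]
  {I : ModelWithCorners ℝ E HM} {M : Type} [TopologicalSpace M] [ChartedSpace HM M]
  [IsManifold I ∞ M] {ι : Type} [Fintype ι] {α : Type}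
  {F : Type} [NormedAddCommGroup F] [InnerProductSpace ℝ F] [FiniteDimensional ℝ F]

variable (I) in
/-- `g` is an isometric parallel frame at `x` with the connection matrices `B` -/
structure Fra {V : Type} [NormedAddCommGroup V] [InnerProductSpace ℝ V] [FiniteDimensional ℝ V]
    (e : ι → (x : M) → TangentSpace I x) (W : ι → M → V →L[ℝ] V) (p : M → V →L[ℝ] V)
    (B : ι → M → F →L[ℝ] F) (g : M → F →L[ℝ] V) (x : M) : Prop where
  sg : SA I g x
  sB : ∀ a, SA I (B a) x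
  iso : ad (g x) ∘L g x = 1
  rg : g x ∘L ad (g x) = p x
  skW : ∀ a, ad (W a x) = -W a x
  skB : ∀ a, ad (B a x) = -B a x
  par : ∀ a, cov I (e a) (B a) (W a) g x = 0

theorem Fra.par_ad {V : Type} [NormedAddCommGroup V] [InnerProductSpace ℝ V]
    [FiniteDimensional ℝ V] {e : ι → (x : M) → TangentSpace I x} {W : ι → M → V →L[ℝ] V}
    {p : M → V →L[ℝ] V} {B : ι → M → F →L[ℝ] F} {g : M → F →L[ℝ] V} {x : M}
    (h : Fra I e W p B g x) (a : ι) : cov I (e a) (W a) (B a) (fun y => ad (g y)) x = 0 := by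
  rw [cov_ad h.sg (h.skB a) (h.skW a), h.par a, map_zero]

variable {V : α → Type} [∀ n, NormedAddCommGroup (V n)] [∀ n, InnerProductSpace ℝ (V n)]
  [∀ n, FiniteDimensional ℝ (V n)] {𝓕 : Filter (α × M)} {e : α → ι → (x : M) → TangentSpace I x}
  {W : ∀ n, ι → M → V n →L[ℝ] V n} {p : ∀ n, M → V n →L[ℝ] V n} {B B' : α → ι → M → F →L[ℝ] F}
  {g g' : ∀ n, M → F →L[ℝ] V n} {k : ℕ}

theorem DB.fra (ho : OB 𝓕) (h : ∀ᶠ q in 𝓕, Fra I (e q.1) (W q.1) (p q.1) (B q.1) (g q.1) q.2) :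
    DB I 𝓕 e (V := fun n => F →L[ℝ] V n) (fun n => hom (B n) (W n)) k g :=
  DB.par ho (A := fun n => hom (B n) (W n)) (e := e)
    ⟨h.mono fun _ a => a.sg, 1, h.mono fun _ a => norm_iso_le a.iso⟩
    (h.mono fun _ hq a => (add_sub_assoc _ _ _).symm.trans (hq.par a)) k

theorem DB.fra_ad (ho : OB 𝓕) (h : ∀ᶠ q in 𝓕, Fra I (e q.1) (W q.1) (p q.1) (B q.1) (g q.1) q.2) :
    DB I 𝓕 e (V := fun n => V n →L[ℝ] F) (fun n => hom (W n) (B n)) k fun n x => ad (g n x) :=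
  DB.par ho (A := fun n => hom (W n) (B n)) (e := e) (f := fun n x => ad (g n x))
    ⟨h.mono fun _ a => sa_ad a.sg, 1, h.mono fun _ a => (norm_ad_le _).trans (norm_iso_le a.iso)⟩
    (h.mono fun _ hq a => (add_sub_assoc _ _ _).symm.trans (hq.par_ad a)) k

/-- sections read in a frame -/
theorem DB.sec (ho : OB 𝓕) (h : ∀ᶠ q in 𝓕, Fra I (e q.1) (W q.1) (p q.1) (B q.1) (g q.1) q.2)
    (hB : ∀ j < k, ∀ a, DB I 𝓕 e (z0 ι M fun _ => F →L[ℝ] F) j fun n => B n a)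
    {f : ∀ n, M → V n} (hf : DB I 𝓕 e W k f) :
    DB I 𝓕 e (z0 ι M fun _ => F) k fun n x => ad (g n x) (f n x) :=
  DB.plain ho (A := B) hB (DB.app ho (DB.fra_ad ho h) hf)

/-- endomorphisms read in a frame -/
theorem DB.endo (ho : OB 𝓕) (h : ∀ᶠ q in 𝓕, Fra I (e q.1) (W q.1) (p q.1) (B q.1) (g q.1) q.2)
    (hB : ∀ j < k, ∀ a, DB I 𝓕 e (z0 ι M fun _ => F →L[ℝ] F) j fun n => B n a)
    {T : ∀ n, M → V n →L[ℝ] V n} (hT : DB I 𝓕 e (fun n => hom (W n) (W n)) k T) :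
    DB I 𝓕 e (z0 ι M fun _ => F →L[ℝ] F) k fun n x => ad (g n x) ∘L T n x ∘L g n x :=
  DB.plain_hom ho (A := B) (B := B) hB hB
    (DB.comp ho (DB.fra_ad ho h) (DB.comp ho hT (DB.fra ho h)))

/-- transition functions -/
theorem DB.trans (ho : OB 𝓕) (h : ∀ᶠ q in 𝓕, Fra I (e q.1) (W q.1) (p q.1) (B q.1) (g q.1) q.2)
    (h' : ∀ᶠ q in 𝓕, Fra I (e q.1) (W q.1) (p q.1) (B' q.1) (g' q.1) q.2)
    (hB : ∀ j a, DB I 𝓕 e (z0 ι M fun _ => F →L[ℝ] F) j fun n => B n a)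
    (hB' : ∀ j a, DB I 𝓕 e (z0 ι M fun _ => F →L[ℝ] F) j fun n => B' n a) :
    DB I 𝓕 e (z0 ι M fun _ => F →L[ℝ] F) k fun n x => ad (g n x) ∘L g' n x :=
  DB.plain_hom ho (A := B') (B := B) (fun j _ => hB' j) (fun j _ => hB j)
    (DB.comp ho (DB.fra_ad ho h) (DB.fra ho h'))

end fra

section flat
variable {α ι E G : Type} [Fintype ι] [NormedAddCommGroup E] [NormedSpace ℝ E]
  [FiniteDimensional ℝ E] [NormedAddCommGroup G] [NormedSpace ℝ G] {𝓕 : Filter (α × E)}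
  {T : α → ι → E → E} {θ : α → E → E →L[ℝ] ι → ℝ} {k : ℕ} {c : E}

theorem dv_flat (X : E → E) (f : E → G) (z : E) : dv 𝓘(ℝ, E) X f z = fderiv ℝ f z (X z) := by
  unfold dv; rw [mfderiv_eq_fderiv]; rfl

theorem cda_clm {H : Type} [NormedAddCommGroup H] [NormedSpace ℝ H] (L : G →L[ℝ] H) {f : E → G}
    {z : E} (h : ContDiffAt ℝ ∞ f z) : ContDiffAt ℝ ∞ (fun y => L (f y)) z :=
  L.contDiff.contDiffAt.comp z h

/-- spanning frames with bounded jets -/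
structure FF (𝓕 : Filter (α × E)) (T : α → ι → E → E) (θ : α → E → E →L[ℝ] ι → ℝ) : Prop where
  ob : OB 𝓕
  cT : ∀ k a, CB 𝓕 k fun n => T n a
  cθ : ∀ k, CB 𝓕 k θ
  sp : ∀ᶠ q in 𝓕, ∀ v, ∑ a, θ q.1 q.2 v a • T q.1 a q.2 = v

theorem FF.mono (h : FF 𝓕 T θ) {𝓖 : Filter (α × E)} (ho : OB 𝓖) (hG : 𝓖 ≤ 𝓕) : FF 𝓖 T θ :=
  ⟨ho, fun k a => (h.cT k a).mono hG, fun k => (h.cθ k).mono hG, hG h.sp⟩

theorem FF.cb (h : FF 𝓕 T θ) : ∀ {k : ℕ} {f : α → E → G},
    DB 𝓘(ℝ, E) 𝓕 T (z0 ι E fun _ => G) k f → CB 𝓕 k f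
  | 0, _, hf => CB.zero_iff.2 ⟨hf.1.mono fun _ a => a.contDiffAt, hf.2⟩
  | k + 1, f, hf => (FF.cb h (k := 0) hf.1).succ_of_eq
      (((CB.pi fun a => FF.cb h (hf.2 a)).clm (comb ι G)).clm_comp (h.cθ k))
      ((h.ob.ev (p := fun n z => ∀ v, ∑ a, θ n z v a • T n a z = v) h.sp).mono fun q hq =>
        hq.mono fun z hz => by
          ext v
          conv_lhs => rw [← hz v]
          simp [comb_apply, nab, dv_flat])

theorem FF.db (h : FF 𝓕 T θ) : ∀ {k : ℕ} {f : α → E → G}, CB 𝓕 k f →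
    DB 𝓘(ℝ, E) 𝓕 T (z0 ι E fun _ => G) k f
  | 0, _, hf => ⟨hf.smooth.mono fun _ a => a.contMDiffAt, hf.bdd⟩
  | k + 1, f, hf => ⟨⟨hf.smooth.mono fun _ a => a.contMDiffAt, hf.bdd⟩, fun a =>
      (FF.db h (hf.fd.app (h.cT k a))).congr h.ob (.of_forall fun q => by simp [nab, dv_flat])⟩

/-- filters generated by sets with open star shaped fibres -/
def SB (𝓕 : Filter (α × E)) (c : E) : Prop :=
  ∀ D ∈ 𝓕, ∀ᶠ q in 𝓕, q.2 ∈ vis (interior {z | (q.1, z) ∈ D}) c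

theorem SB.ob (h : SB 𝓕 c) : OB 𝓕 := fun D hD => (h D hD).mono fun _ hq =>
  mem_interior_iff_mem_nhds.1 (vis_subset hq)

theorem SB.exists (h : SB 𝓕 c) {P : α × E → Prop} (hP : ∀ᶠ q in 𝓕, P q) : ∃ Ω : α → Set E,
    (∀ n, IsOpen (Ω n)) ∧ Eps63.Star Ω (fun _ => c) ∧ (∀ᶠ q in 𝓕, q.2 ∈ Ω q.1) ∧
      ∀ n, ∀ x ∈ Ω n, P (n, x) :=
  ⟨fun n => vis (interior {z | P (n, z)}) c, fun _ => isOpen_vis isOpen_interior c,
    fun _ x hx t ht => segment_subset_vis hx (by rw [segment_eq_image']; exact ⟨t, ht, rfl⟩),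
    h _ hP, fun n _ hx => interior_subset (s := {z | P (n, z)}) (vis_subset hx)⟩

theorem cb_of_forall {f : α → E → G} (s : ∀ᶠ q in 𝓕, ContDiffAt ℝ ∞ (f q.1) q.2)
    (h : ∀ j ≤ k, ∃ C, ∀ᶠ q in 𝓕, ‖iteratedFDeriv ℝ j (f q.1) q.2‖ ≤ C) : CB 𝓕 k f := by
  choose! C hC using h
  refine ⟨∑ j ∈ Finset.range (k + 1), |C j|, (s.and ((Finset.range (k + 1)).eventually_all.2
    fun j hj => hC j (Nat.lt_succ_iff.1 (Finset.mem_range.1 hj)))).mono fun q hq =>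
      ⟨hq.1, fun j hj => ?_⟩⟩
  have hj' := Finset.mem_range.2 (Nat.lt_succ_of_le hj)
  exact ((hq.2 j hj').trans (le_abs_self _)).trans
    (Finset.single_le_sum (f := fun j => |C j|) (fun _ _ => abs_nonneg _) hj')

theorem cb_radial (hs : SB 𝓕 c) {φ : α → E → G} (s : ∀ᶠ q in 𝓕, ContDiffAt ℝ ∞ (φ q.1) q.2)
    (h : CB 𝓕 k fun n x => φ n x + fderiv ℝ (φ n) x (x - c)) : CB 𝓕 k φ := by
  obtain ⟨C, hC⟩ := h
  obtain ⟨Ω, ho, hst, h1, h2⟩ := hs.exists (s.and hC)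
  refine cb_of_forall s fun j hj => ?_
  have s1 : Eps63.Sm Ω φ := fun n x hx => (h2 n x hx).1
  have s2 : Eps63.Sm Ω fun n x => φ n x + fderiv ℝ (φ n) x (x - c) := fun n x hx => (h2 n x hx).2.1
  have b2 := Eps63.bc_of_itd ho j s2 fun i hi => ⟨C, fun n x hx => (h2 n x hx).2.2 i (hi.trans hj)⟩
  obtain ⟨K, hK⟩ := Eps63.BC.itd ho j s1 (Eps63.bc_of_radial ho hst j 0 s1
    (b2.congr ho fun n x _ => by simp))
  exact ⟨K, h1.mono fun q hq => hK q.1 q.2 hq⟩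

variable {𝔸 : Type} [NormedRing 𝔸] [NormedAlgebra ℝ 𝔸]

theorem crv_sum (Γ : E → E →L[ℝ] 𝔸) (z : E) {t : ι → E} (s s' : ι → ℝ) :
    crv Γ z (∑ a, s a • t a) (∑ b, s' b • t b) = ∑ a, ∑ b, (s a * s' b) • crv Γ z (t a) (t b) := by
  let Q : E →L[ℝ] E →L[ℝ] 𝔸 := fderiv ℝ Γ z - (fderiv ℝ Γ z).flip +
    (ContinuousLinearMap.mul ℝ 𝔸).bilinearComp (Γ z) (Γ z) -
    ((ContinuousLinearMap.mul ℝ 𝔸).bilinearComp (Γ z) (Γ z)).flip
  have h : ∀ u v, crv Γ z u v = Q u v := fun u v => by simp [Q, crv]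
  simp only [h, map_sum, map_smul, _root_.sum_apply, _root_.smul_apply, Finset.smul_sum, smul_smul]
  rw [Finset.sum_comm]
  simp only [mul_comm]

theorem radial_eq {B : E → E →L[ℝ] 𝔸} {x : E} (d : DifferentiableAt ℝ B x)
    (r : ∀ᶠ y in 𝓝 x, B y (y - c) = 0) (v : E) :
    B x v + fderiv ℝ (fun y => B y v) x (x - c) = crv B x (x - c) v := by
  have e1 := congrArg (fun T : E →L[ℝ] 𝔸 => T v)
    ((d.hasFDerivAt.clm_apply ((hasFDerivAt_id x).sub_const c)).unique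
    ((hasFDerivAt_const (0 : 𝔸) x).congr_of_eventuallyEq r))
  rw [(d.hasFDerivAt.clm_apply (hasFDerivAt_const v x)).fderiv, crv, r.self_of_nhds]
  simp only [add_apply, ContinuousLinearMap.comp_apply, ContinuousLinearMap.flip_apply, id,
    ContinuousLinearMap.id_apply, zero_apply] at e1 ⊢
  rw [eq_neg_of_add_eq_zero_right e1]
  simp [add_comm]

variable {V F : Type} [NormedAddCommGroup V] [InnerProductSpace ℝ V] [FiniteDimensional ℝ V]
  [NormedAddCommGroup F] [InnerProductSpace ℝ F] [FiniteDimensional ℝ F]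

theorem crv_par {Γ : E → E →L[ℝ] V →L[ℝ] V} {B : E → E →L[ℝ] F →L[ℝ] F} {g : E → F →L[ℝ] V} {z : E}
    (hΓ : DifferentiableAt ℝ Γ z) (hB : DifferentiableAt ℝ B z) (hg : ContDiffAt ℝ ∞ g z)
    (h : ∀ᶠ y in 𝓝 z, ∀ v, fderiv ℝ g y v = g y ∘L B y v - Γ y v ∘L g y) (u v : E) :
    crv Γ z u v ∘L g z = g z ∘L crv B z u v := by
  have d1 := (hg.differentiableAt (by simp)).hasFDerivAt
  have d2 := ((hg.fderiv_right (m := ∞) (by simp)).differentiableAt (by simp)).hasFDerivAt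
  have key : ∀ u v w, fderiv ℝ (fderiv ℝ g) z u v w =
      g z (fderiv ℝ B z u v w) + fderiv ℝ g z u (B z v w) -
        (Γ z v (fderiv ℝ g z u w) + fderiv ℝ Γ z u v (g z w)) := by
    intro u v w
    have e1 := ((d2.clm_apply (hasFDerivAt_const v z)).unique
      (((d1.clm_comp (hB.hasFDerivAt.clm_apply (hasFDerivAt_const v z))).sub
      ((hΓ.hasFDerivAt.clm_apply (hasFDerivAt_const v z)).clm_comp d1)).congr_of_eventuallyEq
      (h.mono fun y hy => hy v)))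
    simpa using congrArg (fun T : E →L[ℝ] F →L[ℝ] V => T u w) e1
  have sy := (hg.isSymmSndFDerivAt (by simpa using (WithTop.coe_le_coe.2 le_top :
    ((2 : ℕ∞) : WithTop ℕ∞) ≤ ((⊤ : ℕ∞) : WithTop ℕ∞)))) u v
  ext w
  have := congrArg (fun L : F →L[ℝ] V => L w) sy
  simp only [key, h.self_of_nhds, _root_.sub_apply, ContinuousLinearMap.comp_apply, map_sub] at this
  simp only [crv, ContinuousLinearMap.comp_apply, _root_.sub_apply, _root_.add_apply, map_sub,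
    map_add, mul_apply_eq_comp]
  linear_combination (norm := abel) -this

/-- the connection matrix of a frame -/
def rcn (Γ : E → E →L[ℝ] V →L[ℝ] V) (g : E → F →L[ℝ] V) (z : E) : E →L[ℝ] F →L[ℝ] F :=
  ContinuousLinearMap.compL ℝ F V F (ad (g z)) ∘L
    (fderiv ℝ g z + (ContinuousLinearMap.compL ℝ F V V).flip (g z) ∘L Γ z)

theorem rcn_apply (Γ : E → E →L[ℝ] V →L[ℝ] V) (g : E → F →L[ℝ] V) (z v : E) :
    rcn Γ g z v = ad (g z) ∘L (fderiv ℝ g z v + Γ z v ∘L g z) := rfl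

/-- radial transport -/
theorem exists_rad (Γ : E → E →L[ℝ] V →L[ℝ] V) (c : E) : ∃ h : E → V →L[ℝ] V, ∀ O : Set E,
    IsOpen O → (∀ z ∈ O, ContDiffAt ℝ ∞ Γ z ∧ ∀ v, ad (Γ z v) = -Γ z v) → ∀ z ∈ vis O c,
      ContDiffAt ℝ ∞ h z ∧ ad (h z) ∘L h z = 1 ∧ h z ∘L ad (h z) = 1 ∧
      fderiv ℝ h z (z - c) + Γ z (z - c) ∘L h z = 0 ∧
      ∀ S : E → V →L[ℝ] V, (∀ y ∈ O, DifferentiableAt ℝ S y ∧
        ∀ v, fderiv ℝ S y v + (Γ y v ∘L S y - S y ∘L Γ y v) = 0) → S z ∘L h z = h z ∘L S c := by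
  have := FiniteDimensional.complete ℝ V
  refine ⟨fun z => star (trp Γ (c, z)), fun O hO hΓ z hz => ?_⟩
  have s : ContDiffOn ℝ ∞ Γ O := fun y hy => (hΓ y hy).1.contDiffWithinAt
  have sk : ∀ y ∈ O, ∀ v, star (Γ y v) = -Γ y v := fun y hy v => by rw [← ad_star, (hΓ y hy).2]
  have hs : (c, z) ∈ segD O := fun t ht => hz (by rw [segment_eq_image']; exact ⟨t, ht, rfl⟩)
  obtain ⟨u1, u2⟩ := Unitary.mem_iff.1 (Eps63.trp_unitary hO s sk hs)
  have sm : ContDiffAt ℝ ∞ (fun z => trp Γ (c, z)) z := ContDiffAt.comp (g := trp Γ) z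
    (N207.H.contDiffAt_trp hO s hs) (contDiffAt_const.prodMk contDiffAt_id)
  have hγ : ∀ t : ℝ, HasDerivAt (fun t : ℝ => c + t • (z - c)) (z - c) t := fun t => by
    simpa using ((hasDerivAt_id t).smul_const (z - c)).const_add c
  refine ⟨(starL' ℝ : (V →L[ℝ] V) ≃L[ℝ] V →L[ℝ] V).contDiff.contDiffAt.comp z sm,
    by rw [ad_star, star_star]; exact u2, by rw [ad_star, star_star]; exact u1, ?_, fun S hS => ?_⟩
  · have h1 := N207.H.hasDerivAt_trp hO s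
      (N207.H.segD_scale hs (τ := 1) ⟨zero_le_one, le_rfl⟩)
    have h3 := HasFDerivAt.comp_hasDerivAt_of_eq (1 : ℝ)
      (sm.differentiableAt (by simp)).hasFDerivAt (hγ 1) (by simp)
    have h4 := h3.unique h1
    simp only [one_smul, add_sub_cancel] at h4
    rw [Eps63.fderiv_star_apply (f := fun z => trp Γ (c, z)), h4, star_mul, sk z (vis_subset hz),
      neg_mul]
    exact neg_add_cancel _
  · have key : ∀ t ∈ Icc (0 : ℝ) 1, HasDerivWithinAt (fun t : ℝ => trp Γ (c, c + t • (z - c)) *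
        S (c + t • (z - c)) * star (trp Γ (c, c + t • (z - c)))) 0 (Icc 0 1) t := by
      intro t ht
      have a := N207.H.hasDerivAt_trp hO s (N207.H.segD_scale hs ht)
      have b := (hS _ (hs t ht)).1.hasFDerivAt.comp_hasDerivAt t (hγ t)
      refine ((a.mul b).mul a.star).hasDerivWithinAt.congr_deriv ?_
      have e : fderiv ℝ S (c + t • (z - c)) (z - c) = S (c + t • (z - c)) * Γ _ (z - c) -
          Γ (c + t • (z - c)) (z - c) * S (c + t • (z - c)) :=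
        (eq_neg_of_add_eq_zero_left ((hS _ (hs t ht)).2 (z - c))).trans (neg_sub _ _)
      rw [star_mul, sk _ (hs t ht), e]
      simp only [Pi.mul_apply, comp_apply]
      noncomm_ring
    have := norm_image_sub_le_of_norm_deriv_le_segment_01' (C := 0) key fun t _ => by simp
    simp only [one_smul, add_sub_cancel, zero_smul, add_zero,
      N207.H.trp_self s (N207.H.segD_left hs), star_one, mul_one, one_mul, norm_le_zero_iff,
      sub_eq_zero] at this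
    change S z * _ = _ * S c
    rw [← this, ← mul_assoc, ← mul_assoc, u1, one_mul]

/-- the flat form of a radial frame -/
structure RF (Γ : E → E →L[ℝ] V →L[ℝ] V) (p : E → V →L[ℝ] V) (c : E) (g : E → F →L[ℝ] V) (z : E) :
    Prop where
  sΓ : ContDiffAt ℝ ∞ Γ z
  sg : ContDiffAt ℝ ∞ g z
  iso : ad (g z) ∘L g z = 1
  rg : g z ∘L ad (g z) = p z
  sk : ∀ v, ad (Γ z v) = -Γ z v
  skB : ∀ v, ad (rcn Γ g z v) = -rcn Γ g z v
  par : ∀ v, fderiv ℝ g z v = g z ∘L rcn Γ g z v - Γ z v ∘L g z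
  rad : rcn Γ g z (z - c) = 0

theorem RF.sB {Γ : E → E →L[ℝ] V →L[ℝ] V} {p : E → V →L[ℝ] V} {g : E → F →L[ℝ] V} {z : E}
    (h : RF Γ p c g z) : ContDiffAt ℝ ∞ (rcn Γ g) z := by
  have h1 := cda_clm (G := V →L[ℝ] F) (H := (F →L[ℝ] V) →L[ℝ] F →L[ℝ] F)
    (ContinuousLinearMap.compL ℝ F V F) (cda_clm (ad (V := F) (W := V)) h.sg)
  have h2 := cda_clm (G := F →L[ℝ] V) (H := (V →L[ℝ] V) →L[ℝ] F →L[ℝ] V)
    (ContinuousLinearMap.compL ℝ F V V).flip h.sg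
  exact h1.clm_comp ((h.sg.fderiv_right (m := ∞) (by simp)).add (h2.clm_comp h.sΓ))

/-- **radial frames** -/
theorem exists_rf (Γ : E → E →L[ℝ] V →L[ℝ] V) (p : E → V →L[ℝ] V) (c : E) (g₀ : F →L[ℝ] V) :
    ∃ g : E → F →L[ℝ] V, ∀ O : Set E, IsOpen O → ad g₀ ∘L g₀ = 1 → g₀ ∘L ad g₀ = p c →
      (∀ z ∈ O, ContDiffAt ℝ ∞ Γ z ∧ ∀ v, ad (Γ z v) = -Γ z v) →
      (∀ y ∈ O, DifferentiableAt ℝ p y ∧
        ∀ v, fderiv ℝ p y v + (Γ y v ∘L p y - p y ∘L Γ y v) = 0) → ∀ z ∈ vis O c, RF Γ p c g z ∧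
      ∀ J : V →L[ℝ] V, J ∘L p c = p c ∘L J → (∀ y ∈ O, ∀ v, J ∘L Γ y v = Γ y v ∘L J) →
        J ∘L g z = g z ∘L ad g₀ ∘L J ∘L g₀ := by
  obtain ⟨h, hh⟩ := exists_rad Γ c
  refine ⟨fun z => h z ∘L g₀, fun O hO i1 i2 hΓ hp z hz => ?_⟩
  have pg : p c ∘L g₀ = g₀ := by rw [← i2, ContinuousLinearMap.comp_assoc, i1]; rfl
  have H := hh O hO hΓ
  have iso : ∀ y ∈ vis O c, ad (h y ∘L g₀) ∘L (h y ∘L g₀) = 1 := fun y hy => by
    rw [ad_comp, ContinuousLinearMap.comp_assoc, ← ContinuousLinearMap.comp_assoc (ad (h y)),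
      (H y hy).2.1, ← i1]; rfl
  have pr : ∀ y ∈ vis O c, p y ∘L (h y ∘L g₀) = h y ∘L g₀ := fun y hy => by
    rw [← ContinuousLinearMap.comp_assoc, (H y hy).2.2.2.2 p hp, ContinuousLinearMap.comp_assoc, pg]
  obtain ⟨h1, h2, h3, h4, h5⟩ := H z hz
  have sg : ContDiffAt ℝ ∞ (fun z => h z ∘L g₀) z := h1.clm_comp contDiffAt_const
  have dg := (sg.differentiableAt (by simp)).hasFDerivAt
  have nb := (isOpen_vis hO c).eventually_mem hz
  have rg : (h z ∘L g₀) ∘L ad (h z ∘L g₀) = p z := by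
    rw [ad_comp, ContinuousLinearMap.comp_assoc, ← ContinuousLinearMap.comp_assoc g₀, i2,
      ← ContinuousLinearMap.comp_assoc, ← h5 p hp, ContinuousLinearMap.comp_assoc, h3]; rfl
  refine ⟨⟨(hΓ z (vis_subset hz)).1, sg, iso z hz, rg, (hΓ z (vis_subset hz)).2, fun v => ?_,
    fun v => ?_, ?_⟩, fun J j1 j2 => ?_⟩
  · have e1 := congrArg (fun T : E →L[ℝ] F →L[ℝ] F => T v)
      ((((ad (V := F) (W := V)).hasFDerivAt.comp z dg).clm_comp dg).unique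
      ((hasFDerivAt_const (1 : F →L[ℝ] F) z).congr_of_eventuallyEq (nb.mono iso)))
    simp only [add_apply, ContinuousLinearMap.comp_apply, ContinuousLinearMap.flip_apply,
      ContinuousLinearMap.compL_apply, comp_apply, zero_apply] at e1
    rw [rcn_apply, ad_comp, ad_ad, map_add, ad_comp, (hΓ z (vis_subset hz)).2,
      ContinuousLinearMap.add_comp, ContinuousLinearMap.comp_add, eq_neg_of_add_eq_zero_right e1]
    ext w
    simp [add_comm]
  · have e1 := congrArg (fun T : E →L[ℝ] F →L[ℝ] V => T v)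
      (((hp z (vis_subset hz)).1.hasFDerivAt.clm_comp dg).unique
      (dg.congr_of_eventuallyEq (nb.mono pr)))
    simp only [add_apply, ContinuousLinearMap.comp_apply, ContinuousLinearMap.flip_apply,
      ContinuousLinearMap.compL_apply] at e1
    rw [rcn_apply, ← ContinuousLinearMap.comp_assoc, rg, ContinuousLinearMap.comp_add]
    rw [eq_neg_of_add_eq_zero_left ((hp z (vis_subset hz)).2 v), ContinuousLinearMap.neg_comp,
      ContinuousLinearMap.sub_comp, ContinuousLinearMap.comp_assoc, pr z hz,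
      ContinuousLinearMap.comp_assoc] at e1
    conv_lhs => rw [← e1]
    abel
  · have e1 : fderiv ℝ (fun z => h z ∘L g₀) z (z - c) = fderiv ℝ h z (z - c) ∘L g₀ := by
      rw [((h1.differentiableAt (by simp)).hasFDerivAt.clm_comp (hasFDerivAt_const g₀ z)).fderiv]
      simp
    rw [rcn_apply, e1, ← ContinuousLinearMap.comp_assoc (Γ z (z - c)),
      ← ContinuousLinearMap.add_comp, h4]
    simp
  · rw [← ContinuousLinearMap.comp_assoc, h5 (fun _ => J) fun y hy =>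
      ⟨differentiableAt_const _, fun v => by simp [j2 y hy v]⟩, ContinuousLinearMap.comp_assoc,
      ContinuousLinearMap.comp_assoc, ← ContinuousLinearMap.comp_assoc g₀, i2,
      ← ContinuousLinearMap.comp_assoc (p c), ← j1, ContinuousLinearMap.comp_assoc J, pg]

theorem RF.fra {Γ : E → E →L[ℝ] V →L[ℝ] V} {p : E → V →L[ℝ] V} {g : E → F →L[ℝ] V} {z : E}
    (h : RF Γ p c g z) {t : ι → E → E} (ht : ∀ a, ContDiffAt ℝ ∞ (t a) z) :
    Fra 𝓘(ℝ, E) t (fun a y => Γ y (t a y)) p (fun a y => rcn Γ g y (t a y)) g z :=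
  ⟨h.sg.contMDiffAt, fun a => (h.sB.clm_apply (ht a)).contMDiffAt, h.iso, h.rg, fun _ => h.sk _,
    fun _ => h.skB _, fun a => by simp only [cov]; rw [dv_flat, h.par]; abel⟩

end flat

section rad
variable {α ι E F : Type} [Fintype ι] [NormedAddCommGroup E] [NormedSpace ℝ E]
  [FiniteDimensional ℝ E] {𝓕 : Filter (α × E)} {T : α → ι → E → E} {θ : α → E → E →L[ℝ] ι → ℝ}
  {c : E} [NormedAddCommGroup F] [InnerProductSpace ℝ F] [FiniteDimensional ℝ F]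
  {V : α → Type} [∀ n, NormedAddCommGroup (V n)] [∀ n, InnerProductSpace ℝ (V n)]
  [∀ n, FiniteDimensional ℝ (V n)] {Γ : ∀ n, E → E →L[ℝ] V n →L[ℝ] V n}
  {p : ∀ n, E → V n →L[ℝ] V n} {g : ∀ n, E → F →L[ℝ] V n}

/-- **RAD** for varying fibres -/
theorem cb_rcn (hT : FF 𝓕 T θ) (hs : SB 𝓕 c) (hb : ∃ K, ∀ᶠ q in 𝓕, ‖q.2 - c‖ ≤ K)
    (hg : ∀ᶠ q in 𝓕, RF (Γ q.1) (p q.1) c (g q.1) q.2) {R : ι → ι → ∀ n, E → V n →L[ℝ] V n}
    (hR : ∀ k a b, DB 𝓘(ℝ, E) 𝓕 T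
      (fun n => hom (fun a y => Γ n y (T n a y)) fun a y => Γ n y (T n a y)) k (R a b))
    (hR' : ∀ᶠ q in 𝓕, ∀ a b, R a b q.1 q.2 ∘L g q.1 q.2 =
      crv (Γ q.1) q.2 (T q.1 a q.2) (T q.1 b q.2) ∘L g q.1 q.2) (k : ℕ) :
    CB 𝓕 k fun n => rcn (Γ n) (g n) := by
  have ho := hT.ob
  have hg' := ho.ev (p := fun n z => RF (Γ n) (p n) c (g n) z) hg
  have fr : ∀ᶠ q in 𝓕, Fra 𝓘(ℝ, E) (T q.1) (fun a y => Γ q.1 y (T q.1 a y)) (p q.1)
      (fun a y => rcn (Γ q.1) (g q.1) y (T q.1 a y)) (g q.1) q.2 :=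
    (hg.and (eventually_all.2 fun a => (hT.cT 0 a).smooth)).mono fun _ hq => hq.1.fra hq.2
  have hx : ∀ k, CB 𝓕 k fun (_ : α) x => x - c := by
    have h0 : CB 𝓕 0 fun (_ : α) x => x - c :=
      CB.zero_iff.2 ⟨.of_forall fun _ => contDiffAt_id.sub contDiffAt_const, hb⟩
    rintro (_ | k)
    · exact h0
    · exact h0.succ_of_eq (CB.const (ContinuousLinearMap.id ℝ E))
        (.of_forall fun _ => .of_forall fun y => by simp [fderiv_sub_const])
  induction k using Nat.strong_induction_on with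
  | _ k ih =>
  have h1 : ∀ a b, CB 𝓕 k fun n z => ad (g n z) ∘L R a b n z ∘L g n z := fun a b =>
    hT.cb (DB.endo ho fr (fun j hj a => hT.db ((ih j hj).app (hT.cT j a))) (hR k a b))
  refine CB.of_apply fun v => cb_radial hs (hg.mono fun _ a => a.sB.clm_apply contDiffAt_const) ?_
  refine (CB.sum fun a => CB.sum fun b => ((((hT.cθ k).app (hx k)).apply a).mul
    (((hT.cθ k).app (CB.const v)).apply b)).smul (h1 a b)).congr (ho.ev (p := fun n z =>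
      rcn (Γ n) (g n) z v + fderiv ℝ (fun y => rcn (Γ n) (g n) y v) z (z - c) =
        ∑ a, ∑ b, (θ n z (z - c) a * θ n z v b) • ad (g n z) ∘L R a b n z ∘L g n z) ?_)
  filter_upwards [hg', hR', hT.sp] with q a1 a2 a3
  have a0 := a1.self_of_nhds
  have dB := a0.sB.differentiableAt (by simp)
  rw [radial_eq dB (a1.mono fun _ h => h.rad)]
  conv_lhs => rw [← a3 (q.2 - c), ← a3 v]
  rw [crv_sum]
  refine Finset.sum_congr rfl fun a _ => Finset.sum_congr rfl fun b _ => ?_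
  rw [a2, crv_par (a0.sΓ.differentiableAt (by simp)) dB a0.sg (a1.mono fun _ h => h.par),
    ← ContinuousLinearMap.comp_assoc, a0.iso]
  rfl

end rad

end Crest.Agent.X212.Pat85
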